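import Vale.Agent.P205.Iter.Limit

/-!
A finite atlas of parametrised balls with a smooth partition of unity, and the passage between
maps on the manifold and their localised pieces on the model space.
-/

noncomputable section

open Set Filter Metric Finset Function
open scoped Topology ContDiff Manifold

namespace Vale.Agent.P205.Iter

variable {E : Type} [NormedAddCommGroup E] [NormedSpace ℝ E] [FiniteDimensional ℝ E]
  {E₀ : Type*} [NormedAddCommGroup E₀] [NormedSpace ℝ E₀]
  {H : Type*} [TopologicalSpace H] {I : ModelWithCorners ℝ E₀ H}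
  {M : Type} [TopologicalSpace M] [ChartedSpace H M]

variable (E) (I) (M) in
/-- Parametrised balls of radius three with a partition of unity supported in the unit parts. -/
structure Atlas where
  /-- The index type. -/
  ι : Type
  fin : Fintype ι
  /-- The parametrisations. -/
  par : ι → E → M
  /-- Their inverses. -/
  inv : ι → M → E
  /-- Their images. -/
  src : ι → Set M
  src_open : ∀ j, IsOpen (src j)
  par_smooth : ∀ j, ContMDiffOn 𝓘(ℝ, E) I ∞ (par j) (ball 0 3)
  par_mem : ∀ j, MapsTo (par j) (ball 0 3) (src j)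
  inv_mem : ∀ j, MapsTo (inv j) (src j) (ball 0 3)
  inv_smooth : ∀ j, ContMDiffOn I 𝓘(ℝ, E) ∞ (inv j) (src j)
  inv_par : ∀ j, ∀ z ∈ ball (0 : E) 3, inv j (par j z) = z
  par_inv : ∀ j, ∀ p ∈ src j, par j (inv j p) = p
  /-- The weights. -/
  weight : ι → M → ℝ
  weight_smooth : ∀ j, ContMDiff I 𝓘(ℝ) ∞ (weight j)
  weight_supp : ∀ j, tsupport (weight j) ⊆ src j ∩ inv j ⁻¹' ball 0 1
  weight_sum : ∀ p, letI := fin; ∑ j, weight j p = 1

instance (A : Atlas (E := E) (I := I) (M := M)) : Fintype A.ι := A.fin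

section existence

variable [I.Boundaryless] [IsManifold I ∞ M] [CompactSpace M] [T2Space M] (L : E ≃L[ℝ] E₀)

include L in
omit [FiniteDimensional ℝ E] [CompactSpace M] [T2Space M] in
theorem exists_ball_chart (p : M) : ∃ (ψ : E → M) (q : M → E) (U : Set M), IsOpen U ∧ p ∈ U ∧
    q p = 0 ∧ ContMDiffOn 𝓘(ℝ, E) I ∞ ψ (ball 0 3) ∧ MapsTo ψ (ball 0 3) U ∧
    MapsTo q U (ball 0 3) ∧ ContMDiffOn I 𝓘(ℝ, E) ∞ q U ∧
    (∀ z ∈ ball (0 : E) 3, q (ψ z) = z) ∧ ∀ y ∈ U, ψ (q y) = y := by
  set e := extChartAt I p with he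
  obtain ⟨ε, hε, hball⟩ := Metric.isOpen_iff.1 (isOpen_extChartAt_target p (I := I)) (e p)
    (mem_extChartAt_target p)
  set c : ℝ := ‖(L : E →L[ℝ] E₀)‖ + 1 with hc
  have hc0 : 0 < c := by positivity
  set r : ℝ := ε / (4 * c) with hr
  have hr0 : 0 < r := by positivity
  have hmem : ∀ z ∈ ball (0 : E) 3, e p + r • L z ∈ e.target := fun z hz => hball <| by
    rw [mem_ball, dist_self_add_left, norm_smul, Real.norm_eq_abs, abs_of_pos hr0]
    have h1 : ‖L z‖ ≤ c * 3 := ((L : E →L[ℝ] E₀).le_opNorm z).trans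
      (mul_le_mul (le_add_of_nonneg_right zero_le_one) (mem_ball_zero_iff.1 hz).le (norm_nonneg _)
        hc0.le)
    calc r * ‖L z‖ ≤ r * (c * 3) := mul_le_mul_of_nonneg_left h1 hr0.le
      _ = ε * (3 / 4) := by rw [hr]; field_simp
      _ < ε := by linarith
  set q : M → E := fun y => L.symm (r⁻¹ • (e y - e p)) with hq
  have hsq : ContMDiffOn I 𝓘(ℝ, E) ∞ q e.source := by
    rw [he, extChartAt_source]
    exact (L.symm.contDiff.comp
      ((contDiff_id.sub contDiff_const).const_smul r⁻¹)).contMDiff.comp_contMDiffOn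
      contMDiffOn_extChartAt
  have hqψ : ∀ z ∈ ball (0 : E) 3, q (e.symm (e p + r • L z)) = z := fun z hz => by
    simp only [hq]
    rw [e.right_inv (hmem z hz), add_sub_cancel_left, inv_smul_smul₀ hr0.ne',
      L.symm_apply_apply]
  refine ⟨fun z => e.symm (e p + r • L z), q, e.source ∩ q ⁻¹' ball 0 3, ?_,
    ⟨mem_extChartAt_source p, by simp [hq, he]⟩, by simp [hq], ?_, ?_, fun y hy => hy.2,
    hsq.mono inter_subset_left, hqψ, fun y hy => ?_⟩
  · exact hsq.continuousOn.isOpen_inter_preimage (isOpen_extChartAt_source p) isOpen_ball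
  · exact (contMDiffOn_extChartAt_symm p).comp
      (contDiff_const.add (L.contDiff.const_smul r)).contMDiff.contMDiffOn hmem
  · intro z hz
    refine ⟨e.map_target (hmem z hz), ?_⟩
    show q (e.symm (e p + r • L z)) ∈ ball (0 : E) 3
    rw [hqψ z hz]
    exact hz
  · simp only [hq]
    rw [L.apply_symm_apply, smul_inv_smul₀ hr0.ne', add_sub_cancel, e.left_inv hy.1]

include L in
/-- A compact boundaryless manifold has such an atlas. -/
theorem nonempty_atlas : Nonempty (Atlas (E := E) (I := I) (M := M)) := by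
  have : FiniteDimensional ℝ E₀ := L.toLinearEquiv.finiteDimensional
  choose ψ q U hU hpU hq0 hψs hψU hqU hqs hqψ hψq using fun p : M => exists_ball_chart (I := I) L p
  set V : M → Set M := fun p => U p ∩ q p ⁻¹' ball 0 1 with hV
  have hVo : ∀ p, IsOpen (V p) := fun p =>
    (hqs p).continuousOn.isOpen_inter_preimage (hU p) isOpen_ball
  have hVn : ∀ p, V p ∈ 𝓝 p := fun p => (hVo p).mem_nhds ⟨hpU p, by simp [hq0 p]⟩
  obtain ⟨t, ht⟩ := isCompact_univ.elim_nhds_subcover V fun p _ => hVn p
  obtain ⟨f, hf⟩ := SmoothPartitionOfUnity.exists_isSubordinate I isClosed_univ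
    (fun j : t => V j) (fun j => hVo j) (fun y _ => by
      obtain ⟨p, hp, hy⟩ := mem_iUnion₂.1 (ht.2 (mem_univ y))
      exact mem_iUnion.2 ⟨⟨p, hp⟩, hy⟩)
  exact ⟨{
    ι := t
    fin := inferInstance
    par := fun j => ψ j
    inv := fun j => q j
    src := fun j => U j
    src_open := fun j => hU _
    par_smooth := fun j => hψs _
    par_mem := fun j => hψU _
    inv_mem := fun j => hqU _
    inv_smooth := fun j => hqs _
    inv_par := fun j => hqψ _
    par_inv := fun j => hψq _
    weight := fun j => f j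
    weight_smooth := fun j => (f j).contMDiff
    weight_supp := fun j => hf j
    weight_sum := fun p => by
      rw [← finsum_eq_sum_of_fintype]
      exact f.sum_eq_one (mem_univ p) }⟩

end existence

namespace Atlas

variable (A : Atlas (E := E) (I := I) (M := M)) {V : Type} [NormedAddCommGroup V] [NormedSpace ℝ V]

/-- The underlying cover. -/
def toCover : Cover (E := E) (I := I) (M := M) where
  ι := A.ι
  fin := A.fin
  par := A.par
  smooth := A.par_smooth
  inv j z hz := by
    have hz3 : z ∈ ball (0 : E) 3 := ball_subset_ball (by norm_num) hz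
    exact ⟨A.inv j, (A.inv_smooth j).contMDiffAt ((A.src_open j).mem_nhds (A.par_mem j hz3)),
      A.inv_par j z hz3, eventually_of_mem ((A.src_open j).mem_nhds (A.par_mem j hz3)) (A.par_inv j)⟩
  cover p := by
    obtain ⟨j, -, hj⟩ := exists_ne_zero_of_sum_ne_zero
      (by rw [A.weight_sum p]; exact one_ne_zero : (∑ j, A.weight j p) ≠ 0)
    have h := A.weight_supp j (subset_tsupport _ hj)
    exact ⟨j, A.inv j p, h.2, A.par_inv j p h.1⟩

/-- The `i`-th derivatives in the parametrisations are bounded by `C`. -/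
def NormLe (i : ℕ) (X : M → V) (C : ℝ) : Prop :=
  ∀ j, ∀ z ∈ ball (0 : E) 2, ‖iteratedFDeriv ℝ i (fun y => X (A.par j y)) z‖ ≤ C

open Classical in
/-- The localised piece of a map. -/
def loc (j : A.ι) (X : M → V) (z : E) : V :=
  if z ∈ ball (0 : E) 3 then A.weight j (A.par j z) • X (A.par j z) else 0

open Classical in
/-- A map on the model space carried to the manifold. -/
def glue (j : A.ι) (Y : E → V) (p : M) : V := if p ∈ A.src j then Y (A.inv j p) else 0

omit [FiniteDimensional ℝ E] in
theorem sum_glue_loc (X : M → V) (p : M) : ∑ j, A.glue j (A.loc j X) p = X p := by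
  conv_rhs => rw [← one_smul ℝ (X p), ← A.weight_sum p, Finset.sum_smul]
  refine Finset.sum_congr rfl fun j _ => ?_
  by_cases hp : p ∈ A.src j
  · rw [glue, if_pos hp, loc, if_pos (A.inv_mem j hp), A.par_inv j p hp]
  · rw [glue, if_neg hp, image_eq_zero_of_notMem_tsupport fun h => hp (A.weight_supp j h).1,
      zero_smul]

omit [FiniteDimensional ℝ E] in
theorem loc_supp (j : A.ι) (X : M → V) : support (A.loc j X) ⊆ closedBall 0 1 := by
  intro z hz
  simp only [mem_support, loc] at hz
  split_ifs at hz with h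
  · have h1 : A.weight j (A.par j z) ≠ 0 := fun h0 => hz (by rw [h0, zero_smul])
    have h2 := (A.weight_supp j (subset_tsupport _ h1)).2
    rw [Set.mem_preimage, A.inv_par j z h] at h2
    exact ball_subset_closedBall h2
  · exact absurd rfl hz

omit [FiniteDimensional ℝ E] in
theorem loc_smooth (j : A.ι) {X : M → V} (hX : ContMDiff I 𝓘(ℝ, V) ∞ X) :
    ContDiff ℝ ∞ (A.loc j X) := by
  refine contDiff_iff_contDiffAt.2 fun z => ?_
  by_cases hz : z ∈ closedBall (0 : E) 1
  · have h3 : z ∈ ball (0 : E) 3 := closedBall_subset_ball (by norm_num) hz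
    have h := (((A.weight_smooth j).comp_contMDiffOn (A.par_smooth j)).contDiffOn.smul
      (hX.comp_contMDiffOn (A.par_smooth j)).contDiffOn).contDiffAt (isOpen_ball.mem_nhds h3)
    exact h.congr_of_eventuallyEq
      (eventually_of_mem (isOpen_ball.mem_nhds h3) fun y hy => if_pos hy)
  · refine (contDiffAt_const (c := (0 : V))).congr_of_eventuallyEq ?_
    exact eventually_of_mem (isClosed_closedBall.isOpen_compl.mem_nhds hz) fun y hy =>
      notMem_support.1 fun h => hy (A.loc_supp j X h)

theorem glue_smooth [T2Space M] (j : A.ι) {Y : E → V} (hY : ContDiff ℝ ∞ Y)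
    (hs : support Y ⊆ closedBall 0 2) : ContMDiff I 𝓘(ℝ, V) ∞ (A.glue j Y) := by
  intro p
  by_cases hp : p ∈ A.src j
  · exact (hY.contMDiff.contMDiffAt.comp p
      ((A.inv_smooth j).contMDiffAt ((A.src_open j).mem_nhds hp))).congr_of_eventuallyEq
      (eventually_of_mem ((A.src_open j).mem_nhds hp) fun y hy => if_pos hy)
  · have hK : IsClosed (A.par j '' closedBall 0 2) :=
      ((isCompact_closedBall 0 2).image_of_continuousOn ((A.par_smooth j).continuousOn.mono
        (closedBall_subset_ball (by norm_num)))).isClosed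
    have hpK : p ∉ A.par j '' closedBall 0 2 := by
      rintro ⟨z, hz, rfl⟩
      exact hp (A.par_mem j (closedBall_subset_ball (by norm_num) hz))
    refine (contMDiffAt_const (c := (0 : V))).congr_of_eventuallyEq ?_
    refine eventually_of_mem (hK.isOpen_compl.mem_nhds hpK) fun y hy => ?_
    simp only [glue]
    split_ifs with h
    · exact notMem_support.1 fun h0 => hy ⟨_, hs h0, A.par_inv j y h⟩
    · rfl

/-- Gluing costs a constant in each order. -/
theorem glue_bound [T2Space M] (j : A.ι) (i : ℕ) : ∃ c : ℝ, 0 ≤ c ∧ ∀ Y : E → V, ContDiff ℝ ∞ Y →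
    support Y ⊆ closedBall 0 2 → ∀ C : ℝ, (∀ l ≤ i, ∀ y, ‖iteratedFDeriv ℝ l Y y‖ ≤ C) →
      A.NormLe i (A.glue j Y) (c * C) := by
  have hper : ∀ k : A.ι, ∃ c : ℝ, 0 ≤ c ∧ ∀ Y : E → V, ContDiff ℝ ∞ Y →
      support Y ⊆ closedBall 0 2 → ∀ C : ℝ, (∀ l ≤ i, ∀ y, ‖iteratedFDeriv ℝ l Y y‖ ≤ C) →
      ∀ z ∈ ball (0 : E) 2, ‖iteratedFDeriv ℝ i (fun y => A.glue j Y (A.par k y)) z‖ ≤ c * C := by
    intro k
    set O : Set E := ball 0 3 ∩ A.par k ⁻¹' A.src j with hO
    have hOo : IsOpen O :=
      (A.par_smooth k).continuousOn.isOpen_inter_preimage isOpen_ball (A.src_open j)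
    set T : E → E := fun y => A.inv j (A.par k y) with hT
    have hTs : ContDiffOn ℝ ∞ T O :=
      ((A.inv_smooth j).comp ((A.par_smooth k).mono inter_subset_left)
        fun y hy => hy.2).contDiffOn
    have hP : IsClosed (A.par j '' closedBall 0 2) :=
      ((isCompact_closedBall 0 2).image_of_continuousOn ((A.par_smooth j).continuousOn.mono
        (closedBall_subset_ball (by norm_num)))).isClosed
    set K : Set E := closedBall 0 2 ∩ A.par k ⁻¹' (A.par j '' closedBall 0 2) with hK
    have hKc : IsCompact K := (isCompact_closedBall (0 : E) 2).of_isClosed_subset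
      (((A.par_smooth k).continuousOn.mono (closedBall_subset_ball (by norm_num))).preimage_isClosed_of_isClosed
        isClosed_closedBall hP) inter_subset_left
    have hKO : K ⊆ O := by
      rintro y ⟨hy, z, hz, hzy⟩
      refine ⟨closedBall_subset_ball (by norm_num) hy, ?_⟩
      rw [Set.mem_preimage, ← hzy]
      exact A.par_mem j (closedBall_subset_ball (by norm_num) hz)
    have hbd : ∀ l : ℕ, ∃ B, ∀ y ∈ K, ‖iteratedFDerivWithin ℝ l T O y‖ ≤ B := fun l =>
      hKc.exists_bound_of_continuousOn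
        ((hTs.continuousOn_iteratedFDerivWithin (by exact_mod_cast le_top) hOo.uniqueDiffOn).mono hKO)
    choose B hB using hbd
    set D : ℝ := 1 + ∑ l ∈ range (i + 1), |B l| with hD
    refine ⟨(i.factorial : ℝ) * D ^ i, by positivity, fun Y hY hs C hC z hz => ?_⟩
    have hC0 : 0 ≤ C := (norm_nonneg _).trans (hC 0 (Nat.zero_le i) 0)
    by_cases hzK : z ∈ K
    · have hev : (fun y => A.glue j Y (A.par k y)) =ᶠ[𝓝 z] Y ∘ T :=
        eventually_of_mem (hOo.mem_nhds (hKO hzK)) fun y hy => if_pos hy.2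
      rw [(hev.iteratedFDeriv ℝ i).eq_of_nhds, ← iteratedFDerivWithin_of_isOpen i hOo (hKO hzK)]
      refine (norm_iteratedFDerivWithin_comp_le (N := ∞) hY.contDiffOn hTs
        (by exact_mod_cast le_top) uniqueDiffOn_univ hOo.uniqueDiffOn (mapsTo_univ _ _) (hKO hzK)
        (C := C) (D := D) (fun l hl => by rw [iteratedFDerivWithin_univ]; exact hC l hl _)
        fun l h1 h2 => ?_).trans (le_of_eq (by ring))
      have h3 : |B l| ≤ ∑ l ∈ range (i + 1), |B l| :=
        single_le_sum (fun m _ => abs_nonneg (B m)) (mem_range.2 (by omega))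
      calc ‖iteratedFDerivWithin ℝ l T O z‖ ≤ D := by
            rw [hD]; linarith [hB l z hzK, le_abs_self (B l)]
        _ ≤ D ^ l := by
            refine le_self_pow₀ ?_ (by omega)
            linarith [Finset.sum_nonneg (s := range (i + 1)) fun m _ => abs_nonneg (B m)]
    · have hz3 : z ∈ ball (0 : E) 3 := ball_subset_ball (by norm_num) hz
      have hzP : A.par k z ∉ A.par j '' closedBall 0 2 := fun h =>
        hzK ⟨ball_subset_closedBall hz, h⟩
      have hev : (fun y => A.glue j Y (A.par k y)) =ᶠ[𝓝 z] fun _ => (0 : V) := by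
        filter_upwards [((A.par_smooth k).continuousOn.continuousAt
          (isOpen_ball.mem_nhds hz3)).preimage_mem_nhds (hP.isOpen_compl.mem_nhds hzP)] with y hy
        simp only [glue]
        split_ifs with h
        · exact notMem_support.1 fun h0 => hy ⟨_, hs h0, A.par_inv j _ h⟩
        · rfl
      rw [(hev.iteratedFDeriv ℝ i).eq_of_nhds, iteratedFDeriv_fun_zero, Pi.zero_apply, norm_zero]
      positivity
  choose c hc0 hc using hper
  refine ⟨∑ k, c k, Finset.sum_nonneg fun k _ => hc0 k, fun Y hY hs C hC k z hz => ?_⟩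
  exact (hc k Y hY hs C hC z hz).trans (mul_le_mul_of_nonneg_right
    (single_le_sum (fun m _ => hc0 m) (Finset.mem_univ k))
    ((norm_nonneg _).trans (hC 0 (Nat.zero_le i) 0)))

/-- Localising costs a constant in each order. -/
theorem loc_bound (i : ℕ) : ∃ c : ℝ, 0 ≤ c ∧ ∀ X : M → V, ContMDiff I 𝓘(ℝ, V) ∞ X →
    ∀ C : ℝ, (∀ l ≤ i, A.NormLe l X C) → ∀ j z, ‖iteratedFDeriv ℝ i (A.loc j X) z‖ ≤ c * C := by
  have hw : ∀ j, ∀ l : ℕ, ∃ B, ∀ z ∈ closedBall (0 : E) 1,
      ‖iteratedFDerivWithin ℝ l (fun y => A.weight j (A.par j y)) (ball 0 2) z‖ ≤ B := fun j l =>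
    (isCompact_closedBall (0 : E) 1).exists_bound_of_continuousOn
      (((((A.weight_smooth j).comp_contMDiffOn (A.par_smooth j)).contDiffOn.mono
        (ball_subset_ball (by norm_num))).continuousOn_iteratedFDerivWithin
        (by exact_mod_cast le_top) isOpen_ball.uniqueDiffOn).mono (closedBall_subset_ball (by norm_num)))
  choose B hB using hw
  refine ⟨∑ j, ∑ l ∈ range (i + 1), (i.choose l : ℝ) * |B j l|,
    Finset.sum_nonneg fun j _ => Finset.sum_nonneg fun l _ => by positivity,
    fun X hX C hC j z => ?_⟩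
  have hC0 : 0 ≤ C := (norm_nonneg _).trans (hC 0 (Nat.zero_le i) j 0 (by simp))
  by_cases hz : z ∈ closedBall (0 : E) 1
  · have hz2 : z ∈ ball (0 : E) 2 := closedBall_subset_ball (by norm_num) hz
    have hev : A.loc j X =ᶠ[𝓝 z] fun y => A.weight j (A.par j y) • X (A.par j y) :=
      eventually_of_mem (isOpen_ball.mem_nhds hz2) fun y hy =>
        if_pos (ball_subset_ball (by norm_num) hy)
    rw [(hev.iteratedFDeriv ℝ i).eq_of_nhds, ← iteratedFDerivWithin_of_isOpen i isOpen_ball hz2]
    have h23 : ball (0 : E) 2 ⊆ ball 0 3 := ball_subset_ball (by norm_num)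
    refine (norm_iteratedFDerivWithin_smul_le
      (((A.weight_smooth j).comp_contMDiffOn (A.par_smooth j)).contDiffOn.mono h23)
      ((hX.comp_contMDiffOn (A.par_smooth j)).contDiffOn.mono h23) isOpen_ball.uniqueDiffOn hz2
      (n := i) (by exact_mod_cast le_top)).trans ?_
    refine le_trans ?_ (mul_le_mul_of_nonneg_right (single_le_sum (fun m _ => Finset.sum_nonneg
      fun l _ => by positivity) (Finset.mem_univ j)) hC0)
    rw [Finset.sum_mul]
    refine Finset.sum_le_sum fun l hl => ?_
    refine mul_le_mul (mul_le_mul_of_nonneg_left ((hB j l z hz).trans (le_abs_self _))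
      (Nat.cast_nonneg _)) ?_ (norm_nonneg _) (by positivity)
    rw [iteratedFDerivWithin_of_isOpen _ isOpen_ball hz2]
    exact hC (i - l) (Nat.sub_le i l) j z hz2
  · have hev : A.loc j X =ᶠ[𝓝 z] fun _ => (0 : V) :=
      eventually_of_mem (isClosed_closedBall.isOpen_compl.mem_nhds hz) fun y hy =>
        notMem_support.1 fun h => hy (A.loc_supp j X h)
    rw [(hev.iteratedFDeriv ℝ i).eq_of_nhds, iteratedFDeriv_fun_zero, Pi.zero_apply, norm_zero]
    positivity

end Atlas

end Vale.Agent.P205.Iter
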