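import Mathlib

/-!
Derivatives of pointwise limits with summable steps.
-/

noncomputable section

set_option maxSynthPendingDepth 3

open Set Filter Metric Finset
open scoped Topology ContDiff

namespace Vale.Agent.P205.Iter

variable {E : Type} [NormedAddCommGroup E] [NormedSpace ℝ E]
  {W : Type} [NormedAddCommGroup W] [NormedSpace ℝ W] [CompleteSpace W]

/-- If the first derivatives have summable steps, they tend to the derivative of the limit. -/
theorem tendsto_fderiv {O : Set E} (hO : IsOpen O) {f : ℕ → E → W}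
    (hf : ∀ n, ∀ x ∈ O, DifferentiableAt ℝ (f n) x) {g : E → W}
    (hfg : ∀ x ∈ O, Tendsto (fun n => f n x) atTop (𝓝 (g x))) {a : ℕ → ℝ} (ha : Summable a)
    (hb : ∀ᶠ n in atTop, ∀ x ∈ O, ‖fderiv ℝ (f (n + 1)) x - fderiv ℝ (f n) x‖ ≤ a n)
    {x : E} (hx : x ∈ O) : Tendsto (fun n => fderiv ℝ (f n) x) atTop (𝓝 (fderiv ℝ g x)) := by
  have h1 := tendstoUniformlyOn_tsum_nat_eventually ha hb
  have h2 : TendstoUniformlyOn (fun n x => fderiv ℝ (f n) x)
      (fun x => fderiv ℝ (f 0) x + ∑' n, (fderiv ℝ (f (n + 1)) x - fderiv ℝ (f n) x)) atTop O := by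
    refine Metric.tendstoUniformlyOn_iff.2 fun ε hε => ?_
    filter_upwards [Metric.tendstoUniformlyOn_iff.1 h1 ε hε] with n hn y hy
    have h3 := hn y hy
    rw [Finset.sum_range_sub (fun m => fderiv ℝ (f m) y)] at h3
    rw [dist_eq_norm] at h3 ⊢
    refine lt_of_eq_of_lt (congrArg _ ?_) h3
    abel
  have hd := hasFDerivAt_of_tendstoUniformlyOn hO h2 (fun n y hy => (hf n y hy).hasFDerivAt) hfg hx
  rw [hd.fderiv]
  exact h2.tendsto_at hx

omit [CompleteSpace W] in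
theorem norm_iteratedFDeriv_two (f : E → W) (x : E) :
    ‖iteratedFDeriv ℝ 2 f x‖ = ‖fderiv ℝ (fderiv ℝ f) x‖ := by
  rw [← norm_iteratedFDeriv_one, norm_iteratedFDeriv_fderiv]

/-- A bound on the derivatives of order at most two passes to the limit. -/
theorem norm_limit_le {O : Set E} (hO : IsOpen O) {f : ℕ → E → W}
    (hf : ∀ n, ContDiffOn ℝ ∞ (f n) O) {g : E → W}
    (hfg : ∀ x ∈ O, Tendsto (fun n => f n x) atTop (𝓝 (g x))) {a : ℕ → ℝ} (ha : Summable a)
    (hb : ∀ᶠ n in atTop, ∀ l ≤ 2, ∀ x ∈ O,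
      ‖iteratedFDeriv ℝ l (fun y => f (n + 1) y - f n y) x‖ ≤ a n)
    {c : ℝ} (hc : ∀ n, ∀ l ≤ 2, ∀ x ∈ O, ‖iteratedFDeriv ℝ l (f n) x‖ ≤ c) :
    ∀ l ≤ 2, ∀ x ∈ O, ‖iteratedFDeriv ℝ l g x‖ ≤ c := by
  have hd : ∀ n, ∀ x ∈ O, DifferentiableAt ℝ (f n) x := fun n x hx =>
    ((hf n).differentiableOn (by simp)).differentiableAt (hO.mem_nhds hx)
  have hd1 : ∀ n, ∀ x ∈ O, DifferentiableAt ℝ (fderiv ℝ (f n)) x := fun n x hx =>
    (((hf n).fderiv_of_isOpen hO (by simp) :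
      ContDiffOn ℝ ∞ (fderiv ℝ (f n)) O).differentiableOn (by simp)).differentiableAt (hO.mem_nhds hx)
  have e1 : ∀ n, ∀ x ∈ O, fderiv ℝ (fun y => f (n + 1) y - f n y) x
      = fderiv ℝ (f (n + 1)) x - fderiv ℝ (f n) x := fun n x hx =>
    fderiv_fun_sub (hd (n + 1) x hx) (hd n x hx)
  have t1 : ∀ x ∈ O, Tendsto (fun n => fderiv ℝ (f n) x) atTop (𝓝 (fderiv ℝ g x)) := fun x hx =>
    tendsto_fderiv hO hd hfg ha (hb.mono fun n hn y hy => by
      have := hn 1 (by norm_num) y hy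
      rwa [norm_iteratedFDeriv_one, e1 n y hy] at this) hx
  have t2 : ∀ x ∈ O, Tendsto (fun n => fderiv ℝ (fderiv ℝ (f n)) x) atTop
      (𝓝 (fderiv ℝ (fderiv ℝ g) x)) := fun x hx =>
    tendsto_fderiv hO hd1 t1 ha (hb.mono fun n hn y hy => by
      have h := hn 2 le_rfl y hy
      have he : fderiv ℝ (fun y => f (n + 1) y - f n y) =ᶠ[𝓝 y]
          fun y => fderiv ℝ (f (n + 1)) y - fderiv ℝ (f n) y :=
        eventually_of_mem (hO.mem_nhds hy) (e1 n)
      rwa [norm_iteratedFDeriv_two, he.fderiv_eq,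
        fderiv_fun_sub (hd1 (n + 1) y hy) (hd1 n y hy)] at h) hx
  intro l hl x hx
  interval_cases l
  · rw [norm_iteratedFDeriv_zero]
    exact le_of_tendsto ((hfg x hx).norm) (Eventually.of_forall fun n => by
      simpa [norm_iteratedFDeriv_zero] using hc n 0 (by norm_num) x hx)
  · rw [norm_iteratedFDeriv_one]
    exact le_of_tendsto ((t1 x hx).norm) (Eventually.of_forall fun n => by
      simpa [norm_iteratedFDeriv_one] using hc n 1 (by norm_num) x hx)
  · rw [norm_iteratedFDeriv_two]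
    exact le_of_tendsto ((t2 x hx).norm) (Eventually.of_forall fun n => by
      simpa [norm_iteratedFDeriv_two] using hc n 2 le_rfl x hx)

end Vale.Agent.P205.Iter
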