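import Mathlib

/-!
Slowly growing orders for the stages and summability of the resulting steps.
-/

noncomputable section

open Filter
open scoped Topology

namespace Vale.Agent.P205.Iter

/-- The frequency scale of stage `n`. -/
def scale (K : ℝ) (B n : ℕ) : ℝ := K ^ B ^ n

/-- The order of stage `n`: it grows by one whenever the constants of the next order fit. -/
def order (F : ℕ → ℝ) (K : ℝ) (B M₀ : ℕ) : ℕ → ℕ
  | 0 => M₀
  | n + 1 => if F (order F K B M₀ n + 2) ≤ scale K B (n + 1) then order F K B M₀ n + 1
      else order F K B M₀ n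

variable {F : ℕ → ℝ} {K : ℝ} {B M₀ : ℕ}

theorem scale_succ (n : ℕ) : scale K B (n + 1) = scale K B n ^ B := by
  rw [scale, scale, ← pow_mul, pow_succ]

theorem one_lt_scale (hK : 1 < K) (hB : B ≠ 0) (n : ℕ) : 1 < scale K B n :=
  one_lt_pow₀ hK (pow_ne_zero _ hB)

theorem scale_mono (hK : 1 ≤ K) (hB : 1 ≤ B) : Monotone (scale K B) :=
  fun _ _ h => pow_le_pow_right₀ hK (Nat.pow_le_pow_right hB h)

theorem pow_le_scale (hK : 1 ≤ K) (hB : 2 ≤ B) (n : ℕ) : K ^ n ≤ scale K B n :=
  pow_le_pow_right₀ hK (Nat.lt_pow_self (by omega)).le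

theorem scale_tendsto (hK : 1 < K) (hB : 2 ≤ B) : Tendsto (scale K B) atTop atTop :=
  tendsto_atTop_mono (pow_le_scale hK.le hB) (tendsto_pow_atTop_atTop_of_one_lt hK)

theorem order_le_succ (n : ℕ) :
    order F K B M₀ n ≤ order F K B M₀ (n + 1) ∧
      order F K B M₀ (n + 1) ≤ order F K B M₀ n + 1 := by
  simp only [order]
  split_ifs <;> omega

theorem order_monotone : Monotone (order F K B M₀) :=
  monotone_nat_of_le_succ fun n => (order_le_succ n).1

/-- The constants of every order used stay below the current scale. -/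
theorem order_fits (hK : 1 ≤ K) (hB : 1 ≤ B) (h0 : F (M₀ + 1) ≤ K) :
    ∀ n, F (order F K B M₀ n + 1) ≤ scale K B n
  | 0 => by simpa [order, scale] using h0
  | n + 1 => by
    have ih := order_fits hK hB h0 n
    simp only [order]
    split_ifs with h
    · exact h
    · exact ih.trans (scale_mono hK hB n.le_succ)

/-- The orders tend to infinity. -/
theorem order_tendsto (hK : 1 < K) (hB : 2 ≤ B) : Tendsto (order F K B M₀) atTop atTop := by
  refine tendsto_atTop_atTop_of_monotone order_monotone fun m => ?_
  induction m with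
  | zero => exact ⟨0, Nat.zero_le _⟩
  | succ m ih =>
    obtain ⟨n₀, hn₀⟩ := ih
    by_contra hcon
    simp only [not_exists, not_le] at hcon
    have heq : ∀ n ≥ n₀, order F K B M₀ n = m := fun n hn =>
      le_antisymm (Nat.lt_succ_iff.1 (hcon n)) (hn₀.trans (order_monotone hn))
    obtain ⟨n₁, hn₁⟩ := eventually_atTop.1
      ((scale_tendsto hK hB).eventually (eventually_ge_atTop (F (m + 2))))
    set n := max n₀ n₁
    have h := heq (n + 1) (by omega)
    simp only [order, heq n (le_max_left _ _)] at h
    rw [if_pos (hn₁ (n + 1) (by omega))] at h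
    omega

/-- Powers of the scales with exponents tending to minus infinity are summable. -/
theorem summable_scale_rpow (hK : 1 < K) (hB : 2 ≤ B) {e : ℕ → ℝ}
    (he : Tendsto e atTop atBot) : Summable fun n => scale K B n ^ e n := by
  refine Summable.of_norm_bounded_eventually_nat
    (summable_geometric_of_lt_one (by positivity) (inv_lt_one_of_one_lt₀ hK)) ?_
  filter_upwards [he.eventually (eventually_le_atBot (-1))] with n hn
  have h1 := one_lt_scale hK (by omega : B ≠ 0) n
  rw [Real.norm_of_nonneg (Real.rpow_nonneg (by linarith) _)]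
  calc scale K B n ^ e n ≤ scale K B n ^ (-1 : ℝ) :=
        Real.rpow_le_rpow_of_exponent_le h1.le hn
    _ = (scale K B n)⁻¹ := Real.rpow_neg_one _
    _ ≤ K⁻¹ ^ n := by
        rw [inv_pow]
        exact inv_anti₀ (by positivity) (pow_le_scale hK.le hB n)

/-- A stage step `K_n ^ (p - M_n / 2)` is summable for every fixed `p`. -/
theorem summable_step (hK : 1 < K) (hB : 2 ≤ B) (p : ℝ) :
    Summable fun n => scale K B n ^ (p - (order F K B M₀ n : ℝ) / 2) := by
  refine summable_scale_rpow hK hB (tendsto_atBot.2 fun b => ?_)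
  have h := (tendsto_natCast_atTop_atTop (R := ℝ)).comp (order_tendsto (F := F) (M₀ := M₀) hK hB)
  filter_upwards [h.eventually (eventually_ge_atTop (2 * (p - b)))] with n hn
  simp only [Function.comp] at hn
  linarith

end Vale.Agent.P205.Iter
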