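import Vale.Agent.P205.Iter.Step
import Vale.Agent.P205.Iter.Schedule
import Vale.Agent.P205.Iter.Deriv

/-!
The iteration: a stage and a tiny deficit give an exact solution.
-/

noncomputable section

set_option maxSynthPendingDepth 3

open Set Filter Metric Finset Function MeasureTheory
open scoped Topology ContDiff Manifold MeasureTheory

namespace Vale.Agent.P205.Iter

/-- The inverses of the scales are summable. -/
theorem summable_scale_inv {K : ℝ} {B : ℕ} (hK : 1 < K) (hB : 2 ≤ B) :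
    Summable fun n => (scale K B n)⁻¹ := by
  refine Summable.of_nonneg_of_le (fun n => inv_nonneg.2 (by
      linarith [one_lt_scale hK (by omega : B ≠ 0) n]))
    (fun n => ?_) (summable_geometric_of_lt_one (inv_nonneg.2 (by linarith))
      (inv_lt_one_of_one_lt₀ hK))
  rw [inv_pow]
  exact inv_anti₀ (by positivity) (pow_le_scale hK.le hB n)

variable {E : Type} [NormedAddCommGroup E] [NormedSpace ℝ E] [FiniteDimensional ℝ E]
  [MeasureSpace E] [BorelSpace E] [Measure.IsAddHaarMeasure (volume : Measure E)]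
  {E₀ : Type*} [NormedAddCommGroup E₀] [NormedSpace ℝ E₀]
  {H : Type*} [TopologicalSpace H] {I : ModelWithCorners ℝ E₀ H}
  {M : Type} [TopologicalSpace M] [ChartedSpace H M] [T2Space M]
  {V : Type} [NormedAddCommGroup V] [NormedSpace ℝ V] [CompleteSpace V]

namespace Atlas

variable (A : Atlas (E := E) (I := I) (M := M))

/-- The orders from which the iteration may start. -/
def startOrder (B s : ℕ) : ℕ := 4 * (B + 4) + s

/-- A stage makes a small deficit exact. -/
theorem exact_of_stage {Bf : V →L[ℝ] V →L[ℝ] ℝ} (hsymm : ∀ u v, Bf u v = Bf v u)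
    {Good : A.Tensor → ℝ → (M → V) → Prop} {B s : ℕ} (hB : 3 ≤ B) {η : ℝ} (hη : 0 < η)
    (hst : A.StageSpec Bf Good s B η) {D₀ : ℕ} (hD₀ : startOrder B s ≤ D₀) (C1 : ℕ → ℝ) :
    ∃ K₀ : ℝ, ∀ K : ℝ, K₀ ≤ K → ∀ g : A.Tensor,
    (∀ (i : ℕ) (j : A.ι), ∀ z ∈ ball (0 : E) 2, ‖iteratedFDeriv ℝ i (g.comp j) z‖ ≤ C1 i) →
    ∀ X : M → V, ContMDiff I 𝓘(ℝ, V) ∞ X → Good g K X →
    (∀ l, A.NormLe l X (C1 l * K ^ l)) →
    (∀ k, ∀ z ∈ ball (0 : E) 2,
      ‖g.comp k z - formAt (A := A) Bf X k z - (K ^ D₀)⁻¹ • g.comp k z‖ ≤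
        C1 0 * (K ^ (D₀ + 1))⁻¹) →
    ∃ F : M → V, ContMDiff I 𝓘(ℝ, V) ∞ F ∧
      (∀ k, ∀ z ∈ ball (0 : E) 2, formAt (A := A) Bf F k z = g.comp k z) ∧
      ∀ l ≤ 2, A.NormLe l (fun p => F p - X p) K⁻¹ := by
  obtain ⟨Cx, Ψ, hCx, hΨ, hstep⟩ := A.exists_step hsymm hB hη hst C1
  refine ⟨cap Ψ (D₀ + 1), fun K hK g hg X hXs hXg hXb hXd => ?_⟩
  set K' : ℕ → ℝ := scale K B
  set D : ℕ → ℕ := order (cap Ψ) K B D₀
  have hK3 : 3 ≤ K := (hΨ D₀).trans ((le_cap Ψ (Nat.le_succ D₀)).trans hK)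
  have hK1 : 1 < K := by linarith
  have hKn : ∀ n, Ψ (D n) ≤ K' n := fun n => (le_cap Ψ (Nat.le_succ _)).trans
    (order_fits hK1.le (by omega) hK n)
  have hK'1 : ∀ n, 1 < K' n := one_lt_scale hK1 (by omega)
  have hK'3 : ∀ n, 3 ≤ K' n := fun n => (hΨ (D n)).trans (hKn n)
  have hD : ∀ n, D₀ ≤ D n := fun n => order_monotone (Nat.zero_le n)
  let P : ℕ → (M → V) → Prop := fun n Y =>
    A.State Bf Good B s Cx (|C1 0| + 3) g (K' n) (D n) Y ∧
      ∀ l ≤ 2, A.NormLe l (fun p => Y p - X p) (K⁻¹ - (K' n)⁻¹)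
  have hP0 : P 0 X := by
    refine ⟨⟨hXs, ?_, fun l hl => A.normLe_mono (hXb l) ?_, fun k z hz => ?_⟩,
      fun l _ j z _ => ?_⟩
    · simpa [K', scale] using hXg
    · simp only [K', D, order, scale, pow_zero, pow_one] at hl ⊢
      calc C1 l * K ^ l ≤ Cx D₀ * K ^ l :=
            mul_le_mul_of_nonneg_right ((hCx D₀).2 l hl) (by positivity)
        _ ≤ Cx D₀ * K ^ (l + 1) :=
            mul_le_mul_of_nonneg_left (pow_le_pow_right₀ hK1.le (Nat.le_succ l)) (hCx D₀).1
    · simp only [K', D, order, scale, pow_zero, pow_one]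
      exact (hXd k z hz).trans
        (mul_le_mul_of_nonneg_right (by linarith [le_abs_self (C1 0)]) (by positivity))
    · simp [K', scale]
  have key : ∀ n, ∀ Y, P n Y → ∃ Y', P (n + 1) Y' ∧
      ∀ i, 2 * i + 3 ≤ D n → 8 * B * i + 4 * B + 16 ≤ D n →
        A.NormLe i (fun p => Y' p - Y p) (3 * (K' n)⁻¹) := by
    rintro n Y ⟨hY, hYX⟩
    have hX0 : A.NormLe 0 Y (|C1 0| + 1) := by
      have h := A.normLe_add (hY.smooth.sub hXs) hXs (hYX 0 (by norm_num)) (hXb 0)
      simp only [sub_add_cancel, pow_zero, mul_one] at h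
      refine A.normLe_mono h ?_
      have h1 : K⁻¹ ≤ 1 := inv_le_one_of_one_le₀ hK1.le
      have h2 : 0 ≤ (K' n)⁻¹ := inv_nonneg.2 (by linarith [hK'1 n])
      linarith [le_abs_self (C1 0)]
    obtain ⟨Y', hY', h2, hi⟩ := hstep (K' n) (D n) (D (n + 1)) (hKn n)
      (hD₀.trans (hD n)) (order_le_succ n).1 (order_le_succ n).2 g hg Y hY hX0
    refine ⟨Y', ⟨by simpa only [K', scale_succ] using hY', fun l hl => ?_⟩, hi⟩
    refine A.normLe_mono (A.normLe_triangle hY'.smooth hY.smooth hXs (h2 l hl) (hYX l hl)) ?_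
    have hs : K' (n + 1) = K' n ^ B := scale_succ n
    rw [hs]
    have h0 : 0 < K' n := by linarith [hK'1 n]
    have ha : (K' n ^ B)⁻¹ ≤ (K' n ^ 2)⁻¹ := inv_pow_le (hK'1 n).le (by omega)
    have hb : 3 * (K' n ^ 2)⁻¹ ≤ (K' n)⁻¹ := by
      rw [pow_two, mul_inv, ← mul_assoc]
      refine mul_le_of_le_one_left (inv_nonneg.2 h0.le) ?_
      rw [mul_inv_le_iff₀ h0, one_mul]
      exact hK'3 n
    linarith
  choose! nxt hnxt hinc using key
  let S : ℕ → M → V := fun n => Nat.rec X (fun m Y => nxt m Y) n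
  have hS : ∀ n, P n (S n) := by
    intro n
    induction n with
    | zero => exact hP0
    | succ n ih => exact hnxt n (S n) ih
  have hev : ∀ i, ∀ᶠ n in atTop,
      A.NormLe i (fun p => S (n + 1) p - S n p) (3 * (K' n)⁻¹) := fun i => by
    filter_upwards [(order_tendsto (F := cap Ψ) (M₀ := D₀) hK1 (by omega : 2 ≤ B)).eventually
      (eventually_ge_atTop (2 * i + 3 + (8 * B * i + 4 * B + 16)))] with n hn
    exact hinc n (S n) (hS n) i ((Nat.le_add_right _ _).trans hn) ((Nat.le_add_left _ _).trans hn)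
  have hsum : Summable fun n => 3 * (K' n)⁻¹ := (summable_scale_inv hK1 (by omega)).mul_left 3
  obtain ⟨F, hF, hlim, -⟩ := exists_isometric_limit A.toCover (X := S) (fun n => (hS n).1.smooth)
    (fun j i => ⟨_, hsum, (hev i).mono fun n hn z hz => hn j z hz⟩) (b := fun _ _ => (0 : ℝ))
    continuous_const (g := fun _ _ _ => 0) fun _ _ _ => tendsto_const_nhds
  refine ⟨F, hF, fun k z hz => ?_, fun l hl j z hz => ?_⟩
  · have h23 : ball (0 : E) 2 ⊆ ball 0 3 := ball_subset_ball (by norm_num)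
    have hd : ∀ n, ∀ y ∈ ball (0 : E) 2, DifferentiableAt ℝ (fun w => S n (A.par k w)) y :=
      fun n y hy => ((chart_smooth (A := A) (hS n).1.smooth k).differentiableOn
        (by simp)).differentiableAt (isOpen_ball.mem_nhds (h23 hy))
    have t1 := tendsto_fderiv isOpen_ball hd (fun y _ => hlim (A.par k y)) hsum
      ((hev 1).mono fun n hn y hy => by
        rw [← fderiv_fun_sub (hd (n + 1) y hy) (hd n y hy), ← norm_iteratedFDeriv_one]
        exact hn k y hy) hz
    have t2 : Tendsto (fun n => formAt (A := A) Bf (S n) k z) atTop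
        (𝓝 (formAt (A := A) Bf F k z)) :=
      ((((formL Bf).continuous).clm_apply continuous_id).tendsto _).comp t1
    refine tendsto_nhds_unique t2 (tendsto_iff_norm_sub_tendsto_zero.2 ?_)
    refine squeeze_zero (fun n => norm_nonneg _)
      (fun n => ?_) (by simpa using (hsum.tendsto_atTop_zero.mul_const (|C1 0| + 3)))
    have h1 := (hS n).1.deficit k z hz
    set c := (K' n ^ D n)⁻¹
    have hD1 : 1 ≤ D n := le_trans (by simp only [startOrder] at hD₀; omega) (hD n)
    have hc : c ≤ (K' n)⁻¹ := by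
      have := inv_pow_le (hK'1 n).le hD1
      rwa [pow_one] at this
    have hc0 : 0 ≤ c := inv_nonneg.2 (pow_nonneg (by linarith [hK'1 n]) _)
    have hc' : (K' n ^ (D n + 1))⁻¹ ≤ (K' n)⁻¹ := by
      have := inv_pow_le (hK'1 n).le (show 1 ≤ D n + 1 by omega)
      rwa [pow_one] at this
    have hg0 : ‖g.comp k z‖ ≤ C1 0 := by
      rw [← norm_iteratedFDeriv_zero (𝕜 := ℝ) (f := g.comp k)]; exact hg 0 k z hz
    have he : formAt (A := A) Bf (S n) k z - g.comp k z =
        -(g.comp k z - formAt (A := A) Bf (S n) k z - c • g.comp k z) - c • g.comp k z := by abel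
    rw [he]
    refine (norm_sub_le _ _).trans ?_
    rw [norm_neg, norm_smul, Real.norm_of_nonneg hc0]
    have h2 : (|C1 0| + 3) * (K' n ^ (D n + 1))⁻¹ ≤ (|C1 0| + 3) * (K' n)⁻¹ :=
      mul_le_mul_of_nonneg_left hc' (by positivity)
    have h3 : c * ‖g.comp k z‖ ≤ (K' n)⁻¹ * (|C1 0| + 3) :=
      mul_le_mul hc (by linarith [le_abs_self (C1 0)]) (norm_nonneg _)
        (inv_nonneg.2 (by linarith [hK'1 n]))
    have h4 : 0 ≤ (|C1 0| + 3) * (K' n)⁻¹ :=
      mul_nonneg (by positivity) (inv_nonneg.2 (by linarith [hK'1 n]))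
    linarith
  · have h23 : ball (0 : E) 2 ⊆ ball 0 3 := ball_subset_ball (by norm_num)
    refine norm_limit_le isOpen_ball (f := fun n y => S n (A.par j y) - X (A.par j y))
      (fun n => ((chart_smooth (A := A) (hS n).1.smooth j).sub (chart_smooth hXs j)).mono h23)
      (fun y _ => (hlim (A.par j y)).sub tendsto_const_nhds) hsum ?_ (fun n m hm y hy => ?_) l hl z hz
    · filter_upwards [hev 0, hev 1, hev 2] with n h0 h1 h2 m hm y hy
      have e : (fun w => S (n + 1) (A.par j w) - X (A.par j w) -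
          (S n (A.par j w) - X (A.par j w))) =
          fun w => S (n + 1) (A.par j w) - S n (A.par j w) := by funext w; abel
      rw [e]
      interval_cases m
      · exact h0 j y hy
      · exact h1 j y hy
      · exact h2 j y hy
    · have h := (hS n).2 m hm j y hy
      have : 0 ≤ (K' n)⁻¹ := inv_nonneg.2 (by linarith [hK'1 n])
      linarith

end Atlas

end Vale.Agent.P205.Iter
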