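import Vale.Agent.P205.Iter.Adapter
import Vale.Agent.P205.Iter.Main

/-!
The module Iteration: an approximate solution with a tiny deficit is close to an exact one.
-/

noncomputable section

set_option maxSynthPendingDepth 3

open Set Filter Finset Metric Function MeasureTheory
open scoped ContDiff Topology Manifold

namespace Vale.Agent.P205.Iter

open Wave (V4 ip D gram2)

variable {M : Type} [TopologicalSpace M] [ChartedSpace R2 M] [T2Space M]

/-- Bounds on the open ball pass to the closed one. -/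
theorem closed_of_open {f : R2 → V4} (hf : ContDiffOn ℝ ∞ f (ball 0 3)) (i : ℕ) {c : ℝ}
    (h : ∀ z ∈ ball (0 : R2) 2, ‖iteratedFDeriv ℝ i f z‖ ≤ c) {z : R2}
    (hz : z ∈ closedBall (0 : R2) 2) : ‖iteratedFDeriv ℝ i f z‖ ≤ c := by
  have h3 : closedBall (0 : R2) 2 ⊆ ball 0 3 := closedBall_subset_ball (by norm_num)
  have hc : ContinuousOn (iteratedFDeriv ℝ i f) (ball 0 3) :=
    (hf.continuousOn_iteratedFDerivWithin (by exact_mod_cast le_top)
      isOpen_ball.uniqueDiffOn).congr fun y hy =>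
        (iteratedFDerivWithin_of_isOpen i isOpen_ball hy).symm
  have hcl : closure (ball (0 : R2) 2) = closedBall 0 2 := closure_ball 0 two_ne_zero
  exact le_on_closure (g := fun _ => c) h (by rw [hcl]; exact (hc.mono h3).norm) continuousOn_const
    (by rw [hcl]; exact hz)

/-- The iteration, with an order that is not zero. -/
theorem exact_order (hTrio : TrioProp) (𝒜 : Atlas (E := R2) (I := 𝓘(ℝ, R2)) (M := M))
    {A : ℝ} (hA : 0 < A) : ∃ m : ℕ, 1 ≤ m ∧ ∀ C : ℕ → ℝ, ∃ K0 : ℝ, ∀ K, K0 ≤ K →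
      ∀ (g : MForm M) (X : M → V4), Start 𝒜 A m C K g X →
      ∃ Y : M → V4, ContMDiff 𝓘(ℝ, R2) 𝓘(ℝ, V4) ∞ Y ∧
        (∀ p (v w : TangentSpace 𝓘(ℝ, R2) p),
          ip (mfderiv 𝓘(ℝ, R2) 𝓘(ℝ, V4) Y p v) (mfderiv 𝓘(ℝ, R2) 𝓘(ℝ, V4) Y p w) = g p v w) ∧
        ∀ j, ∀ i ≤ 2, ∀ z ∈ closedBall (0 : R2) 2,
          ‖iteratedFDeriv ℝ i (fun w => Y (𝒜.par j w) - X (𝒜.par j w)) z‖ ≤ K⁻¹ := by
  obtain ⟨B, s, η, hB, hη, hstage⟩ := Atlas.exists_stage (A := 𝒜) hTrio hA
  refine ⟨Atlas.startOrder B s, by simp only [Atlas.startOrder]; omega, fun C => ?_⟩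
  set m := Atlas.startOrder B s with hm
  have hm1 : 1 ≤ m := by simp only [hm, Atlas.startOrder]; omega
  set c₀ : ℝ := 6 * A ^ 2 * (|C 0| + 1) with hc₀
  have hc₀p : 0 < c₀ := by positivity
  obtain ⟨K₀, hK₀⟩ := 𝒜.exact_of_stage ipL_symm hB hη (hstage c₀ hc₀p) le_rfl
    (fun i => (‖bilL‖ + 1) * |C i|) (D₀ := m)
  refine ⟨max (max K₀ 1) (max (2 * (|C 0| + 1)) (16 * A ^ 2 * (|C 0| + 1) ^ 2)),
    fun K hK g X hS => ?_⟩
  have hK0 : K₀ ≤ K := ((le_max_left _ _).trans (le_max_left _ _)).trans hK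
  have hK1 : 1 ≤ K := ((le_max_right _ _).trans (le_max_left _ _)).trans hK
  have hK2 : 2 * (|C 0| + 1) ≤ K := ((le_max_left _ _).trans (le_max_right _ _)).trans hK
  have hK3 : 16 * A ^ 2 * (|C 0| + 1) ^ 2 ≤ K :=
    ((le_max_right _ _).trans (le_max_right _ _)).trans hK
  clear hK
  have hKp : 0 < K := zero_lt_one.trans_le hK1
  set T := 𝒜.ofForm g hS.symm hS.smoothG
  have hC1 : ∀ i, |C i| ≤ (‖bilL‖ + 1) * |C i| := fun i =>
    le_mul_of_one_le_left (abs_nonneg _) (le_add_of_nonneg_left (norm_nonneg bilL))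
  have h23 : ball (0 : R2) 2 ⊆ ball 0 3 := ball_subset_ball (by norm_num)
  have hgood : Atlas.Good A c₀ T K X := fun j z hz => by
    have hz' : z ∈ closedBall (0 : R2) 2 := ball_subset_closedBall hz
    have hell : chartForm g (𝒜.par j) z ∈ ellSet A := fun a => hS.ell j z hz' a
    refine ⟨by simpa only [T, Atlas.ofForm_comp, compL'_bilL] using hell, ?_⟩
    have hg : ‖chartForm g (𝒜.par j) z‖ ≤ |C 0| := by
      have h := hS.bdG j 0 z hz'
      rw [norm_iteratedFDeriv_zero, pow_zero, mul_one] at h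
      exact h.trans (le_abs_self _)
    have hd := hS.deficit j 0 z hz'
    rw [norm_iteratedFDeriv_zero, pow_zero, mul_one] at hd
    have hdiff : ‖met (fun w => X (𝒜.par j w)) z - chartForm g (𝒜.par j) z‖ ≤
        2 * (|C 0| + 1) * K⁻¹ := by
      have e : met (fun w => X (𝒜.par j w)) z - chartForm g (𝒜.par j) z =
          -(chartForm g (𝒜.par j) z - met (fun w => X (𝒜.par j w)) z -
            (K ^ m)⁻¹ • chartForm g (𝒜.par j) z) - (K ^ m)⁻¹ • chartForm g (𝒜.par j) z := by abel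
      rw [e]
      refine (norm_sub_le _ _).trans ?_
      rw [norm_neg, norm_smul, Real.norm_of_nonneg (inv_nonneg.2 (pow_nonneg hKp.le m))]
      have a1 : (K ^ (m + 1))⁻¹ ≤ K⁻¹ := by
        simpa using inv_pow_le hK1 (show 1 ≤ m + 1 by omega)
      have a2 : (K ^ m)⁻¹ ≤ K⁻¹ := by simpa using inv_pow_le hK1 hm1
      have b1 : C 0 * (K ^ (m + 1))⁻¹ ≤ |C 0| * K⁻¹ := mul_le_mul (le_abs_self _) a1
        (inv_nonneg.2 (pow_nonneg hKp.le _)) (abs_nonneg _)
      have b2 : (K ^ m)⁻¹ * ‖chartForm g (𝒜.par j) z‖ ≤ K⁻¹ * |C 0| :=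
        mul_le_mul a2 hg (norm_nonneg _) (inv_nonneg.2 hKp.le)
      have b3 : 0 ≤ K⁻¹ := inv_nonneg.2 hKp.le
      linarith
    have hε : 2 * (|C 0| + 1) * K⁻¹ ≤ 1 := by
      rw [← div_eq_mul_inv, div_le_one hKp]; exact hK2
    have hdet := det_close hg hdiff hε
    have hsmall : 4 * (|C 0| + 1) * (2 * (|C 0| + 1) * K⁻¹) ≤ 1 / (2 * A ^ 2) := by
      rw [show 4 * (|C 0| + 1) * (2 * (|C 0| + 1) * K⁻¹) = 8 * (|C 0| + 1) ^ 2 / K by ring,
        div_le_div_iff₀ hKp (by positivity)]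
      linarith
    have harea : 1 / (2 * A ^ 2) ≤ area (fun w => X (𝒜.par j w)) z := by
      have e : area (fun w => X (𝒜.par j w)) z = met (fun w => X (𝒜.par j w)) z 0 *
          met (fun w => X (𝒜.par j w)) z 2 - met (fun w => X (𝒜.par j w)) z 1 ^ 2 := by
        simp [area, gram2, met]
      rw [e]
      have h1 := ellSet_det hA hell
      have h2 : 1 / A ^ 2 = 2 * (1 / (2 * A ^ 2)) := by ring
      linarith
    have hap : 0 < area (fun w => X (𝒜.par j w)) z := lt_of_lt_of_le (by positivity) harea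
    have hXs : ContDiffAt ℝ 2 (fun w => X (𝒜.par j w)) z :=
      ((Atlas.chart_smooth (A := 𝒜) hS.smoothX j).contDiffAt
        (isOpen_ball.mem_nhds (h23 hz))).of_le (WithTop.coe_le_coe.2 (le_top : (2 : ℕ∞) ≤ ⊤))
    have hsec := hS.sec j z hz'
    have hbend := bendS_ge hXs hap
    have hsp : 0 ≤ sffSq (fun w => X (𝒜.par j w)) z := by
      have h1 : ∀ a b, 0 ≤ ip (sff (fun w => X (𝒜.par j w)) z a b)
          (sff (fun w => X (𝒜.par j w)) z a b) := fun a b => Legal.ip_self_nonneg _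
      rw [sffSq]
      linarith [h1 (pt 1 0) (pt 1 0), h1 (pt 1 0) (pt 0 1), h1 (pt 0 1) (pt 0 1)]
    refine ⟨?_, ?_⟩
    · calc (1 : ℝ) ≤ 3 * (|C 0| + 1) * K :=
            one_le_mul_of_one_le_of_one_le (by linarith [abs_nonneg (C 0)]) hK1
        _ = c₀ * K * (1 / (2 * A ^ 2)) := by rw [hc₀]; field_simp; ring
        _ ≤ c₀ * K * area (fun w => X (𝒜.par j w)) z :=
            mul_le_mul_of_nonneg_left harea (by positivity)
    · have hb0 : area (fun w => X (𝒜.par j w)) z * sffSq (fun w => X (𝒜.par j w)) z * (2 * A ^ 2) ≤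
          3 * bendS (jet (fun w => X (𝒜.par j w)) z) * (2 * A ^ 2) :=
        mul_le_mul_of_nonneg_right hbend (by positivity)
      have hb1 : sffSq (fun w => X (𝒜.par j w)) z ≤
          area (fun w => X (𝒜.par j w)) z * sffSq (fun w => X (𝒜.par j w)) z * (2 * A ^ 2) := by
        rw [mul_right_comm]
        refine le_mul_of_one_le_left hsp ?_
        rwa [← div_le_iff₀ (by positivity)]
      calc (1 : ℝ) ≤ C 0 * K * sffSq (fun w => X (𝒜.par j w)) z := hsec
        _ ≤ (|C 0| + 1) * K * sffSq (fun w => X (𝒜.par j w)) z :=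
            mul_le_mul_of_nonneg_right (mul_le_mul_of_nonneg_right
              ((le_abs_self _).trans (le_add_of_nonneg_right zero_le_one)) hKp.le) hsp
        _ ≤ (|C 0| + 1) * K * (3 * bendS (jet (fun w => X (𝒜.par j w)) z) * (2 * A ^ 2)) :=
            mul_le_mul_of_nonneg_left (hb1.trans hb0) (by positivity)
        _ = c₀ * K * bendS (jet (fun w => X (𝒜.par j w)) z) := by rw [hc₀]; ring
  obtain ⟨F, hF, hiso, hclose⟩ := hK₀ K hK0 T
    (fun i j z hz => by
      have hz3 : ball (0 : R2) 3 ∈ 𝓝 z := isOpen_ball.mem_nhds (h23 hz)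
      refine (bilL.norm_iteratedFDeriv_comp_left ((hS.smoothG j).contDiffAt hz3)
        (by exact_mod_cast le_top)).trans ?_
      have h := hS.bdG j i z (ball_subset_closedBall hz)
      rw [one_pow, mul_one] at h
      exact mul_le_mul (le_add_of_nonneg_right zero_le_one) (h.trans (le_abs_self _))
        (norm_nonneg _) (add_nonneg (norm_nonneg bilL) zero_le_one))
    X hS.smoothX hgood
    (fun l j z hz => (hS.bdX j l z (ball_subset_closedBall hz)).trans
      (mul_le_mul_of_nonneg_right ((le_abs_self _).trans (hC1 l)) (pow_nonneg hKp.le l)))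
    (fun k z hz => by
      have h := hS.deficit k 0 z (ball_subset_closedBall hz)
      rw [norm_iteratedFDeriv_zero, pow_zero, mul_one] at h
      rw [show T.comp k z - Atlas.formAt (A := 𝒜) ipL X k z - (K ^ m)⁻¹ • T.comp k z =
        bilL (chartForm g (𝒜.par k) z - met (fun w => X (𝒜.par k w)) z -
          (K ^ m)⁻¹ • chartForm g (𝒜.par k) z) by
        rw [map_sub, map_sub, map_smul, bilL_met]; rfl]
      refine (bilL.le_opNorm _).trans ?_
      rw [mul_assoc]
      exact mul_le_mul (le_add_of_nonneg_right zero_le_one)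
        (h.trans (mul_le_mul_of_nonneg_right (le_abs_self _)
          (inv_nonneg.2 (pow_nonneg hKp.le _)))) (norm_nonneg _)
        (add_nonneg (norm_nonneg bilL) zero_le_one))
  refine ⟨F, hF, 𝒜.isometric_of_comp hS.symm hF fun j z hz => hiso j z hz, fun j i hi z hz => ?_⟩
  exact closed_of_open ((Atlas.chart_smooth (A := 𝒜) hF j).sub
    (Atlas.chart_smooth (A := 𝒜) hS.smoothX j)) i (fun w hw => hclose i hi j w hw) hz

/-- **Iteration.** The three waves give exact solutions near approximate ones. -/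
theorem exact_immersion (hTrio : TrioProp) (𝒜 : Atlas (E := R2) (I := 𝓘(ℝ, R2)) (M := M))
    {A : ℝ} (hA : 0 < A) : ExactProp 𝒜 A :=
  let ⟨m, _, h⟩ := exact_order hTrio 𝒜 hA
  ⟨m, h⟩

end Vale.Agent.P205.Iter
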