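import Vale.Agent.P205.Iter.Stage
import Vale.Agent.P205.Interfaces

/-!
Tensor fields of a surface read as tensors of an atlas, and elementary facts about the start.
-/

noncomputable section

set_option maxSynthPendingDepth 3

open Set Filter Finset Metric Function
open scoped ContDiff Topology Manifold

namespace Vale.Agent.P205.Iter

open Wave (V4 ip D gram2)

/-- An elliptic form has its determinant bounded below. -/
theorem ellSet_det {A : ℝ} (hA : 0 < A) {T : Sym2} (hT : T ∈ ellSet A) :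
    1 / A ^ 2 ≤ T 0 * T 2 - T 1 ^ 2 := by
  have hn : ∀ a b : ℝ, ‖pt a b‖ ^ 2 = a ^ 2 + b ^ 2 := fun a b => by
    simp [pt, EuclideanSpace.norm_sq_eq, Fin.sum_univ_two]
  have h0 := (hT (pt 1 0)).1
  have h1 := (hT (pt (-T 1) (T 0))).1
  rw [hn] at h0 h1
  simp [qf, pt] at h0 h1
  have hT0 : 0 < T 0 := lt_of_lt_of_le (by positivity) h0
  rw [inv_le_iff_one_le_mul₀ hA] at h0
  have h2 : T 0 ^ 2 / A ≤ T 0 * (T 0 * T 2 - T 1 ^ 2) := by
    refine le_trans (le_trans ?_ h1) (le_of_eq (by ring))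
    exact div_le_div_of_nonneg_right (le_add_of_nonneg_left (sq_nonneg _)) hA.le
  have h3 : T 0 / A ≤ T 0 * T 2 - T 1 ^ 2 := by
    refine le_of_mul_le_mul_left ?_ hT0
    rw [mul_div_assoc', ← pow_two]
    exact h2
  refine le_trans ?_ h3
  rw [div_le_div_iff₀ (pow_pos hA 2) hA]
  calc 1 * A ≤ T 0 * A * A := by
        exact mul_le_mul_of_nonneg_right h0 hA.le
    _ = T 0 * A ^ 2 := by ring

/-- Close components have close determinants. -/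
theorem det_close {T T' : Sym2} {C ε : ℝ} (hT : ‖T‖ ≤ C) (h : ‖T' - T‖ ≤ ε) (hε : ε ≤ 1) :
    T 0 * T 2 - T 1 ^ 2 - 4 * (C + 1) * ε ≤ T' 0 * T' 2 - T' 1 ^ 2 := by
  have hT' : ∀ i, |T' i| ≤ C + 1 := fun i => by
    have := (norm_le_pi_norm T' i).trans ((norm_le_norm_add_norm_sub' T' T).trans (add_le_add hT
      (h.trans hε)))
    exact this
  have hTi : ∀ i, |T i| ≤ C + 1 := fun i =>
    ((norm_le_pi_norm T i).trans hT).trans (le_add_of_nonneg_right zero_le_one)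
  have hd : ∀ i, |T' i - T i| ≤ ε := fun i => (norm_le_pi_norm (T' - T) i).trans h
  have hC : 0 ≤ C + 1 := add_nonneg ((norm_nonneg T).trans hT) zero_le_one
  have a : |(T' 0 - T 0) * T' 2| ≤ ε * (C + 1) := by
    rw [abs_mul]; exact mul_le_mul (hd 0) (hT' 2) (abs_nonneg _) ((abs_nonneg _).trans (hd 0))
  have b : |T 0 * (T' 2 - T 2)| ≤ (C + 1) * ε := by
    rw [abs_mul]; exact mul_le_mul (hTi 0) (hd 2) (abs_nonneg _) hC
  have c : |(T' 1 - T 1) * (T' 1 + T 1)| ≤ ε * (C + 1 + (C + 1)) := by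
    rw [abs_mul]
    exact mul_le_mul (hd 1) ((abs_add_le _ _).trans (add_le_add (hT' 1) (hTi 1))) (abs_nonneg _)
      ((abs_nonneg _).trans (hd 1))
  linarith [neg_le_of_abs_le a, neg_le_of_abs_le b, le_of_abs_le c]

variable {M : Type} [TopologicalSpace M] [ChartedSpace R2 M]

/-- A tensor field with its values read on the chart plane. -/
def formB (g : MForm M) (p : M) : Bil R2 := g p

/-- The differential of a parametrisation. -/
def dpar (ψ : R2 → M) (z : R2) : R2 →L[ℝ] R2 := mfderiv 𝓘(ℝ, R2) 𝓘(ℝ, R2) ψ z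

theorem chartForm_eq (g : MForm M) (ψ : R2 → M) (z : R2) :
    chartForm g ψ z = compL' ((formB g (ψ z)).bilinearComp (dpar ψ z) (dpar ψ z)) := by
  rw [compL'_apply]
  rfl

theorem bilL_chartForm {g : MForm M} (hs : ∀ p v w, g p v w = g p w v) (ψ : R2 → M) (z : R2) :
    bilL (chartForm g ψ z) = (formB g (ψ z)).bilinearComp (dpar ψ z) (dpar ψ z) := by
  rw [chartForm_eq, bilL_compL']
  intro u v
  exact hs (ψ z) (dpar ψ z u) (dpar ψ z v)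

namespace Atlas

variable (𝒜 : Atlas (E := R2) (I := 𝓘(ℝ, R2)) (M := M))

theorem dpar_trans {j k : 𝒜.ι} {z : R2} (hz : z ∈ 𝒜.ov j k) :
    dpar (𝒜.par k) z = (dpar (𝒜.par j) (𝒜.trans j k z)).comp (fderiv ℝ (𝒜.trans j k) z) := by
  have he : 𝒜.par k =ᶠ[𝓝 z] 𝒜.par j ∘ 𝒜.trans j k := by
    filter_upwards [(𝒜.isOpen_ov j k).mem_nhds hz] with y hy
    exact (𝒜.par_inv j _ hy.2).symm
  have h1 : MDifferentiableAt 𝓘(ℝ, R2) 𝓘(ℝ, R2) (𝒜.par j) (𝒜.trans j k z) :=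
    ((𝒜.par_smooth j).contMDiffAt (isOpen_ball.mem_nhds (𝒜.trans_mem hz))).mdifferentiableAt
      (by simp)
  have h2 : MDifferentiableAt 𝓘(ℝ, R2) 𝓘(ℝ, R2) (𝒜.trans j k) z :=
    (((𝒜.trans_smooth j k).differentiableOn (by simp)).differentiableAt
      ((𝒜.isOpen_ov j k).mem_nhds hz)).mdifferentiableAt
  unfold dpar
  rw [he.mfderiv_eq, mfderiv_comp z h1 h2, mfderiv_eq_fderiv]
  rfl

/-- A symmetric tensor field as a tensor of the atlas. -/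
def ofForm (g : MForm M) (hs : ∀ p v w, g p v w = g p w v)
    (hsm : ∀ j, ContDiffOn ℝ ∞ (chartForm g (𝒜.par j)) (ball 0 3)) : 𝒜.Tensor where
  comp j z := bilL (chartForm g (𝒜.par j) z)
  smooth j := bilL.contDiff.comp_contDiffOn (hsm j)
  symm j z _ u v := by simp [bilL_apply, qf]; ring
  compat j k z hz := by
    rw [bilL_chartForm hs, bilL_chartForm hs, 𝒜.dpar_trans hz,
      show 𝒜.par j (𝒜.trans j k z) = 𝒜.par k z from 𝒜.par_inv j _ hz.2]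
    rfl

theorem ofForm_comp {g : MForm M} (hs : ∀ p v w, g p v w = g p w v)
    (hsm : ∀ j, ContDiffOn ℝ ∞ (chartForm g (𝒜.par j)) (ball 0 3)) (j : 𝒜.ι) (z : R2) :
    (𝒜.ofForm g hs hsm).comp j z = bilL (chartForm g (𝒜.par j) z) := rfl

/-- An induced tensor field is induced at every point. -/
theorem isometric_of_comp {g : MForm M} (hs : ∀ p v w, g p v w = g p w v) {Y : M → V4}
    (hY : ContMDiff 𝓘(ℝ, R2) 𝓘(ℝ, V4) ∞ Y)
    (h : ∀ j, ∀ z ∈ ball (0 : R2) 2, formAt (A := 𝒜) ipL Y j z = bilL (chartForm g (𝒜.par j) z))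
    (p : M) (v w : TangentSpace 𝓘(ℝ, R2) p) :
    ip (mfderiv 𝓘(ℝ, R2) 𝓘(ℝ, V4) Y p v) (mfderiv 𝓘(ℝ, R2) 𝓘(ℝ, V4) Y p w) = g p v w := by
  obtain ⟨j, -, hj⟩ := exists_ne_zero_of_sum_ne_zero
    (by rw [𝒜.weight_sum p]; exact one_ne_zero : (∑ j, 𝒜.weight j p) ≠ 0)
  obtain ⟨hsrc, hb⟩ := 𝒜.weight_supp j (subset_tsupport _ hj)
  obtain ⟨z, hzdef⟩ : ∃ z, 𝒜.inv j p = z := ⟨_, rfl⟩
  have hz2 : z ∈ ball (0 : R2) 2 := hzdef ▸ ball_subset_ball (by norm_num) hb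
  have hpz : 𝒜.par j z = p := hzdef ▸ 𝒜.par_inv j p hsrc
  subst hpz
  have hp : MDifferentiableAt 𝓘(ℝ, R2) 𝓘(ℝ, R2) (𝒜.par j) z :=
    ((𝒜.par_smooth j).contMDiffAt
      (isOpen_ball.mem_nhds (ball_subset_ball (by norm_num) hz2))).mdifferentiableAt (by simp)
  have hi : MDifferentiableAt 𝓘(ℝ, R2) 𝓘(ℝ, R2) (𝒜.inv j) (𝒜.par j z) :=
    ((𝒜.inv_smooth j).contMDiffAt ((𝒜.src_open j).mem_nhds hsrc)).mdifferentiableAt (by simp)
  have hsurj : ∀ a : R2, ∃ b : R2, dpar (𝒜.par j) z b = a := fun a => by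
    refine ⟨(mfderiv 𝓘(ℝ, R2) 𝓘(ℝ, R2) (𝒜.inv j) (𝒜.par j z) : R2 →L[ℝ] R2) a, ?_⟩
    have e : 𝒜.par j ∘ 𝒜.inv j =ᶠ[𝓝 (𝒜.par j z)] id := by
      filter_upwards [(𝒜.src_open j).mem_nhds hsrc] with q hq using 𝒜.par_inv j q hq
    have h1 := mfderiv_comp_of_eq (g := 𝒜.par j) hp hi hzdef
    rw [e.mfderiv_eq, mfderiv_id, hzdef] at h1
    exact (DFunLike.congr_fun h1 a).symm
  obtain ⟨a, ha⟩ := hsurj v
  obtain ⟨b, hb⟩ := hsurj w
  have hd : fderiv ℝ (fun y => Y (𝒜.par j y)) z =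
      (mfderiv 𝓘(ℝ, R2) 𝓘(ℝ, V4) Y (𝒜.par j z) : R2 →L[ℝ] V4).comp (dpar (𝒜.par j) z) := by
    rw [← mfderiv_eq_fderiv]
    exact mfderiv_comp z ((hY _).mdifferentiableAt (by simp)) hp
  have h1 := DFunLike.congr_fun (DFunLike.congr_fun (h j z hz2) a) b
  rw [bilL_chartForm hs, formAt, hd] at h1
  have h2 : ipL ((mfderiv 𝓘(ℝ, R2) 𝓘(ℝ, V4) Y (𝒜.par j z) : R2 →L[ℝ] V4) (dpar (𝒜.par j) z a))
      ((mfderiv 𝓘(ℝ, R2) 𝓘(ℝ, V4) Y (𝒜.par j z) : R2 →L[ℝ] V4) (dpar (𝒜.par j) z b)) =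
      formB g (𝒜.par j z) (dpar (𝒜.par j) z a) (dpar (𝒜.par j) z b) := h1
  rw [ha, hb] at h2
  exact (ipL_apply _ _).symm.trans h2

end Atlas

end Vale.Agent.P205.Iter
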