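import Vale.Agent.P205.Iter.Patchwork

/-!
A map replaced inside a chart, the replacement given in a linear frame of the chart: derivatives
and induced forms.
-/

noncomputable section

set_option maxSynthPendingDepth 3

open Set Filter Finset Metric Function
open scoped ContDiff Topology Manifold

namespace Vale.Agent.P205.Iter

open Wave (V4)

/-- The norm of a form pulled twice. -/
theorem pull_twice_le (v : Sym2) (D E : R2 →L[ℝ] R2) {e d : ℝ} (hE : ‖E‖ ≤ e) (hD : ‖D‖ ≤ d) :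
    ‖((bilL v).bilinearComp E E).bilinearComp D D‖ ≤ d ^ 2 * (e ^ 2 * (‖bilL‖ * ‖v‖)) := by
  have hd : 0 ≤ d := (norm_nonneg D).trans hD
  have he : 0 ≤ e := (norm_nonneg E).trans hE
  refine (norm_bilinearComp_le _ _ _).trans ?_
  calc ‖(bilL v).bilinearComp E E‖ * ‖D‖ * ‖D‖ ≤ (‖bilL‖ * ‖v‖ * e * e) * d * d := by
        refine mul_le_mul (mul_le_mul ((norm_bilinearComp_le _ _ _).trans ?_) hD (norm_nonneg D)
          (by positivity)) hD (norm_nonneg D) (by positivity)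
        exact mul_le_mul (mul_le_mul (bilL.le_opNorm v) hE (norm_nonneg E) (by positivity)) hE
          (norm_nonneg E) (by positivity)
    _ = d ^ 2 * (e ^ 2 * (‖bilL‖ * ‖v‖)) := by ring

variable {E₀ : Type*} [NormedAddCommGroup E₀] [NormedSpace ℝ E₀]
  {H : Type*} [TopologicalSpace H] {I : ModelWithCorners ℝ E₀ H}
  {M : Type} [TopologicalSpace M] [ChartedSpace H M]

namespace Atlas

variable (A : Atlas (E := R2) (I := I) (M := M))

/-- `Y'` is `Y` changed to `W`, written in the frame `L` of the chart `j`, over the set `S`. -/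
structure Patched (j : A.ι) (L : R2 ≃L[ℝ] R2) (S : Set R2) (W : R2 → V4) (Y Y' : M → V4) :
    Prop where
  inside : ∀ k, ∀ z ∈ ball (0 : R2) 2, A.par k z ∈ A.par j '' S →
    z ∈ A.core j k ∧ A.trans j k z ∈ S ∧
      (fun y => Y' (A.par k y)) =ᶠ[𝓝 z] fun y => W (L.symm (A.trans j k y))
  outside : ∀ k, ∀ z ∈ ball (0 : R2) 2, A.par k z ∉ A.par j '' S →
    (fun y => Y' (A.par k y)) =ᶠ[𝓝 z] fun y => Y (A.par k y)

/-- The chart of a map through another chart and a frame. -/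
theorem frame_trans (j k : A.ι) (L : R2 ≃L[ℝ] R2) (Y : M → V4) {z : R2} (hz : z ∈ A.ov j k) :
    (fun y => Y (A.par k y)) =ᶠ[𝓝 z]
      fun y => (fun u => Y (A.par j (L u))) (L.symm (A.trans j k y)) := by
  filter_upwards [(A.isOpen_ov j k).mem_nhds hz] with y hy
  simp only [L.apply_symm_apply]
  rw [show A.par j (A.trans j k y) = A.par k y from A.par_inv j _ hy.2]

variable [T2Space M]

/-- The replacement exists. -/
theorem exists_patched (j : A.ι) (L : R2 ≃L[ℝ] R2) {O S : Set R2} (hO : IsOpen O)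
    (hO3 : O ⊆ ball 0 3) (hS : IsCompact S) (hSO : S ⊆ O) (hS2 : S ⊆ closedBall 0 2)
    {W : R2 → V4} (hW : ContDiffOn ℝ ∞ W (L ⁻¹' O)) {Y : M → V4}
    (hY : ContMDiff I 𝓘(ℝ, V4) ∞ Y)
    (heq : ∀ y ∈ O, y ∉ S → W (L.symm y) = Y (A.par j y)) :
    ∃ Y' : M → V4, ContMDiff I 𝓘(ℝ, V4) ∞ Y' ∧ A.Patched j L S W Y Y' := by
  have hf : ContDiffOn ℝ ∞ (fun y => W (L.symm y)) O :=
    hW.comp L.symm.contDiff.contDiffOn fun y hy => by simpa using hy
  obtain ⟨Y', hY', hin, hout, -⟩ := A.exists_patch j hO hO3 hS hSO hS2 hf hY heq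
  exact ⟨Y', hY', hin, hout⟩

/-- The derivatives of the change. -/
theorem patched_diff (i : ℕ) : ∃ c : ℝ, 0 ≤ c ∧ ∀ (j : A.ι) (L : R2 ≃L[ℝ] R2) (O S : Set R2)
    (W : R2 → V4) (Y Y' : M → V4), IsOpen O → O ⊆ ball 0 3 → S ⊆ O →
    ContDiffOn ℝ ∞ W (L ⁻¹' O) → ContMDiff I 𝓘(ℝ, V4) ∞ Y → A.Patched j L S W Y Y' →
    ∀ C : ℝ, 0 ≤ C → (∀ l ≤ i, ∀ y ∈ S,
      ‖iteratedFDeriv ℝ l (fun u => W u - Y (A.par j (L u))) (L.symm y)‖ ≤ C) →
      A.NormLe i (fun p => Y' p - Y p) (c * ((1 + ‖(L.symm : R2 →L[ℝ] R2)‖) ^ i * C)) := by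
  obtain ⟨c, hc0, hc⟩ := A.transfer i
  refine ⟨c, hc0, fun j L O S W Y Y' hO hO3 hSO hW hY hp C hC0 hC k z hz => ?_⟩
  by_cases h : A.par k z ∈ A.par j '' S
  · obtain ⟨hcore, hy, hev⟩ := hp.inside k z hz h
    set D : R2 → V4 := fun u => W u - Y (A.par j (L u))
    have hD : ContDiffOn ℝ ∞ D (L ⁻¹' O) := hW.sub
      (((chart_smooth (A := A) hY j).mono hO3).comp L.contDiff.contDiffOn fun u hu => hu)
    have hDs : ContDiffOn ℝ ∞ (fun y => D (L.symm y)) O :=
      hD.comp L.symm.contDiff.contDiffOn fun y hy => by simpa using hy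
    have e : (fun y => Y' (A.par k y) - Y (A.par k y)) =ᶠ[𝓝 z]
        fun y => (fun y => D (L.symm y)) (A.trans j k y) :=
      hev.sub (A.frame_trans j k L Y (A.core_subset j k hcore))
    rw [(e.iteratedFDeriv ℝ i).eq_of_nhds]
    refine hc j k (fun y => D (L.symm y)) O hO hDs z hcore (hSO hy) _ fun l hl => ?_
    refine (lin_comp L.symm D (hO.preimage L.continuous) (by simpa using hSO hy) l).trans ?_
    rw [mul_comm _ C]
    exact mul_le_mul (hC l hl _ hy)
      ((pow_le_pow_left₀ (norm_nonneg _) (le_add_of_nonneg_left zero_le_one) l).trans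
        (pow_le_pow_right₀ (le_add_of_nonneg_right (norm_nonneg _)) hl))
      (pow_nonneg (norm_nonneg _) l) hC0
  · have e : (fun y => Y' (A.par k y) - Y (A.par k y)) =ᶠ[𝓝 z] fun _ => (0 : V4) := by
      filter_upwards [hp.outside k z hz h] with y hy
      rw [hy, sub_self]
    rw [(e.iteratedFDeriv ℝ i).eq_of_nhds, iteratedFDeriv_fun_zero, Pi.zero_apply, norm_zero]
    exact mul_nonneg hc0 (mul_nonneg (pow_nonneg (by positivity) i) hC0)

omit [T2Space M] in
/-- The induced form of the change inside. -/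
theorem patched_form {j : A.ι} {L : R2 ≃L[ℝ] R2} {O S : Set R2} {W : R2 → V4} {Y Y' : M → V4}
    (hO : IsOpen O) (hO3 : O ⊆ ball 0 3) (hSO : S ⊆ O) (hW : ContDiffOn ℝ ∞ W (L ⁻¹' O))
    (hY : ContMDiff I 𝓘(ℝ, V4) ∞ Y) (hp : A.Patched j L S W Y Y')
    (k : A.ι) {z : R2} (hz : z ∈ ball (0 : R2) 2) (h : A.par k z ∈ A.par j '' S) :
    formAt (A := A) ipL Y' k z - formAt (A := A) ipL Y k z =
      ((bilL (met W (L.symm (A.trans j k z)) -
          met (fun u => Y (A.par j (L u))) (L.symm (A.trans j k z)))).bilinearComp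
        (L.symm : R2 →L[ℝ] R2) (L.symm : R2 →L[ℝ] R2)).bilinearComp
          (fderiv ℝ (A.trans j k) z) (fderiv ℝ (A.trans j k) z) := by
  obtain ⟨hcore, hy, hev⟩ := hp.inside k z hz h
  have hzo := A.core_subset j k hcore
  have key : ∀ (F : R2 → V4), ContDiffOn ℝ ∞ F (L ⁻¹' O) → ∀ X : M → V4,
      (fun y => X (A.par k y)) =ᶠ[𝓝 z] (fun y => F (L.symm (A.trans j k y))) →
      formAt (A := A) ipL X k z = ((bilL (met F (L.symm (A.trans j k z)))).bilinearComp
        (L.symm : R2 →L[ℝ] R2) (L.symm : R2 →L[ℝ] R2)).bilinearComp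
          (fderiv ℝ (A.trans j k) z) (fderiv ℝ (A.trans j k) z) := fun F hF X e => by
    have hm : L.symm (A.trans j k z) ∈ L ⁻¹' O := by simpa using hSO hy
    have h1 : DifferentiableAt ℝ F (L.symm (A.trans j k z)) :=
      (hF.differentiableOn (by simp)).differentiableAt ((hO.preimage L.continuous).mem_nhds hm)
    have h2 : DifferentiableAt ℝ (A.trans j k) z :=
      ((A.trans_smooth j k).differentiableOn (by simp)).differentiableAt
        ((A.isOpen_ov j k).mem_nhds hzo)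
    have h3 : HasFDerivAt (fun y => F (L.symm (A.trans j k y)))
        (((fderiv ℝ F (L.symm (A.trans j k z))).comp (L.symm : R2 →L[ℝ] R2)).comp
          (fderiv ℝ (A.trans j k) z)) z :=
      (h1.hasFDerivAt.comp (A.trans j k z) L.symm.hasFDerivAt).comp z h2.hasFDerivAt
    rw [formAt, e.fderiv_eq, h3.fderiv, bilL_met, form_comp, form_comp]
  rw [key W hW Y' hev, key _ (((chart_smooth (A := A) hY j).mono hO3).comp L.contDiff.contDiffOn
    fun u hu => hu) Y (A.frame_trans j k L Y hzo)]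
  ext a b
  simp [Function.comp_def]

end Atlas

end Vale.Agent.P205.Iter
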