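import Vale.Agent.P205.Iter.ColourData
import Vale.Agent.P205.Iter.Waves

/-!
One colour of a stage: three waves in a linear frame of one chart, glued back.
-/

noncomputable section

set_option maxSynthPendingDepth 3

open Set Filter Finset Metric Function
open scoped ContDiff Topology Manifold

namespace Vale.Agent.P205.Iter

open Wave (V4 ip)

variable {E₀ : Type*} [NormedAddCommGroup E₀] [NormedSpace ℝ E₀]
  {H : Type*} [TopologicalSpace H] {I : ModelWithCorners ℝ E₀ H}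
  {M : Type} [TopologicalSpace M] [ChartedSpace H M]
  {A : Atlas (E := R2) (I := I) (M := M)} {n : ℕ}

namespace Atlas

/-- The exponent of the scale after some colours. -/
def expAt (γ m : ℕ) : ℕ := 50 * (γ + 2) ^ m

theorem expAt_pos (γ m : ℕ) : 50 ≤ expAt γ m := Nat.le_mul_of_pos_right _ (pow_pos (by omega) m)

theorem expAt_succ (γ m : ℕ) : γ * expAt γ m + 2 * expAt γ m = expAt γ (m + 1) := by
  simp only [expAt, pow_succ]; ring

theorem expAt_mono (γ : ℕ) : Monotone (expAt γ) := fun _ _ h =>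
  Nat.mul_le_mul_left 50 (Nat.pow_le_pow_right (by omega) h)

variable {Ael : ℝ} {Ab : ℕ → ℝ} {c1 : ℝ} (cell : Fin n → Cell)

/-- What has been reached after the colours of a set. -/
structure Reached (γ N B : ℕ) (s : Finset (A.Col n)) (out : ℕ → ℝ) (t : A.Dat Ael Ab c1)
    (Y : M → V4) : Prop where
  smooth : ContMDiff I 𝓘(ℝ, V4) ∞ Y
  bound : ∀ i, A.NormLe i Y (out i * (t.K ^ expAt γ s.card) ^ i)
  close : ∀ l ≤ 2, A.NormLe l (fun p => Y p - t.X p)
    (out 0 * t.K ^ expAt γ s.card * (t.K ^ (t.D / 4))⁻¹)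
  form : ∀ k, ∀ z ∈ ball (0 : R2) 2,
    ‖formAt (A := A) ipL Y k z - formAt (A := A) ipL t.X k z -
      (∑ c ∈ s, share cell c t (A.par k z)) • target t k z‖ ≤
      out 0 * (t.K ^ (B * N + 1))⁻¹

variable {cell} [T2Space M]

/-- The share of a colour as seen in the frame. -/
theorem share_target {c : A.Col n} {t : A.Dat Ael Ab c1} {Z : R2 → V4} {W : R2 → V4}
    (hsq : ∀ z ∈ ball (0 : R2) 3, chi cell c t z ^ 2 = share cell c t (A.par c.1 z))
    (k : A.ι) {z : R2} (hz : z ∈ A.ov c.1 k) :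
    let L := (cell c.2.1).L c.2.2
    let u := L.symm (A.trans c.1 k z)
    ((bilL (met W u - met Z u)).bilinearComp (L.symm : R2 →L[ℝ] R2)
        (L.symm : R2 →L[ℝ] R2)).bilinearComp (fderiv ℝ (A.trans c.1 k) z)
        (fderiv ℝ (A.trans c.1 k) z) - share cell c t (A.par k z) • target t k z =
      ((bilL (met W u - met Z u - colChi cell c t u ^ 2 • trioForm (colBeta cell c t) u)).bilinearComp
        (L.symm : R2 →L[ℝ] R2) (L.symm : R2 →L[ℝ] R2)).bilinearComp
          (fderiv ℝ (A.trans c.1 k) z) (fderiv ℝ (A.trans c.1 k) z) := by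
  intro L u
  obtain ⟨j, i₀, θ⟩ := c
  have hy : A.trans j k z ∈ ball (0 : R2) 3 := A.trans_mem hz
  have e1 : share cell (j, i₀, θ) t (A.par k z) = chi cell (j, i₀, θ) t (A.trans j k z) ^ 2 := by
    rw [hsq _ hy, show A.par j (A.trans j k z) = A.par k z from A.par_inv j _ hz.2]
  have e2 : target t j (A.trans j k z) =
      (bilL (trioForm (colBeta cell ((j, i₀, θ) : A.Col n) t) u)).bilinearComp
        (L.symm : R2 →L[ℝ] R2) (L.symm : R2 →L[ℝ] R2) := by
    rw [show colBeta cell ((j, i₀, θ) : A.Col n) t =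
      fun b y => betaL b ((fun y => frameComp L (target t j (L y))) y) from rfl, trioForm_betaL]
    simp only [u, L.apply_symm_apply]
    exact (bilL_frameComp L (target_symm t j hy)).symm
  rw [e1, target_compat t j k hz, e2]
  simp only [colChi, u]
  rw [L.apply_symm_apply]
  ext a b
  simp [L]

/-- The change of the form by one colour. -/
theorem share_err {c : A.Col n} {t : A.Dat Ael Ab c1} {W : R2 → V4} {Y Y' : M → V4} {O : Set R2}
    (hsq : ∀ z ∈ ball (0 : R2) 3, chi cell c t z ^ 2 = share cell c t (A.par c.1 z))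
    (hO : IsOpen O) (hO3 : O ⊆ ball 0 3) (hSO : colSet cell c t ⊆ O)
    (hW : ContDiffOn ℝ ∞ W ((cell c.2.1).L c.2.2 ⁻¹' O)) (hY : ContMDiff I 𝓘(ℝ, V4) ∞ Y)
    (hp : A.Patched c.1 ((cell c.2.1).L c.2.2) (colSet cell c t) W Y Y') {T1 e : ℝ} (he : 0 ≤ e)
    (hT1 : ∀ j k : A.ι, ∀ z ∈ A.core j k, ∀ l ≤ 1,
      ‖iteratedFDerivWithin ℝ l (A.trans j k) (A.ov j k) z‖ ≤ T1)
    (herr : ∀ u ∈ (cell c.2.1).L c.2.2 ⁻¹' colSet cell c t,
      ‖met W u - met (colMap cell c Y) u - colChi cell c t u ^ 2 •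
        trioForm (colBeta cell c t) u‖ ≤ e) :
    ∀ k, ∀ z ∈ ball (0 : R2) 2,
      ‖formAt (A := A) ipL Y' k z - formAt (A := A) ipL Y k z -
        share cell c t (A.par k z) • target t k z‖ ≤
        T1 ^ 2 * (‖(((cell c.2.1).L c.2.2).symm : R2 →L[ℝ] R2)‖ ^ 2 * (‖bilL‖ * e)) := by
  intro k z hz
  by_cases h : A.par k z ∈ A.par c.1 '' colSet cell c t
  · obtain ⟨hcore, hy, -⟩ := hp.inside k z hz h
    have hzo := A.core_subset c.1 k hcore
    rw [A.patched_form hO hO3 hSO hW hY hp k hz h, share_target hsq k hzo]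
    have hdT : ‖fderiv ℝ (A.trans c.1 k) z‖ ≤ T1 := by
      have := hT1 c.1 k z hcore 1 le_rfl
      rwa [iteratedFDerivWithin_of_isOpen 1 (A.isOpen_ov c.1 k) hzo,
        norm_iteratedFDeriv_one] at this
    refine (pull_twice_le _ _ _ le_rfl hdT).trans (mul_le_mul_of_nonneg_left
      (mul_le_mul_of_nonneg_left (mul_le_mul_of_nonneg_left ?_ (norm_nonneg bilL))
        (pow_nonneg (norm_nonneg _) 2)) (sq_nonneg T1))
    exact herr _ (by simpa using hy)
  · have h0 : share cell c t (A.par k z) = 0 := by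
      have : colCut cell c t (A.par k z) = 0 := by
        simp only [colCut, glue]
        split_ifs with hs
        · refine chartCut_off c t fun hn => h ⟨A.inv c.1 (A.par k z), hn, A.par_inv c.1 _ hs⟩
        · rfl
      simp [share, this]
    rw [h0, zero_smul, sub_zero, formAt, formAt, (hp.outside k z hz h).fderiv_eq, sub_self,
      norm_zero]
    exact mul_nonneg (sq_nonneg T1) (mul_nonneg (sq_nonneg _) (mul_nonneg (norm_nonneg bilL) he))

/-- One more colour. -/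
theorem exists_colour (hTrio : TrioProp) :
    ∃ γ : ℕ, ∀ (Ael : ℝ) (cell : Fin n → Cell),
    (∀ T ∈ ellSet Ael, ∃ i, ‖T - (cell i).mid‖ ≤ (cell i).rad / 2) →
    ∃ η : ℝ, 0 < η ∧ ∀ (Ab : ℕ → ℝ) (c1 : ℝ) (N B : ℕ) (s : Finset (A.Col n)) (c : A.Col n)
      (hc : c ∉ s) (out : ℕ → ℝ), ∃ (out' : ℕ → ℝ) (K₁ : ℝ), ∀ t : A.Dat Ael Ab c1, K₁ ≤ t.K →
      4 * (expAt γ s.card + 100) ≤ t.D → (∀ j y, ‖t.e j y‖ ≤ η) →
      ∀ Y : M → V4, Reached cell γ N B s out t Y →
        ∃ Y' : M → V4, Reached cell γ N B (Finset.cons c s hc) out' t Y' := by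
  obtain ⟨γ, hγ⟩ := hTrio
  refine ⟨γ, fun Ael cell hcell => ?_⟩
  obtain ⟨pb, hpb0, hpb⟩ := A.push_bound
  set ρ : ℝ := (1 + ∑ i, ((cell i).rad)⁻¹)⁻¹ with hρ
  have hρ0 : 0 < ρ := inv_pos.2 (add_pos_of_pos_of_nonneg one_pos
    (Finset.sum_nonneg fun i _ => (inv_pos.2 (cell i).rad_pos).le))
  have hden : 0 < ‖compL'‖ * pb + 1 :=
    add_pos_of_nonneg_of_pos (mul_nonneg (norm_nonneg compL') hpb0) one_pos
  refine ⟨ρ / (‖compL'‖ * pb + 1), div_pos hρ0 hden, fun Ab c1 N B s c hc out => ?_⟩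
  set L := (cell c.2.1).L c.2.2 with hL
  obtain ⟨Cχ, hCχ0, hchi, -, hflt⟩ := chi_props (A := A) (Ab := Ab) (c1 := c1) hcell
  choose cp hcp0 hcp using fun i => A.push_deriv i
  choose cd hcd0 hcd using fun i => A.patched_diff i
  obtain ⟨T1, -, hT1⟩ := A.trans_bound 1
  obtain ⟨Ls, hLs1, hLs⟩ := exists_low_stable
  set nL : ℝ := ‖(L : R2 →L[ℝ] R2)‖
  set nS : ℝ := ‖(L.symm : R2 →L[ℝ] R2)‖
  set BJ : ℝ := 2 * (|Ab 1| + |Ab 2| + 1) with hBJ
  set P : ℝ := Ls * BJ ^ 4 with hP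
  set CT : ℕ → ℝ := fun i => cap Ab i + cp i * cap Ab i with hCT
  set bβ : ℕ → ℝ := fun i => (∑ b, ‖betaL b‖) * ‖frameComp L‖ * (CT i * nL ^ i) with hbβ
  set C : ℕ → ℝ := fun i => |out i| * nL ^ i + |bβ i| + Cχ + |2 * c1 / det2 L ^ 2| +
    |12 * c1 * P / (cell c.2.1).str c.2.2 ^ 4| with hC
  have hC0 : ∀ i, 0 ≤ |out i| * nL ^ i :=
    fun i => mul_nonneg (abs_nonneg _) (pow_nonneg (norm_nonneg _) i)
  have hconsts : Consts cell c out CT Cχ c1 P C := by
    refine ⟨?_, fun i => ?_, fun i => ?_, ?_, ?_⟩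
    · simp only [hC]
      linarith [hC0 0, abs_nonneg (bβ 0), abs_nonneg (2 * c1 / det2 L ^ 2),
        abs_nonneg (12 * c1 * P / (cell c.2.1).str c.2.2 ^ 4)]
    · simp only [hC]
      linarith [abs_nonneg (bβ i), hCχ0, abs_nonneg (2 * c1 / det2 L ^ 2),
        abs_nonneg (12 * c1 * P / (cell c.2.1).str c.2.2 ^ 4)]
    · simp only [hC]
      linarith [hC0 i, le_abs_self (bβ i), hCχ0, abs_nonneg (2 * c1 / det2 L ^ 2),
        abs_nonneg (12 * c1 * P / (cell c.2.1).str c.2.2 ^ 4)]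
    · simp only [hC]
      linarith [hC0 0, abs_nonneg (bβ 0), hCχ0, le_abs_self (2 * c1 / det2 L ^ 2),
        abs_nonneg (12 * c1 * P / (cell c.2.1).str c.2.2 ^ 4)]
    · simp only [hC]
      linarith [hC0 0, abs_nonneg (bβ 0), hCχ0, abs_nonneg (2 * c1 / det2 L ^ 2),
        le_abs_self (12 * c1 * P / (cell c.2.1).str c.2.2 ^ 4)]
  choose Cf hCf0 hCf using fun i d => (hflt c d).bound i
  obtain ⟨C', K₀, htrio⟩ := hγ (B * N + 1) C (fun i d => Cf i d * nL ^ i)
  -- the output constants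
  set ob : ℕ → ℝ := fun i => |out i| +
    cd i * ((1 + nS) ^ i * ∑ l ∈ range (i + 1), (|C' l| + |out l| * nL ^ l)) with hob
  set od : ℝ := |out 0| + (cd 0 + cd 1 + cd 2) * ((1 + nS) ^ 2 * (|C' 0| * Real.sqrt (Cχ + 1)))
    with hod
  set oe : ℝ := T1 ^ 2 * (nS ^ 2 * (‖bilL‖ * |C' 0|)) + |out 0| with hoe
  have hob0 : ∀ i, 0 ≤ ob i := fun i => add_nonneg (abs_nonneg _) (mul_nonneg (hcd0 i)
    (mul_nonneg (pow_nonneg (add_nonneg zero_le_one (norm_nonneg _)) i)
      (Finset.sum_nonneg fun l _ => add_nonneg (abs_nonneg _) (hC0 l))))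
  have hod0 : 0 ≤ od := add_nonneg (abs_nonneg _) (mul_nonneg
    (add_nonneg (add_nonneg (hcd0 0) (hcd0 1)) (hcd0 2))
    (mul_nonneg (sq_nonneg _) (mul_nonneg (abs_nonneg _) (Real.sqrt_nonneg _))))
  have hoe0 : 0 ≤ oe := add_nonneg (mul_nonneg (sq_nonneg _) (mul_nonneg (sq_nonneg _)
    (mul_nonneg (norm_nonneg bilL) (abs_nonneg _)))) (abs_nonneg _)
  refine ⟨fun i => ob i + od + oe,
    max (max K₀ (2 * (|out 0| + 1))) (24 * Ls * BJ ^ 5 * |c1| * (|out 0| + 1)),
    fun t hK hD hη Y hY => ?_⟩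
  set K := t.K
  have hK1 : 1 ≤ K := t.one_le
  have hK0 : K₀ ≤ K := ((le_max_left _ _).trans (le_max_left _ _)).trans hK
  have hKd : 2 * (|out 0| + 1) ≤ K := ((le_max_right _ _).trans (le_max_left _ _)).trans hK
  have hKc : 24 * Ls * BJ ^ 5 * |c1| * (|out 0| + 1) ≤ K := (le_max_right _ _).trans hK
  set e := expAt γ s.card with he
  have he50 : 50 ≤ e := expAt_pos γ _
  set Kl : ℝ := K ^ e with hKl
  have hKl1 : 1 ≤ Kl := one_le_pow₀ hK1
  have hKKl : K ≤ Kl := le_self_pow₀ hK1 (by omega)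
  have hKl0 : 0 ≤ Kl := zero_le_one.trans hKl1
  have hKp : 0 < K := zero_lt_one.trans_le hK1
  -- the hypotheses of the three waves
  set d : ℝ := out 0 * Kl * (K ^ (t.D / 4))⁻¹ with hdd
  have hpos : 0 ≤ Kl * (K ^ (t.D / 4))⁻¹ := mul_nonneg hKl0 (inv_nonneg.2 (pow_nonneg hKp.le _))
  have hd1 : 2 * d ≤ 1 := by
    have h := tiny hK1 hKd (m := e) (a := t.D / 4) (b := 0) (by omega)
    rw [pow_zero, inv_one] at h
    refine le_trans ?_ h
    rw [hdd, show 2 * (out 0 * Kl * (K ^ (t.D / 4))⁻¹) = 2 * out 0 * (Kl * (K ^ (t.D / 4))⁻¹) by ring,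
      show 2 * (|out 0| + 1) * K ^ e * (K ^ (t.D / 4))⁻¹ =
        2 * (|out 0| + 1) * (Kl * (K ^ (t.D / 4))⁻¹) by rw [hKl]; ring]
    exact mul_le_mul_of_nonneg_right (by linarith [le_abs_self (out 0)]) hpos
  have hsmall : Ls * (BJ * K ^ 6) ^ 5 * (2 * d) * (c1 * K) ≤ 1 / 12 := by
    have h2 : 24 * Ls * BJ ^ 5 * c1 * out 0 ≤ K := by
      refine le_trans ?_ hKc
      rw [abs_of_pos t.c1_pos]
      exact mul_le_mul_of_nonneg_left ((le_abs_self _).trans (le_add_of_nonneg_right zero_le_one))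
        (mul_nonneg (mul_nonneg (mul_nonneg (by norm_num) (zero_le_one.trans hLs1))
          (pow_nonneg (by positivity) 5)) t.c1_pos.le)
    have h3 := tiny hK1 h2 (m := e + 31) (a := t.D / 4) (b := 0) (by omega)
    rw [pow_zero, inv_one] at h3
    have h1 : Ls * (BJ * K ^ 6) ^ 5 * (2 * d) * (c1 * K) * 12 =
        24 * Ls * BJ ^ 5 * c1 * out 0 * K ^ (e + 31) * (K ^ (t.D / 4))⁻¹ := by
      rw [hdd, hKl, mul_pow, pow_add]; ring
    linarith
  have hlow := fun z (hz : z ∈ colSet cell c t) =>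
    low_of_close hLs hLs1 t hY.smooth hY.close hd1 hsmall c hz
  have hT : ∀ i, ∀ z ∈ ball (0 : R2) 2, ‖iteratedFDeriv ℝ i (target t c.1) z‖ ≤ CT i * Kl ^ i := by
    intro i z hz
    have hz3 : ball (0 : R2) 3 ∈ 𝓝 z := isOpen_ball.mem_nhds (ball_subset_ball (by norm_num) hz)
    rw [show target t c.1 = fun y => t.g.comp c.1 y + A.push t.e c.1 y from rfl,
      fun_iteratedFDeriv_add_apply
        (((t.g.smooth c.1).contDiffAt hz3).of_le (by exact_mod_cast le_top))
        (((A.push_smooth t.smoothE t.suppE c.1).contDiffAt hz3).of_le (by exact_mod_cast le_top)),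
      hCT, add_mul, mul_assoc (cp i)]
    refine (norm_add_le _ _).trans (add_le_add ?_ ?_)
    · exact ((t.bdg i c.1 z hz).trans (le_cap Ab le_rfl)).trans
        (le_mul_of_one_le_right (cap_nonneg _ _) (one_le_pow₀ hKl1))
    · refine hcp i t.e t.smoothE t.suppE _ (mul_nonneg (cap_nonneg _ _) (pow_nonneg hKl0 i))
        (fun l hl k y => (t.bdE l k y).trans ?_) c.1 z hz
      refine mul_le_mul (le_cap Ab hl) ?_ (pow_nonneg hKp.le _) (cap_nonneg _ _)
      rw [hKl, ← pow_mul]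
      exact pow_le_pow_right₀ hK1 (Nat.mul_le_mul (by omega) hl)
  have hη' : ∀ z ∈ ball (0 : R2) 2, ‖compL' (A.push t.e c.1 z)‖ ≤ (cell c.2.1).rad := by
    intro z hz
    refine (compL'.le_opNorm _).trans ((mul_le_mul_of_nonneg_left
      (hpb t.e t.suppE _ (div_pos hρ0 hden).le hη c.1 z hz) (norm_nonneg _)).trans (le_trans ?_
      (?_ : ρ ≤ (cell c.2.1).rad)))
    · rw [← mul_assoc, ← mul_div_assoc, div_le_iff₀ hden, mul_comm (‖compL'‖ * pb)]
      exact mul_le_mul_of_nonneg_left (le_add_of_nonneg_right zero_le_one) hρ0.le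
    · rw [hρ, ← inv_inv (cell c.2.1).rad]
      exact inv_anti₀ (inv_pos.2 (cell c.2.1).rad_pos) ((single_le_sum
        (f := fun i => ((cell i).rad)⁻¹) (fun i _ => (inv_pos.2 (cell i).rad_pos).le)
        (Finset.mem_univ c.2.1)).trans (le_add_of_nonneg_left zero_le_one))
  obtain ⟨hsm, hr, hz0, hsq⟩ := hchi c t
  obtain ⟨hSΩ, hdata⟩ := trio_data c t hconsts hCχ0
    (mul_nonneg (zero_le_one.trans hLs1) (pow_nonneg (by positivity) 4))
    (pow_le_pow_right₀ hK1 he50) hsm hr hz0 hCf0 (fun i d z hz => hCf i d t z hz) hT hη'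
    hY.smooth hY.bound hlow
  -- the waves
  obtain ⟨W, hWs, hWeq, hWb, hWd, hWe, -, -⟩ := htrio Kl (hK0.trans hKKl) _ _ _ _ _ hdata
  obtain ⟨Y', hY's, hp⟩ := A.exists_patched c.1 L (colDom_open c hY.smooth) (colDom_ball c Y)
    (colSet_compact c t) hSΩ (fun z hz => closedBall_subset_closedBall (by norm_num) hz.1) hWs
    hY.smooth fun y hy hy' => by
      rw [hWeq (L.symm y) (by simpa [hL] using hy) (by simpa [hL] using hy')]
      simp [colMap, hL]
  have hdiff := fun i => hcd i c.1 L _ _ W Y Y' (colDom_open c hY.smooth) (colDom_ball c Y) hSΩ hWs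
    hY.smooth hp
  have hKlγ : Kl ^ γ * Kl ≤ K ^ expAt γ (s.card + 1) := by
    rw [hKl, ← pow_succ, ← pow_mul]
    refine pow_le_pow_right₀ hK1 ?_
    rw [← expAt_succ γ s.card, ← he, Nat.mul_succ, Nat.mul_comm e γ]
    omega
  set K' : ℝ := K ^ expAt γ (s.card + 1)
  have hγK : Kl ^ γ ≤ K' := (le_mul_of_one_le_right (pow_nonneg hKl0 _) hKl1).trans hKlγ
  have hlK : Kl ≤ K' := (le_mul_of_one_le_left hKl0 (one_le_pow₀ hKl1)).trans hKlγ
  have hK'1 : 1 ≤ K' := one_le_pow₀ hK1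
  have hK'0 : 0 ≤ K' := zero_le_one.trans hK'1
  have hnS : 0 ≤ 1 + nS := add_nonneg zero_le_one (norm_nonneg _)
  have hcard : (Finset.cons c s hc).card = s.card + 1 := Finset.card_cons hc
  refine ⟨Y', hY's, fun i => ?_, fun l hl => ?_, fun k z hz => ?_⟩
  · rw [hcard]
    have hb := hdiff i ((∑ l ∈ range (i + 1), (|C' l| + |out l| * nL ^ l)) * K' ^ i)
      (mul_nonneg (Finset.sum_nonneg fun l _ => add_nonneg (abs_nonneg _) (hC0 l)) (pow_nonneg hK'0 i))
      fun l hl y hy => by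
        have hyS : L.symm y ∈ L ⁻¹' colSet cell c t := by simpa using hy
        have hyΩ := (colDom_open c hY.smooth).preimage L.continuous |>.mem_nhds
          (preimage_mono hSΩ hyS)
        have hZs : ContDiffOn ℝ ∞ (fun u => Y (A.par c.1 (L u))) (L ⁻¹' colDom (A := A) c Y) :=
          hdata.smoothZ
        rw [fun_iteratedFDeriv_sub_apply ((hWs.contDiffAt hyΩ).of_le (by exact_mod_cast le_top))
          ((hZs.contDiffAt hyΩ).of_le (by exact_mod_cast le_top))]
        refine (norm_sub_le _ _).trans ?_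
        refine le_trans (add_le_add ?_ ?_) (mul_le_mul_of_nonneg_right (single_le_sum
          (f := fun l => |C' l| + |out l| * nL ^ l)
          (fun l _ => add_nonneg (abs_nonneg _) (hC0 l)) (Finset.mem_range.2 (by omega : l < i + 1)))
          (pow_nonneg hK'0 i) |>.trans' (le_of_eq (add_mul _ _ _).symm))
        · refine (hWb l _ hyS).trans (mul_le_mul (le_abs_self _) ?_
            (pow_nonneg (pow_nonneg hKl0 _) l) (abs_nonneg _))
          exact (pow_le_pow_left₀ (pow_nonneg hKl0 _) hγK l).trans (pow_le_pow_right₀ hK'1 hl)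
        · refine (lin_comp L (fun y => Y (A.par c.1 y)) isOpen_ball
            (closedBall_subset_ball (by norm_num) hyS.1 : L (L.symm y) ∈ ball (0 : R2) 2) l).trans ?_
          refine (mul_le_mul_of_nonneg_right ((hY.bound l c.1 _
            (closedBall_subset_ball (by norm_num) hyS.1)).trans
              (mul_le_mul_of_nonneg_right (le_abs_self _) (pow_nonneg hKl0 _)))
            (pow_nonneg (norm_nonneg _) l)).trans ?_
          rw [mul_right_comm]
          exact mul_le_mul_of_nonneg_left ((pow_le_pow_left₀ hKl0 hlK l).trans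
            (pow_le_pow_right₀ hK'1 hl)) (hC0 l)
    have h := A.normLe_add (hY's.sub hY.smooth) hY.smooth hb (hY.bound i)
    simp only [sub_add_cancel] at h
    refine A.normLe_mono h ?_
    calc cd i * ((1 + nS) ^ i * ((∑ l ∈ range (i + 1), (|C' l| + |out l| * nL ^ l)) * K' ^ i)) +
          out i * Kl ^ i
        ≤ cd i * ((1 + nS) ^ i * ((∑ l ∈ range (i + 1), (|C' l| + |out l| * nL ^ l)) * K' ^ i)) +
          |out i| * K' ^ i := by
          refine add_le_add le_rfl ?_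
          exact mul_le_mul (le_abs_self _) (pow_le_pow_left₀ hKl0 hlK i) (pow_nonneg hKl0 i)
            (abs_nonneg _)
      _ = ob i * K' ^ i := by simp only [hob]; ring
      _ ≤ (ob i + od + oe) * K' ^ i := mul_le_mul_of_nonneg_right
          (by linarith [hod0, hoe0]) (pow_nonneg hK'0 i)
  · rw [hcard]
    have hδ : ∀ u, colChi cell c t u ≤ (Cχ + 1) * Real.sqrt (K ^ t.D)⁻¹ := fun u =>
      (hr _).2.trans (mul_le_mul_of_nonneg_right (le_add_of_nonneg_right zero_le_one)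
        (Real.sqrt_nonneg _))
    have hs : Real.sqrt ((Cχ + 1) * Real.sqrt (K ^ t.D)⁻¹) ≤
        Real.sqrt (Cχ + 1) * (K ^ (t.D / 4))⁻¹ := by
      rw [Real.sqrt_mul (add_nonneg hCχ0 zero_le_one)]
      exact mul_le_mul_of_nonneg_left (root_root_le hK1 _) (Real.sqrt_nonneg _)
    have hK4 : 0 ≤ (K ^ (t.D / 4))⁻¹ := inv_nonneg.2 (pow_nonneg hKp.le _)
    have hw := hdiff l (|C' 0| * K' * (Real.sqrt (Cχ + 1) * (K ^ (t.D / 4))⁻¹))
      (mul_nonneg (mul_nonneg (abs_nonneg _) hK'0) (mul_nonneg (Real.sqrt_nonneg _) hK4))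
      fun m hm y hy => (hWd _ hδ m (hm.trans hl) (L.symm y)
        (by simpa [hL] using hy)).trans (mul_le_mul
          (mul_le_mul (le_abs_self _) hγK (pow_nonneg hKl0 _) (abs_nonneg _)) hs
          (Real.sqrt_nonneg _) (mul_nonneg (abs_nonneg _) hK'0))
    refine A.normLe_mono (A.normLe_triangle hY's hY.smooth t.smoothX hw (hY.close l hl)) ?_
    calc cd l * ((1 + nS) ^ l * (|C' 0| * K' * (Real.sqrt (Cχ + 1) * (K ^ (t.D / 4))⁻¹))) +
          out 0 * Kl * (K ^ (t.D / 4))⁻¹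
        ≤ (cd 0 + cd 1 + cd 2) * ((1 + nS) ^ 2 * (|C' 0| * K' *
            (Real.sqrt (Cχ + 1) * (K ^ (t.D / 4))⁻¹))) + |out 0| * K' * (K ^ (t.D / 4))⁻¹ := by
          refine add_le_add (mul_le_mul ?_ (mul_le_mul_of_nonneg_right
            (pow_le_pow_right₀ (le_add_of_nonneg_right (norm_nonneg _)) hl)
            (mul_nonneg (mul_nonneg (abs_nonneg _) hK'0) (mul_nonneg (Real.sqrt_nonneg _) hK4)))
            (mul_nonneg (pow_nonneg hnS l) (mul_nonneg (mul_nonneg (abs_nonneg _) hK'0)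
              (mul_nonneg (Real.sqrt_nonneg _) hK4)))
            (add_nonneg (add_nonneg (hcd0 0) (hcd0 1)) (hcd0 2)))
            (mul_le_mul_of_nonneg_right (mul_le_mul (le_abs_self _) hlK hKl0 (abs_nonneg _)) hK4)
          interval_cases l <;> linarith [hcd0 0, hcd0 1, hcd0 2]
      _ = od * K' * (K ^ (t.D / 4))⁻¹ := by simp only [hod]; ring
      _ ≤ (ob 0 + od + oe) * K' * (K ^ (t.D / 4))⁻¹ := mul_le_mul_of_nonneg_right
          (mul_le_mul_of_nonneg_right (by linarith [hob0 0, hoe0]) hK'0) hK4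
  · have hinv : (Kl ^ (B * N + 1))⁻¹ ≤ (K ^ (B * N + 1))⁻¹ :=
      inv_anti₀ (pow_pos hKp _) (pow_le_pow_left₀ hKp.le hKKl _)
    have hi0 : 0 ≤ (K ^ (B * N + 1))⁻¹ := inv_nonneg.2 (pow_nonneg hKp.le _)
    have hkey := share_err hsq (colDom_open c hY.smooth) (colDom_ball c Y) hSΩ hWs hY.smooth hp
      (e := |C' 0| * (K ^ (B * N + 1))⁻¹) (mul_nonneg (abs_nonneg _) hi0) hT1
      (fun u hu => by
        have h := hWe 0 u hu
        rw [norm_iteratedFDeriv_zero, pow_zero, mul_one] at h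
        exact h.trans (mul_le_mul (le_abs_self _) hinv
          (inv_nonneg.2 (pow_nonneg hKl0 _)) (abs_nonneg _))) k z hz
    rw [Finset.sum_cons, add_smul,
      show formAt (A := A) ipL Y' k z - formAt (A := A) ipL t.X k z -
        (share cell c t (A.par k z) • target t k z +
          (∑ c' ∈ s, share cell c' t (A.par k z)) • target t k z) =
        (formAt (A := A) ipL Y' k z - formAt (A := A) ipL Y k z -
          share cell c t (A.par k z) • target t k z) +
        (formAt (A := A) ipL Y k z - formAt (A := A) ipL t.X k z -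
          (∑ c' ∈ s, share cell c' t (A.par k z)) • target t k z) by abel]
    refine (norm_add_le _ _).trans ((add_le_add hkey (hY.form k z hz)).trans ?_)
    calc T1 ^ 2 * (nS ^ 2 * (‖bilL‖ * (|C' 0| * (K ^ (B * N + 1))⁻¹))) +
          out 0 * (K ^ (B * N + 1))⁻¹
        ≤ T1 ^ 2 * (nS ^ 2 * (‖bilL‖ * (|C' 0| * (K ^ (B * N + 1))⁻¹))) +
          |out 0| * (K ^ (B * N + 1))⁻¹ :=
          add_le_add le_rfl (mul_le_mul_of_nonneg_right (le_abs_self _) hi0)
      _ = oe * (K ^ (B * N + 1))⁻¹ := by simp only [hoe]; ring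
      _ ≤ (ob 0 + od + oe) * (K ^ (B * N + 1))⁻¹ :=
          mul_le_mul_of_nonneg_right (by linarith [hob0 0, hod0]) hi0

end Atlas

end Vale.Agent.P205.Iter
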