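import Vale.Agent.P205.Iter.Atlas

/-!
Symmetric two-tensors and induced forms read in the parametrisations of an atlas.
-/

noncomputable section

set_option maxSynthPendingDepth 3

open Set Filter Metric Finset Function
open scoped Topology ContDiff Manifold

namespace Vale.Agent.P205.Iter

section algebra

variable (E : Type) [NormedAddCommGroup E] [NormedSpace ℝ E]

/-- Bilinear forms on the model space. -/
abbrev Bil := E →L[ℝ] E →L[ℝ] ℝ

/-- The symmetric part of a bilinear form. -/
def symL : Bil E →L[ℝ] Bil E :=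
  (1 / 2 : ℝ) • (ContinuousLinearMap.id ℝ (Bil E) +
    (ContinuousLinearMap.flipₗᵢ ℝ E E ℝ).toContinuousLinearEquiv.toContinuousLinearMap)

variable {E} {V : Type} [NormedAddCommGroup V] [NormedSpace ℝ V]

theorem symL_apply (w : Bil E) (u v : E) : symL E w u v = 1 / 2 * (w u v + w v u) := by
  simp [symL]; ring

theorem symL_symm (w : Bil E) (u v : E) : symL E w u v = symL E w v u := by
  simp [symL_apply, add_comm]

theorem symL_of_symm {w : Bil E} (h : ∀ u v, w u v = w v u) : symL E w = w := by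
  ext u v
  rw [symL_apply, h v u]
  ring

theorem norm_symL_le : ‖symL E‖ ≤ 1 := by
  refine ContinuousLinearMap.opNorm_le_bound _ zero_le_one fun w => ?_
  have e : symL E w = (1 / 2 : ℝ) • (w + w.flip) := by ext u v; simp [symL_apply]; ring
  rw [e, norm_smul, Real.norm_of_nonneg (by norm_num : (0 : ℝ) ≤ 1 / 2)]
  have h := norm_add_le w w.flip
  rw [ContinuousLinearMap.opNorm_flip] at h
  linarith

theorem norm_bilinearComp_le (w : V →L[ℝ] V →L[ℝ] ℝ) (D D' : E →L[ℝ] V) :
    ‖w.bilinearComp D D'‖ ≤ ‖w‖ * ‖D‖ * ‖D'‖ := by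
  refine ContinuousLinearMap.opNorm_le_bound₂ _ (by positivity) fun u v => ?_
  rw [ContinuousLinearMap.bilinearComp_apply]
  calc ‖w (D u) (D' v)‖ ≤ ‖w‖ * ‖D u‖ * ‖D' v‖ := w.le_opNorm₂ _ _
    _ ≤ ‖w‖ * (‖D‖ * ‖u‖) * (‖D'‖ * ‖v‖) := mul_le_mul
        (mul_le_mul_of_nonneg_left (D.le_opNorm u) (norm_nonneg _)) (D'.le_opNorm v)
        (norm_nonneg _) (by positivity)
    _ = ‖w‖ * ‖D‖ * ‖D'‖ * ‖u‖ * ‖v‖ := by ring

variable (Bf : V →L[ℝ] V →L[ℝ] ℝ)

/-- The form induced by a differential. -/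
def form (L : E →L[ℝ] V) : Bil E := Bf.bilinearComp L L

/-- The induced form as a bilinear operation on differentials. -/
def formL : (E →L[ℝ] V) →L[ℝ] (E →L[ℝ] V) →L[ℝ] Bil E :=
  ((ContinuousLinearMap.compL ℝ E (V →L[ℝ] ℝ) (E →L[ℝ] ℝ)).bilinearComp
    (ContinuousLinearMap.compL ℝ E V ℝ).flip
    (ContinuousLinearMap.compL ℝ E V (V →L[ℝ] ℝ) Bf)).flip

theorem formL_apply (L L' : E →L[ℝ] V) : formL Bf L L' = Bf.bilinearComp L L' := rfl

theorem form_eq (L : E →L[ℝ] V) : form Bf L = formL Bf L L := rfl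

theorem form_comp (L : E →L[ℝ] V) (D : E →L[ℝ] E) :
    form Bf (L.comp D) = (form Bf L).bilinearComp D D := rfl

theorem norm_form_sub_le (L L' : E →L[ℝ] V) :
    ‖form Bf L - form Bf L'‖ ≤ ‖Bf‖ * (‖L‖ + ‖L'‖) * ‖L - L'‖ := by
  have e : form Bf L - form Bf L' =
      Bf.bilinearComp L (L - L') + Bf.bilinearComp (L - L') L' := by
    ext u v; simp [form]
  rw [e]
  refine (norm_add_le _ _).trans ((add_le_add (norm_bilinearComp_le _ _ _)
    (norm_bilinearComp_le _ _ _)).trans (le_of_eq (by ring)))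

end algebra

variable {E : Type} [NormedAddCommGroup E] [NormedSpace ℝ E]
  {E₀ : Type*} [NormedAddCommGroup E₀] [NormedSpace ℝ E₀]
  {H : Type*} [TopologicalSpace H] {I : ModelWithCorners ℝ E₀ H}
  {M : Type} [TopologicalSpace M] [ChartedSpace H M]
  {V : Type} [NormedAddCommGroup V] [NormedSpace ℝ V]

namespace Atlas

variable (A : Atlas (E := E) (I := I) (M := M))

/-- The change from the parametrisation `k` to the parametrisation `j`. -/
def trans (j k : A.ι) (z : E) : E := A.inv j (A.par k z)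

/-- Where the change of parametrisation is defined. -/
def ov (j k : A.ι) : Set E := ball 0 3 ∩ A.par k ⁻¹' A.src j

theorem isOpen_ov (j k : A.ι) : IsOpen (A.ov j k) :=
  (A.par_smooth k).continuousOn.isOpen_inter_preimage isOpen_ball (A.src_open j)

theorem trans_smooth (j k : A.ι) : ContDiffOn ℝ ∞ (A.trans j k) (A.ov j k) :=
  ((A.inv_smooth j).comp ((A.par_smooth k).mono inter_subset_left) fun _ hy => hy.2).contDiffOn

theorem trans_mem {j k : A.ι} {z : E} (hz : z ∈ A.ov j k) : A.trans j k z ∈ ball (0 : E) 3 :=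
  A.inv_mem j hz.2

/-- A two-tensor given by its components in the parametrisations. -/
structure Tensor where
  /-- The components. -/
  comp : A.ι → E → Bil E
  smooth : ∀ j, ContDiffOn ℝ ∞ (comp j) (ball 0 3)
  symm : ∀ j, ∀ z ∈ ball (0 : E) 3, ∀ u v, comp j z u v = comp j z v u
  compat : ∀ j k, ∀ z ∈ A.ov j k, comp k z =
    (comp j (A.trans j k z)).bilinearComp (fderiv ℝ (A.trans j k) z) (fderiv ℝ (A.trans j k) z)

variable {A} (Bf : V →L[ℝ] V →L[ℝ] ℝ) {X : M → V}

/-- The induced form of a map, in the parametrisation `j`. -/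
def formAt (X : M → V) (j : A.ι) (z : E) : Bil E := form Bf (fderiv ℝ (fun y => X (A.par j y)) z)

theorem chart_smooth (hX : ContMDiff I 𝓘(ℝ, V) ∞ X) (j : A.ι) :
    ContDiffOn ℝ ∞ (fun y => X (A.par j y)) (ball 0 3) :=
  (hX.comp_contMDiffOn (A.par_smooth j)).contDiffOn

theorem formAt_smooth (hX : ContMDiff I 𝓘(ℝ, V) ∞ X) (j : A.ι) :
    ContDiffOn ℝ ∞ (formAt Bf X j) (ball 0 3) := by
  have hd : ContDiffOn ℝ ∞ (fderiv ℝ fun y => X (A.par j y)) (ball 0 3) :=
    (chart_smooth hX j).fderiv_of_isOpen isOpen_ball (by simp)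
  exact ((formL Bf).contDiff.comp_contDiffOn hd).clm_apply hd

theorem formAt_compat (hX : ContMDiff I 𝓘(ℝ, V) ∞ X) {j k : A.ι} {z : E} (hz : z ∈ A.ov j k) :
    formAt Bf X k z = (formAt Bf X j (A.trans j k z)).bilinearComp (fderiv ℝ (A.trans j k) z)
      (fderiv ℝ (A.trans j k) z) := by
  have he : (fun y => X (A.par k y)) =ᶠ[𝓝 z] (fun y => X (A.par j y)) ∘ A.trans j k := by
    filter_upwards [(A.isOpen_ov j k).mem_nhds hz] with y hy
    simp only [comp_apply, trans, A.par_inv j _ hy.2]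
  rw [formAt, he.fderiv_eq, fderiv_comp z
    (((chart_smooth hX j).differentiableOn (by simp)).differentiableAt
      (isOpen_ball.mem_nhds (A.trans_mem hz)))
    (((A.trans_smooth j k).differentiableOn (by simp)).differentiableAt
      ((A.isOpen_ov j k).mem_nhds hz)), form_comp]
  rfl

variable (A)

open Classical in
/-- The weighted piece of a family on the ball. -/
def cut (j : A.ι) (R : E → Bil E) (z : E) : Bil E :=
  if z ∈ ball (0 : E) 3 then A.weight j (A.par j z) • R z else 0

open Classical in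
/-- The tensor assembled from pieces given in the parametrisations. -/
def push (e : A.ι → E → Bil E) (k : A.ι) (z : E) : Bil E :=
  ∑ j, if A.par k z ∈ A.src j then
    (e j (A.trans j k z)).bilinearComp (fderiv ℝ (A.trans j k) z) (fderiv ℝ (A.trans j k) z)
  else 0

theorem push_sub (e e' : A.ι → E → Bil E) (k : A.ι) (z : E) :
    A.push (fun j y => e j y - e' j y) k z = A.push e k z - A.push e' k z := by
  simp only [push]
  rw [← Finset.sum_sub_distrib]
  refine Finset.sum_congr rfl fun j _ => ?_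
  split_ifs
  · ext u v; simp
  · simp

theorem push_smul (c : ℝ) (e : A.ι → E → Bil E) (k : A.ι) (z : E) :
    A.push (fun j y => c • e j y) k z = c • A.push e k z := by
  simp only [push, Finset.smul_sum]
  refine Finset.sum_congr rfl fun j _ => ?_
  split_ifs
  · ext u v; simp
  · simp

/-- Cutting a compatible family and assembling gives the family back. -/
theorem push_cut {T : A.ι → E → Bil E} (hT : ∀ j k, ∀ z ∈ A.ov j k, T k z =
      (T j (A.trans j k z)).bilinearComp (fderiv ℝ (A.trans j k) z) (fderiv ℝ (A.trans j k) z))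
    (k : A.ι) {z : E} (hz : z ∈ ball (0 : E) 3) :
    A.push (fun j => A.cut j (T j)) k z = T k z := by
  conv_rhs => rw [← one_smul ℝ (T k z), ← A.weight_sum (A.par k z), Finset.sum_smul]
  refine Finset.sum_congr rfl fun j _ => ?_
  split_ifs with h
  · have ho : z ∈ A.ov j k := ⟨hz, h⟩
    have he : A.cut j (T j) (A.trans j k z) = A.weight j (A.par k z) • T j (A.trans j k z) := by
      rw [cut, if_pos (A.trans_mem ho), trans, A.par_inv j _ h]
    simp only []
    rw [he, hT j k z ho]
    ext u v; simp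
  · rw [image_eq_zero_of_notMem_tsupport fun h0 => h (A.weight_supp j h0).1, zero_smul]

theorem cut_supp (j : A.ι) (R : E → Bil E) : support (A.cut j R) ⊆ closedBall 0 1 := by
  intro z hz
  simp only [mem_support, cut] at hz
  split_ifs at hz with h
  · have h1 : A.weight j (A.par j z) ≠ 0 := fun h0 => hz (by rw [h0, zero_smul])
    have h2 := (A.weight_supp j (subset_tsupport _ h1)).2
    rw [Set.mem_preimage, A.inv_par j z h] at h2
    exact ball_subset_closedBall h2
  · exact absurd rfl hz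

theorem cut_smooth (j : A.ι) {R : E → Bil E} (hR : ContDiffOn ℝ ∞ R (ball 0 3)) :
    ContDiff ℝ ∞ (A.cut j R) := by
  refine contDiff_iff_contDiffAt.2 fun z => ?_
  by_cases hz : z ∈ closedBall (0 : E) 1
  · have h3 : z ∈ ball (0 : E) 3 := closedBall_subset_ball (by norm_num) hz
    have h := (((A.weight_smooth j).comp_contMDiffOn (A.par_smooth j)).contDiffOn.smul
      hR).contDiffAt (isOpen_ball.mem_nhds h3)
    exact h.congr_of_eventuallyEq
      (eventually_of_mem (isOpen_ball.mem_nhds h3) fun y hy => if_pos hy)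
  · refine (contDiffAt_const (c := (0 : Bil E))).congr_of_eventuallyEq ?_
    exact eventually_of_mem (isClosed_closedBall.isOpen_compl.mem_nhds hz) fun y hy =>
      notMem_support.1 fun h => hy (A.cut_supp j R h)

variable [FiniteDimensional ℝ E]

/-- Cutting costs a constant in each order. -/
theorem cut_bound (i : ℕ) : ∃ c : ℝ, 0 ≤ c ∧ ∀ (j : A.ι) (R : E → Bil E),
    ContDiffOn ℝ ∞ R (ball 0 3) → ∀ C : ℝ,
    (∀ l ≤ i, ∀ z ∈ ball (0 : E) 2, ‖iteratedFDeriv ℝ l R z‖ ≤ C) →
      ∀ z, ‖iteratedFDeriv ℝ i (A.cut j R) z‖ ≤ c * C := by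
  have h23 : ball (0 : E) 2 ⊆ ball 0 3 := ball_subset_ball (by norm_num)
  have hw : ∀ j, ∀ l : ℕ, ∃ B, ∀ z ∈ closedBall (0 : E) 1,
      ‖iteratedFDerivWithin ℝ l (fun y => A.weight j (A.par j y)) (ball 0 2) z‖ ≤ B := fun j l =>
    (isCompact_closedBall (0 : E) 1).exists_bound_of_continuousOn
      (((((A.weight_smooth j).comp_contMDiffOn (A.par_smooth j)).contDiffOn.mono
        h23).continuousOn_iteratedFDerivWithin
        (by exact_mod_cast le_top) isOpen_ball.uniqueDiffOn).mono (closedBall_subset_ball (by norm_num)))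
  choose B hB using hw
  refine ⟨∑ j, ∑ l ∈ range (i + 1), (i.choose l : ℝ) * |B j l|,
    Finset.sum_nonneg fun j _ => Finset.sum_nonneg fun l _ => by positivity,
    fun j R hR C hC z => ?_⟩
  have hC0 : 0 ≤ C := (norm_nonneg _).trans (hC 0 (Nat.zero_le i) 0 (by simp))
  by_cases hz : z ∈ closedBall (0 : E) 1
  · have hz2 : z ∈ ball (0 : E) 2 := closedBall_subset_ball (by norm_num) hz
    have hev : A.cut j R =ᶠ[𝓝 z] fun y => A.weight j (A.par j y) • R y :=
      eventually_of_mem (isOpen_ball.mem_nhds hz2) fun y hy => if_pos (h23 hy)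
    rw [(hev.iteratedFDeriv ℝ i).eq_of_nhds, ← iteratedFDerivWithin_of_isOpen i isOpen_ball hz2]
    refine (norm_iteratedFDerivWithin_smul_le
      (((A.weight_smooth j).comp_contMDiffOn (A.par_smooth j)).contDiffOn.mono h23)
      (hR.mono h23) isOpen_ball.uniqueDiffOn hz2 (n := i) (by exact_mod_cast le_top)).trans ?_
    refine le_trans ?_ (mul_le_mul_of_nonneg_right (single_le_sum (fun m _ => Finset.sum_nonneg
      fun l _ => by positivity) (Finset.mem_univ j)) hC0)
    rw [Finset.sum_mul]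
    refine Finset.sum_le_sum fun l _ => ?_
    refine mul_le_mul (mul_le_mul_of_nonneg_left ((hB j l z hz).trans (le_abs_self _))
      (Nat.cast_nonneg _)) ?_ (norm_nonneg _) (by positivity)
    rw [iteratedFDerivWithin_of_isOpen _ isOpen_ball hz2]
    exact hC (i - l) (Nat.sub_le i l) z hz2
  · have hev : A.cut j R =ᶠ[𝓝 z] fun _ => (0 : Bil E) :=
      eventually_of_mem (isClosed_closedBall.isOpen_compl.mem_nhds hz) fun y hy =>
        notMem_support.1 fun h => hy (A.cut_supp j R h)
    rw [(hev.iteratedFDeriv ℝ i).eq_of_nhds, iteratedFDeriv_fun_zero, Pi.zero_apply, norm_zero]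
    positivity

/-- Assembling costs a constant in the uniform norm. -/
theorem push_bound [T2Space M] : ∃ c : ℝ, 0 ≤ c ∧ ∀ e : A.ι → E → Bil E,
    (∀ j, support (e j) ⊆ closedBall 0 2) → ∀ C : ℝ, 0 ≤ C → (∀ j y, ‖e j y‖ ≤ C) →
      ∀ k, ∀ z ∈ ball (0 : E) 2, ‖A.push e k z‖ ≤ c * C := by
  have hK : ∀ j k, ∃ B, ∀ y ∈ closedBall (0 : E) 2 ∩ A.par k ⁻¹' (A.par j '' closedBall 0 2),
      ‖fderiv ℝ (A.trans j k) y‖ ≤ B := by
    intro j k
    have hP : IsClosed (A.par j '' closedBall 0 2) :=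
      ((isCompact_closedBall 0 2).image_of_continuousOn ((A.par_smooth j).continuousOn.mono
        (closedBall_subset_ball (by norm_num)))).isClosed
    refine ((isCompact_closedBall (0 : E) 2).of_isClosed_subset
      (((A.par_smooth k).continuousOn.mono
        (closedBall_subset_ball (by norm_num))).preimage_isClosed_of_isClosed
          isClosed_closedBall hP) inter_subset_left).exists_bound_of_continuousOn ?_
    refine ((A.trans_smooth j k).continuousOn_fderiv_of_isOpen (A.isOpen_ov j k) (by simp)).mono ?_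
    rintro y ⟨hy, w, hw, hwy⟩
    refine ⟨closedBall_subset_ball (by norm_num) hy, ?_⟩
    rw [Set.mem_preimage, ← hwy]
    exact A.par_mem j (closedBall_subset_ball (by norm_num) hw)
  choose B hB using hK
  refine ⟨∑ k, ∑ j, |B j k| * |B j k|,
    Finset.sum_nonneg fun k _ => Finset.sum_nonneg fun j _ => by positivity,
    fun e hs C hC0 hC k z hz => ?_⟩
  refine (norm_sum_le _ _).trans (le_trans ?_ (mul_le_mul_of_nonneg_right (single_le_sum
    (f := fun k => ∑ j, |B j k| * |B j k|)
    (fun m _ => Finset.sum_nonneg fun j _ => by positivity) (Finset.mem_univ k)) hC0))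
  rw [Finset.sum_mul]
  refine Finset.sum_le_sum fun j _ => ?_
  split_ifs with h
  · by_cases h0 : e j (A.trans j k z) = 0
    · rw [h0, ContinuousLinearMap.bilinearComp_zero, norm_zero]; positivity
    · have hy : z ∈ closedBall (0 : E) 2 ∩ A.par k ⁻¹' (A.par j '' closedBall 0 2) :=
        ⟨ball_subset_closedBall hz, _, hs j h0, A.par_inv j _ h⟩
      have hb := (hB j k z hy).trans (le_abs_self _)
      calc _ ≤ ‖e j (A.trans j k z)‖ * ‖fderiv ℝ (A.trans j k) z‖ * ‖fderiv ℝ (A.trans j k) z‖ :=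
            norm_bilinearComp_le _ _ _
        _ ≤ C * |B j k| * |B j k| := mul_le_mul (mul_le_mul (hC _ _) hb (norm_nonneg _) hC0) hb
            (norm_nonneg _) (by positivity)
        _ = _ := by ring
  · rw [norm_zero]; positivity

/-- A smooth tensor is bounded in every order. -/
theorem tensor_bound (g : A.Tensor) (i : ℕ) : ∃ c : ℝ, 0 ≤ c ∧ ∀ (j : A.ι), ∀ z ∈ ball (0 : E) 2,
    ‖iteratedFDeriv ℝ i (g.comp j) z‖ ≤ c := by
  have hb : ∀ j, ∃ B, ∀ z ∈ closedBall (0 : E) 2,
      ‖iteratedFDerivWithin ℝ i (g.comp j) (ball 0 3) z‖ ≤ B := fun j =>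
    (isCompact_closedBall (0 : E) 2).exists_bound_of_continuousOn
      (((g.smooth j).continuousOn_iteratedFDerivWithin (by exact_mod_cast le_top)
        isOpen_ball.uniqueDiffOn).mono (closedBall_subset_ball (by norm_num)))
  choose B hB using hb
  refine ⟨∑ j, |B j|, Finset.sum_nonneg fun j _ => abs_nonneg _, fun j z hz => ?_⟩
  rw [← iteratedFDerivWithin_of_isOpen i isOpen_ball (ball_subset_ball (by norm_num : (2 : ℝ) ≤ 3) hz)]
  exact ((hB j z (ball_subset_closedBall hz)).trans (le_abs_self _)).trans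
    (single_le_sum (fun m _ => abs_nonneg (B m)) (Finset.mem_univ j))

omit [FiniteDimensional ℝ E] in
/-- The induced form costs the square of the bounds of one order more. -/
theorem formAt_bound (hX : ContMDiff I 𝓘(ℝ, V) ∞ X) {i : ℕ} {N : ℝ}
    (hN : ∀ l ≤ i + 1, A.NormLe l X N) (j : A.ι) {z : E} (hz : z ∈ ball (0 : E) 2) :
    ‖iteratedFDeriv ℝ i (formAt Bf X j) z‖ ≤
      ‖formL (E := E) Bf‖ * 2 ^ i * N ^ 2 := by
  have hz3 : z ∈ ball (0 : E) 3 := ball_subset_ball (by norm_num) hz
  have hd : ContDiffOn ℝ ∞ (fderiv ℝ fun y => X (A.par j y)) (ball 0 3) :=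
    (chart_smooth hX j).fderiv_of_isOpen isOpen_ball (by simp)
  rw [← iteratedFDerivWithin_of_isOpen i isOpen_ball hz3, show formAt Bf X j =
    fun y => formL Bf (fderiv ℝ (fun y => X (A.par j y)) y)
      (fderiv ℝ (fun y => X (A.par j y)) y) from rfl]
  refine ((formL Bf).norm_iteratedFDerivWithin_le_of_bilinear hd hd isOpen_ball.uniqueDiffOn hz3
    (n := i) (by exact_mod_cast le_top)).trans ?_
  rw [mul_assoc]
  refine mul_le_mul_of_nonneg_left ?_ (norm_nonneg (formL Bf))
  have h1 : ∀ l ≤ i, ‖iteratedFDerivWithin ℝ l (fderiv ℝ fun y => X (A.par j y)) (ball 0 3) z‖ ≤ N :=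
    fun l hl => by
      rw [iteratedFDerivWithin_of_isOpen l isOpen_ball hz3, norm_iteratedFDeriv_fderiv]
      exact hN (l + 1) (by omega) j z hz
  have hN0 : 0 ≤ N := (norm_nonneg _).trans (h1 0 (Nat.zero_le i))
  calc _ ≤ ∑ l ∈ range (i + 1), (i.choose l : ℝ) * N * N := Finset.sum_le_sum fun l hl =>
        mul_le_mul (mul_le_mul_of_nonneg_left (h1 l (by simp at hl; omega)) (Nat.cast_nonneg _))
          (h1 (i - l) (Nat.sub_le i l)) (norm_nonneg _) (by positivity)
    _ = 2 ^ i * N ^ 2 := by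
        rw [← Finset.sum_mul, ← Finset.sum_mul, ← Nat.cast_sum, Nat.sum_range_choose]
        push_cast; ring

end Atlas

end Vale.Agent.P205.Iter
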