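import Vale.Agent.P205.Legal.Gauss
import Vale.Agent.P205.Wave.CostInt

/-!
Second jets of maps into four variables, the polynomials that measure immersion and bending in
three fixed directions, and their behaviour under linear changes of the chart.
-/

noncomputable section

set_option maxSynthPendingDepth 3

open Set Finset Metric
open scoped ContDiff Topology

namespace Vale.Agent.P205.Iter

open Wave (V4 ip D gram2 Scale Cost)
open Legal (gram3 perp2_sq perp2_basis D_comb D2_comb coord_pt)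

/-- The three directions in which the bending is tested. -/
def dir3 : Fin 3 → R2 := ![pt 1 0, pt 0 1, pt 1 1]

/-- Second jets: the two first derivatives and the second derivatives in the three directions. -/
abbrev Jet := Fin 5 → V4

/-- The jet of a map. -/
def jet (f : R2 → V4) (z : R2) : Jet :=
  ![D (pt 1 0) f z, D (pt 0 1) f z, D (dir3 0) (D (dir3 0) f) z, D (dir3 1) (D (dir3 1) f) z,
    D (dir3 2) (D (dir3 2) f) z]

/-- The area of a jet. -/
def areaP (J : Jet) : ℝ := gram2 (J 0) (J 1)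

/-- The bending of a jet in one of the three directions, times the area. -/
def bendP (θ : Fin 3) (J : Jet) : ℝ := gram3 (J 0) (J 1) (![J 2, J 3, J 4] θ)

/-- The total bending, times the area. -/
def bendS (J : Jet) : ℝ := ∑ θ, bendP θ J

/-- Positive where a direction has more than a sixth of the total bending. -/
def testP (θ : Fin 3) (J : Jet) : ℝ := 6 * bendP θ J - bendS J

theorem norm_dir3 (θ : Fin 3) : ‖dir3 θ‖ ^ 2 ≤ 2 := by
  fin_cases θ <;> (simp [dir3, pt, EuclideanSpace.norm_sq_eq, Fin.sum_univ_two]; try norm_num)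

theorem areaP_smul (c : ℝ) (J : Jet) : areaP (c • J) = c ^ 4 * areaP J := by
  simp [areaP, gram2]; ring

theorem bendP_smul (θ : Fin 3) (c : ℝ) (J : Jet) : bendP θ (c • J) = c ^ 6 * bendP θ J := by
  fin_cases θ <;> simp [bendP, gram3, gram2] <;> ring

theorem bendS_smul (c : ℝ) (J : Jet) : bendS (c • J) = c ^ 6 * bendS J := by
  simp [bendS, bendP_smul, Finset.mul_sum]

theorem testP_smul (θ : Fin 3) (c : ℝ) (J : Jet) : testP θ (c • J) = c ^ 6 * testP θ J := by
  simp [testP, bendP_smul, bendS_smul]; ring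

theorem areaP_smooth : ContDiff ℝ ∞ areaP := by
  unfold areaP gram2 ip
  fun_prop

theorem bendP_smooth (θ : Fin 3) : ContDiff ℝ ∞ (bendP θ) := by
  show ContDiff ℝ ∞ fun J : Jet => gram3 (J 0) (J 1) (![J 2, J 3, J 4] θ)
  fin_cases θ <;> (unfold gram3 gram2 ip; simp; fun_prop)

theorem bendS_smooth : ContDiff ℝ ∞ bendS := by
  unfold bendS
  exact ContDiff.sum fun θ _ => bendP_smooth θ

theorem testP_smooth (θ : Fin 3) : ContDiff ℝ ∞ (testP θ) :=
  (contDiff_const.mul (bendP_smooth θ)).sub bendS_smooth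

/-- Homogeneous smooth functions are Lipschitz on balls with the expected constant. -/
theorem homog_lip {F : Jet → ℝ} (hF : ContDiff ℝ ∞ F) (d : ℕ)
    (hh : ∀ (c : ℝ) (J : Jet), F (c • J) = c ^ (d + 1) * F J) :
    ∃ L : ℝ, 0 ≤ L ∧ ∀ B : ℝ, 0 < B → ∀ J J' : Jet, ‖J‖ ≤ B → ‖J'‖ ≤ B →
      |F J - F J'| ≤ L * B ^ d * ‖J - J'‖ ∧ |F J| ≤ L * B ^ (d + 1) := by
  have hc : ContDiff ℝ 1 F := hF.of_le (by simp)
  obtain ⟨C, hC⟩ := (isCompact_closedBall (0 : Jet) 1).exists_bound_of_continuousOn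
    (hF.continuous_fderiv (by simp)).continuousOn
  obtain ⟨C', hC'⟩ := (isCompact_closedBall (0 : Jet) 1).exists_bound_of_continuousOn
    hF.continuous.continuousOn
  refine ⟨|C| + |C'|, by positivity, fun B hB J J' hJ hJ' => ?_⟩
  have key : ∀ w : Jet, ‖w‖ ≤ B → B⁻¹ • w ∈ closedBall (0 : Jet) 1 ∧
      F w = B ^ (d + 1) * F (B⁻¹ • w) := fun w hw => by
    refine ⟨?_, ?_⟩
    · rw [mem_closedBall_zero_iff, norm_smul, Real.norm_of_nonneg (inv_nonneg.2 hB.le),
        inv_mul_le_iff₀ hB, mul_one]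
      exact hw
    · rw [← hh, smul_inv_smul₀ hB.ne']
  obtain ⟨m, e⟩ := key J hJ
  obtain ⟨m', e'⟩ := key J' hJ'
  have hpow : 0 ≤ B ^ (d + 1) := pow_nonneg hB.le _
  constructor
  · have h1 : ‖F (B⁻¹ • J) - F (B⁻¹ • J')‖ ≤ (|C| + |C'|) * ‖B⁻¹ • J - B⁻¹ • J'‖ :=
      (convex_closedBall (0 : Jet) 1).norm_image_sub_le_of_norm_fderiv_le
        (fun w _ => (hc.differentiable (by simp)).differentiableAt)
        (fun w hw => (hC w hw).trans (by linarith [le_abs_self C, abs_nonneg C'])) m' m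
    rw [Real.norm_eq_abs, ← smul_sub, norm_smul, Real.norm_of_nonneg (inv_nonneg.2 hB.le)] at h1
    rw [e, e', ← mul_sub, abs_mul, abs_of_nonneg hpow]
    refine (mul_le_mul_of_nonneg_left h1 hpow).trans (le_of_eq ?_)
    rw [pow_succ]; field_simp
  · have h1 : |F (B⁻¹ • J)| ≤ |C| + |C'| :=
      (hC' _ m).trans (by linarith [le_abs_self C', abs_nonneg C])
    rw [e, abs_mul, abs_of_nonneg hpow, mul_comm]
    exact mul_le_mul_of_nonneg_right h1 hpow

/-- The jet is bounded by the first two derivatives. -/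
theorem norm_jet_le {f : R2 → V4} {z : R2} (hf : ContDiffAt ℝ 2 f z) {C : ℝ}
    (h1 : ‖iteratedFDeriv ℝ 1 f z‖ ≤ C) (h2 : ‖iteratedFDeriv ℝ 2 f z‖ ≤ C) :
    ‖jet f z‖ ≤ 2 * C := by
  have hC : 0 ≤ C := (norm_nonneg _).trans h1
  rw [norm_iteratedFDeriv_one] at h1
  have h2' : ‖fderiv ℝ (fderiv ℝ f) z‖ ≤ C := by
    rwa [← norm_iteratedFDeriv_one, norm_iteratedFDeriv_fderiv]
  have hd : DifferentiableAt ℝ (fderiv ℝ f) z :=
    (hf.fderiv_right (m := 1) (by norm_num)).differentiableAt (by norm_num)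
  have e1 : ∀ a : R2, ‖a‖ ≤ 1 → ‖D a f z‖ ≤ 2 * C := fun a ha =>
    ((fderiv ℝ f z).le_opNorm a).trans ((mul_le_mul h1 ha (norm_nonneg a) hC).trans (by linarith))
  have e2 : ∀ θ, ‖D (dir3 θ) (D (dir3 θ) f) z‖ ≤ 2 * C := fun θ => by
    have e : D (dir3 θ) (D (dir3 θ) f) z = fderiv ℝ (fderiv ℝ f) z (dir3 θ) (dir3 θ) := by
      show fderiv ℝ (fun y => fderiv ℝ f y (dir3 θ)) z (dir3 θ) = _
      rw [fderiv_clm_apply hd (differentiableAt_const _)]
      simp
    rw [e]
    refine ((fderiv ℝ (fderiv ℝ f) z).le_opNorm₂ _ _).trans ?_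
    calc ‖fderiv ℝ (fderiv ℝ f) z‖ * ‖dir3 θ‖ * ‖dir3 θ‖ ≤ C * ‖dir3 θ‖ * ‖dir3 θ‖ := by gcongr
      _ = C * ‖dir3 θ‖ ^ 2 := by ring
      _ ≤ C * 2 := mul_le_mul_of_nonneg_left (norm_dir3 θ) hC
      _ = 2 * C := by ring
  refine (pi_norm_le_iff_of_nonneg (by linarith)).2 fun i => ?_
  fin_cases i
  · exact e1 _ (by simp [pt, EuclideanSpace.norm_eq, Fin.sum_univ_two])
  · exact e1 _ (by simp [pt, EuclideanSpace.norm_eq, Fin.sum_univ_two])
  · exact e2 0
  · exact e2 1
  · exact e2 2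

/-- Jets are linear. -/
theorem jet_sub {f g : R2 → V4} {z : R2} (hf : ContDiffAt ℝ 2 f z) (hg : ContDiffAt ℝ 2 g z) :
    jet (fun y => f y - g y) z = jet f z - jet g z := by
  have h1 : ∀ a : R2, D a (fun y => f y - g y) =ᶠ[𝓝 z] fun y => D a f y - D a g y := fun a => by
    filter_upwards [hf.eventually (by norm_num), hg.eventually (by norm_num)] with y hy hy'
    simp [D, fderiv_fun_sub (hy.differentiableAt (by norm_num)) (hy'.differentiableAt (by norm_num))]
  have hdd : ∀ (u : R2 → V4), ContDiffAt ℝ 2 u z → ∀ a, DifferentiableAt ℝ (D a u) z :=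
    fun u hu a => ((hu.fderiv_right (m := 1) (by norm_num)).differentiableAt (by norm_num)).clm_apply
      (differentiableAt_const a)
  have h2 : ∀ a : R2, D a (D a fun y => f y - g y) z = D a (D a f) z - D a (D a g) z := fun a => by
    rw [Legal.D_congr (h1 a) a]
    show fderiv ℝ (fun y => D a f y - D a g y) z a = _
    rw [fderiv_fun_sub (hdd f hf a) (hdd g hg a)]
    rfl
  funext i
  fin_cases i
  · exact (h1 (pt 1 0)).eq_of_nhds
  · exact (h1 (pt 0 1)).eq_of_nhds
  · exact h2 (dir3 0)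
  · exact h2 (dir3 1)
  · exact h2 (dir3 2)

theorem jet_eq_sum (f : R2 → V4) (z : R2) :
    jet f z = ContinuousLinearMap.single ℝ (fun _ : Fin 5 => V4) 0 (D (pt 1 0) f z) +
      ContinuousLinearMap.single ℝ (fun _ : Fin 5 => V4) 1 (D (pt 0 1) f z) +
      ContinuousLinearMap.single ℝ (fun _ : Fin 5 => V4) 2 (D (dir3 0) (D (dir3 0) f) z) +
      ContinuousLinearMap.single ℝ (fun _ : Fin 5 => V4) 3 (D (dir3 1) (D (dir3 1) f) z) +
      ContinuousLinearMap.single ℝ (fun _ : Fin 5 => V4) 4 (D (dir3 2) (D (dir3 2) f) z) := by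
  funext i
  fin_cases i <;> simp [jet]

/-- The jets of a family of controlled cost. -/
theorem cost_jet {ι : Type} {σ : Scale ι R2} {W : ι → ℝ} {f : ι → R2 → V4}
    (hf : Cost σ (fun t _ => W t) f) :
    Cost σ (fun t _ => W t * σ.B t ^ 2) fun t z => jet (f t) z := by
  have hW : ∀ t, ∀ x ∈ σ.S t, 0 ≤ W t := hf.nonneg
  have hB : ∀ t, 0 ≤ σ.B t := fun t => zero_le_one.trans (σ.one_le t)
  have h1 : ∀ a, Cost σ (fun t _ => W t * σ.B t ^ 2) fun t z => D a (f t) z := fun a =>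
    (hf.deriv_dir a).mono zero_le_one
      (fun t x hx => mul_nonneg (hW t x hx) (pow_nonneg (hB t) 2)) fun t x hx => by
        rw [one_mul]
        exact mul_le_mul_of_nonneg_left (le_self_pow₀ (σ.one_le t) two_ne_zero) (hW t x hx)
  have h2 : ∀ a, Cost σ (fun t _ => W t * σ.B t ^ 2) fun t z => D a (D a (f t)) z := fun a =>
    ((hf.deriv_dir a).deriv_dir a).mono zero_le_one
      (fun t x hx => mul_nonneg (hW t x hx) (pow_nonneg (hB t) 2)) fun t x hx => le_of_eq (by ring)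
  let S : Fin 5 → V4 →L[ℝ] Jet := fun i => ContinuousLinearMap.single ℝ (fun _ : Fin 5 => V4) i
  exact ((((((h1 (pt 1 0)).clm (S 0)).add ((h1 (pt 0 1)).clm (S 1))).add
    ((h2 (dir3 0)).clm (S 2))).add ((h2 (dir3 1)).clm (S 3))).add
    ((h2 (dir3 2)).clm (S 4))).congr fun t x _ => jet_eq_sum (f t) x

/-- A homogeneous function of a family of controlled cost. -/
theorem homog_cost {ι : Type} {σ : Scale ι R2} {W : ι → ℝ} (hW : ∀ t, 0 < W t)
    {f : ι → R2 → Jet} (hf : Cost σ (fun t _ => W t) f) {F : Jet → ℝ} (hF : ContDiff ℝ ∞ F)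
    {d : ℕ} (hh : ∀ (c : ℝ) (J : Jet), F (c • J) = c ^ d * F J) :
    Cost σ (fun t _ => W t ^ d) fun t x => F (f t x) := by
  obtain ⟨C, hC0, hC⟩ := hf.bound 0
  set c : ι → ℝ := fun t => ((C + 1) * W t)⁻¹
  have hc0 : ∀ t, 0 < c t := fun t => inv_pos.2 (mul_pos (by linarith) (hW t))
  have hg : Cost σ (fun _ _ => 1) fun t x => c t • f t x := by
    refine ⟨fun t => (hf.smooth t).const_smul (c t), fun _ _ _ => zero_le_one, fun i => ?_⟩
    obtain ⟨D, hD0, hD⟩ := hf.bound i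
    refine ⟨D * (C + 1)⁻¹, by positivity, fun t x hx => ?_⟩
    rw [show (fun x => c t • f t x) = c t • f t from rfl,
      iteratedFDeriv_const_smul_apply (hf.contDiffAt hx i), norm_smul,
      Real.norm_of_nonneg (hc0 t).le, mul_one]
    refine (mul_le_mul_of_nonneg_left (hD t x hx) (hc0 t).le).trans (le_of_eq ?_)
    have := (hW t).ne'
    simp only [c]; field_simp
  have hball : ∀ t, ∀ x ∈ σ.S t, c t • f t x ∈ closedBall (0 : Jet) 1 := fun t x hx => by
    have h := hC t x hx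
    rw [norm_iteratedFDeriv_zero, pow_zero, mul_one] at h
    rw [mem_closedBall_zero_iff, norm_smul, Real.norm_of_nonneg (hc0 t).le]
    refine (mul_le_mul_of_nonneg_left h (hc0 t).le).trans ?_
    simp only [c]
    rw [inv_mul_le_iff₀ (mul_pos (by linarith) (hW t))]
    nlinarith [hW t]
  have h := hg.comp_smooth isOpen_univ (isCompact_closedBall (0 : Jet) 1) (subset_univ _)
    hF.contDiffOn hball
  refine ⟨fun t => hF.comp_contDiffOn (hf.smooth t), fun t _ _ => pow_nonneg (hW t).le d,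
    fun i => ?_⟩
  obtain ⟨D, hD0, hD⟩ := h.bound i
  refine ⟨(C + 1) ^ d * D, by positivity, fun t x hx => ?_⟩
  have e : (fun x => F (f t x)) = ((C + 1) * W t) ^ d • fun x => F (c t • f t x) := by
    funext y
    have := (hW t).ne'
    simp only [Pi.smul_apply, smul_eq_mul, hh, c, inv_pow]
    field_simp
  rw [e, iteratedFDeriv_const_smul_apply (h.contDiffAt hx i), norm_smul,
    Real.norm_of_nonneg (pow_nonneg (mul_nonneg (by linarith) (hW t).le) d)]
  refine (mul_le_mul_of_nonneg_left (hD t x hx)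
    (pow_nonneg (mul_nonneg (by linarith) (hW t).le) d)).trans (le_of_eq ?_)
  rw [mul_pow]; ring

/-- The determinant of a linear change of the chart. -/
def det2 (L : R2 ≃L[ℝ] R2) : ℝ := L (pt 1 0) 0 * L (pt 0 1) 1 - L (pt 1 0) 1 * L (pt 0 1) 0

theorem det2_ne (L : R2 ≃L[ℝ] R2) : det2 L ≠ 0 := by
  intro h
  have key : ∀ i : Fin 2, L (pt (L (pt 0 1) i) (-L (pt 1 0) i)) = 0 := fun i => by
    rw [coord_pt (pt (L (pt 0 1) i) (-L (pt 1 0) i)), map_add, map_smul, map_smul]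
    simp only [det2] at h
    ext j
    fin_cases i <;> fin_cases j <;> simp [pt] at h ⊢ <;> linarith
  have k0 : ∀ i : Fin 2, L (pt 0 1) i = 0 := fun i => by
    simpa [pt] using congrArg (fun v : R2 => v 0) ((L.map_eq_zero_iff).1 (key i))
  have h0 : L (pt 0 1) = 0 := PiLp.ext fun i => by rw [k0 i]; rfl
  simpa [pt] using congrArg (fun v : R2 => v 1) ((L.map_eq_zero_iff).1 h0)

/-- Immersion and bending in a linear chart whose second axis is one of the three directions. -/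
theorem linear_chart {Z : R2 → V4} (L : R2 ≃L[ℝ] R2) {θ : Fin 3} {s : ℝ}
    (hs : L (pt 0 1) = s • dir3 θ) {u : R2} (hZ : ContDiffAt ℝ 2 Z (L u))
    (hA : areaP (jet Z (L u)) ≠ 0) :
    area (fun y => Z (L y)) u = det2 L ^ 2 * areaP (jet Z (L u)) ∧
      bendSq (fun y => Z (L y)) u * areaP (jet Z (L u)) = s ^ 4 * bendP θ (jet Z (L u)) := by
  have hD : ∀ a, D a (fun y => Z (L y)) =ᶠ[𝓝 u] fun y => D (L a) Z (L y) := fun a => by
    filter_upwards [L.continuous.continuousAt.eventually (hZ.eventually (by norm_num))] with y hy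
    simp only [D]
    rw [show (fun y => Z (L y)) = Z ∘ L from rfl, L.comp_right_fderiv]
    rfl
  have hd : ∀ a, DifferentiableAt ℝ (D a Z) (L u) := fun a =>
    ((hZ.fderiv_right (m := 1) (by norm_num)).differentiableAt (by norm_num)).clm_apply
      (differentiableAt_const a)
  have h0 : ∀ a, D a (fun y => Z (L y)) u = L a 0 • D (pt 1 0) Z (L u) + L a 1 • D (pt 0 1) Z (L u) :=
    fun a => by rw [(hD a).eq_of_nhds, ← D_comb, ← coord_pt]
  have h2 : D (pt 0 1) (D (pt 0 1) fun y => Z (L y)) u =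
      s ^ 2 • D (dir3 θ) (D (dir3 θ) Z) (L u) := by
    rw [Legal.D_congr (hD (pt 0 1))]
    show fderiv ℝ (D (L (pt 0 1)) Z ∘ L) u (pt 0 1) = _
    rw [L.comp_right_fderiv]
    show fderiv ℝ (fun y => fderiv ℝ Z y (L (pt 0 1))) (L u) (L (pt 0 1)) = _
    rw [hs]
    have e : (fun y => fderiv ℝ Z y (s • dir3 θ)) = fun y => s • D (dir3 θ) Z y := by
      funext y; simp [D]
    rw [e, fderiv_fun_const_smul (hd (dir3 θ))]
    show (s • fderiv ℝ (D (dir3 θ) Z) (L u)) (s • dir3 θ) = _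
    simp [D, smul_smul, pow_two]
  have hg : gram2 (D (pt 1 0) Z (L u)) (D (pt 0 1) Z (L u)) ≠ 0 := hA
  have hdet : L (pt 1 0) 0 * L (pt 0 1) 1 - L (pt 1 0) 1 * L (pt 0 1) 0 ≠ 0 := det2_ne L
  refine ⟨?_, ?_⟩
  · rw [area, h0, h0, Legal.gram2_comb]
    rfl
  · rw [bendSq, sff, h2, h0, h0, perp2_basis hg hdet, Legal.perp2_smul, Wave.ip_smul_left,
      Wave.ip_smul_right]
    have hθ : ![jet Z (L u) 2, jet Z (L u) 3, jet Z (L u) 4] θ =
        D (dir3 θ) (D (dir3 θ) Z) (L u) := by fin_cases θ <;> rfl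
    rw [bendP, hθ]
    show _ = s ^ 4 * gram3 (D (pt 1 0) Z (L u)) (D (pt 0 1) Z (L u)) _
    rw [← perp2_sq hg]
    show _ * gram2 (D (pt 1 0) Z (L u)) (D (pt 0 1) Z (L u)) = _
    ring

/-- A nonzero second form bends in one of the three directions. -/
theorem bendS_ge {Z : R2 → V4} {z : R2} (hZ : ContDiffAt ℝ 2 Z z) (hA : 0 < area Z z) :
    area Z z * sffSq Z z ≤ 3 * bendS (jet Z z) := by
  have hg : gram2 (D (pt 1 0) Z z) (D (pt 0 1) Z z) ≠ 0 := hA.ne'
  have e : ∀ θ, bendP θ (jet Z z) =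
      area Z z * ip (sff Z z (dir3 θ) (dir3 θ)) (sff Z z (dir3 θ) (dir3 θ)) := fun θ => by
    have hθ : ![jet Z z 2, jet Z z 3, jet Z z 4] θ = D (dir3 θ) (D (dir3 θ) Z) z := by
      fin_cases θ <;> rfl
    rw [bendP, hθ]
    show gram3 (D (pt 1 0) Z z) (D (pt 0 1) Z z) _ = _
    rw [← perp2_sq hg, mul_comm]
    rfl
  rw [bendS, Fin.sum_univ_three, e, e, e, ← mul_add, ← mul_add, mul_left_comm]
  refine mul_le_mul_of_nonneg_left ?_ hA.le
  have h3 := Legal.sff_comb hZ (pt 1 1) (pt 1 1)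
  simp [pt] at h3
  simp only [dir3, Matrix.cons_val_zero, Matrix.cons_val_one, Matrix.cons_val]
  rw [show sff Z z (pt 1 1) (pt 1 1) = _ from h3, sffSq]
  simp only [pt]
  generalize sff Z z !₂[1, 0] !₂[1, 0] = a
  generalize sff Z z !₂[1, 0] !₂[0, 1] = b
  generalize sff Z z !₂[0, 1] !₂[0, 1] = c
  have h1 := Legal.ip_self_nonneg (a + a + (b + b) + c)
  have h8 := Legal.ip_self_nonneg (a + (b + b) + c)
  have h7 := Legal.ip_self_nonneg (a + (b + b) + c + c)
  have h2 := Legal.ip_self_nonneg (a - c)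
  have h4 := Legal.ip_self_nonneg b
  have h5 := Legal.ip_self_nonneg a
  have h6 := Legal.ip_self_nonneg c
  simp [Wave.ip_comm b a, Wave.ip_comm c a, Wave.ip_comm c b] at h1 h2 h7 h8 ⊢
  linarith

end Vale.Agent.P205.Iter
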