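import Vale.Agent.P205.Interfaces
import Vale.Agent.P205.Iter.Forms
import Vale.Agent.P205.Iter.Jet

/-!
Forms on the chart plane by their components, and finitely many linear frames in which an
elliptic form is close to `diag (1, 1 / 2)` with the second axis along a test direction.
-/

noncomputable section

set_option maxSynthPendingDepth 3

open Set Finset Metric
open scoped ContDiff Topology

namespace Vale.Agent.P205.Iter

open Wave (V4 ip D)
open Legal (coord_pt D_comb)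

/-- A coordinate. -/
def coordL (i : Fin 2) : R2 →L[ℝ] ℝ := EuclideanSpace.proj i

theorem coordL_apply (i : Fin 2) (a : R2) : coordL i a = a i := rfl

/-- The form with given components. -/
def bilL : Sym2 →L[ℝ] Bil R2 :=
  (ContinuousLinearMap.proj 0).smulRight ((coordL 0).smulRight (coordL 0)) +
    (ContinuousLinearMap.proj 1).smulRight
      ((coordL 0).smulRight (coordL 1) + (coordL 1).smulRight (coordL 0)) +
    (ContinuousLinearMap.proj 2).smulRight ((coordL 1).smulRight (coordL 1))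

theorem bilL_apply (T : Sym2) (a b : R2) : bilL T a b = qf T a b := by
  simp [bilL, qf, coordL_apply]
  ring

/-- The components of a form. -/
def compL' : Bil R2 →L[ℝ] Sym2 :=
  ContinuousLinearMap.pi ![
    (ContinuousLinearMap.apply ℝ ℝ (pt 1 0)).comp (ContinuousLinearMap.apply ℝ (R2 →L[ℝ] ℝ) (pt 1 0)),
    (ContinuousLinearMap.apply ℝ ℝ (pt 0 1)).comp (ContinuousLinearMap.apply ℝ (R2 →L[ℝ] ℝ) (pt 1 0)),
    (ContinuousLinearMap.apply ℝ ℝ (pt 0 1)).comp (ContinuousLinearMap.apply ℝ (R2 →L[ℝ] ℝ) (pt 0 1))]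

theorem compL'_apply (w : Bil R2) :
    compL' w = ![w (pt 1 0) (pt 1 0), w (pt 1 0) (pt 0 1), w (pt 0 1) (pt 0 1)] := by
  funext i
  fin_cases i <;> simp [compL']

/-- A symmetric form is given by its components. -/
theorem bilL_compL' {w : Bil R2} (hw : ∀ u v, w u v = w v u) : bilL (compL' w) = w := by
  ext a b
  rw [bilL_apply, compL'_apply]
  conv_rhs => rw [coord_pt a, coord_pt b]
  simp [qf, hw (pt 0 1) (pt 1 0)]
  ring

theorem compL'_bilL (T : Sym2) : compL' (bilL T) = T := by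
  funext i
  rw [compL'_apply]
  fin_cases i <;> simp [bilL_apply, qf, pt]

/-- The scalar product of four variables as a continuous bilinear map. -/
def ipL : V4 →L[ℝ] V4 →L[ℝ] ℝ :=
  ∑ i, (ContinuousLinearMap.proj i).smulRight (ContinuousLinearMap.proj i : V4 →L[ℝ] ℝ)

theorem ipL_apply (a b : V4) : ipL a b = ip a b := by simp [ipL, ip]

theorem ipL_symm (a b : V4) : ipL a b = ipL b a := by rw [ipL_apply, ipL_apply, Wave.ip_comm]

/-- The components of an induced form. -/
theorem met_eq (Z : R2 → V4) (z : R2) : met Z z = compL' (form ipL (fderiv ℝ Z z)) := by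
  rw [compL'_apply]
  simp [met, form, D, ipL_apply]

theorem bilL_met (Z : R2 → V4) (z : R2) : bilL (met Z z) = form ipL (fderiv ℝ Z z) := by
  rw [met_eq, bilL_compL' fun u v => by simp [form, ipL_symm]]

/-- The components of a form in a linear frame. -/
def frameComp (L : R2 ≃L[ℝ] R2) : Bil R2 →L[ℝ] Sym2 :=
  compL'.comp ((ContinuousLinearMap.flipₗᵢ ℝ R2 R2 ℝ).toContinuousLinearEquiv.toContinuousLinearMap.comp
    (((ContinuousLinearMap.compL ℝ R2 R2 (R2 →L[ℝ] ℝ)).flip (L : R2 →L[ℝ] R2)).comp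
      ((ContinuousLinearMap.flipₗᵢ ℝ R2 R2 ℝ).toContinuousLinearEquiv.toContinuousLinearMap.comp
        ((ContinuousLinearMap.compL ℝ R2 R2 (R2 →L[ℝ] ℝ)).flip (L : R2 →L[ℝ] R2)))))

theorem frameComp_apply (L : R2 ≃L[ℝ] R2) (w : Bil R2) :
    frameComp L w = compL' (w.bilinearComp (L : R2 →L[ℝ] R2) (L : R2 →L[ℝ] R2)) := by
  simp only [frameComp, ContinuousLinearMap.comp_apply]
  congr 1

/-- A form is the pullback of its components in a frame. -/
theorem bilL_frameComp (L : R2 ≃L[ℝ] R2) {w : Bil R2} (hw : ∀ u v, w u v = w v u) :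
    (bilL (frameComp L w)).bilinearComp (L.symm : R2 →L[ℝ] R2) (L.symm : R2 →L[ℝ] R2) = w := by
  rw [frameComp_apply, bilL_compL' fun u v => by simp [hw (L u) (L v)]]
  ext u v
  simp

/-- The nominal components. -/
def nominal : Sym2 := ![1, 0, 1 / 2]

/-- The coefficients of the three waves. -/
def betaL : Fin 3 → Sym2 →L[ℝ] ℝ :=
  let π : Fin 3 → Sym2 →L[ℝ] ℝ := fun i => ContinuousLinearMap.proj i
  ![π 0 - π 2, (1 / 2 : ℝ) • (π 2 + π 1), (1 / 2 : ℝ) • (π 2 - π 1)]

theorem trioForm_betaL (F : R2 → Sym2) (z : R2) :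
    trioForm (fun j y => betaL j (F y)) z = F z := by
  funext i
  fin_cases i <;> simp [trioForm, betaL, sqForm] <;> ring

theorem betaL_range {T : Sym2} (h : ‖T - nominal‖ ≤ 1 / 20) (j : Fin 3) :
    betaL j T ∈ Icc (1 / 16 : ℝ) 16 := by
  have h0 := abs_le.1 ((norm_le_pi_norm (T - nominal) 0).trans h)
  have h1 := abs_le.1 ((norm_le_pi_norm (T - nominal) 1).trans h)
  have h2 := abs_le.1 ((norm_le_pi_norm (T - nominal) 2).trans h)
  simp [nominal] at h0 h1 h2
  fin_cases j <;> simp [betaL] <;> constructor <;> linarith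

/-- The elliptic components. -/
def ellSet (A : ℝ) : Set Sym2 :=
  {T | ∀ a : R2, ‖a‖ ^ 2 / A ≤ qf T a a ∧ qf T a a ≤ A * ‖a‖ ^ 2}

theorem ellSet_compact {A : ℝ} (hA : 0 < A) : IsCompact (ellSet A) := by
  refine Metric.isCompact_of_isClosed_isBounded ?_
    (isBounded_iff_subset_closedBall (0 : Sym2) |>.2 ⟨3 * A, fun T hT => ?_⟩)
  · have e : ellSet A = ⋂ a : R2, {T | ‖a‖ ^ 2 / A ≤ qf T a a ∧ qf T a a ≤ A * ‖a‖ ^ 2} := by
      ext T; simp [ellSet]
    have hc : ∀ a : R2, Continuous fun T : Sym2 => qf T a a := fun a => by unfold qf; fun_prop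
    rw [e]
    exact isClosed_iInter fun a =>
      (isClosed_le continuous_const (hc a)).inter (isClosed_le (hc a) continuous_const)
  · have hn : ∀ a b : ℝ, ‖pt a b‖ ^ 2 = a ^ 2 + b ^ 2 := fun a b => by
      simp [pt, EuclideanSpace.norm_sq_eq, Fin.sum_univ_two]
    have h0 := hT (pt 1 0)
    have h2 := hT (pt 0 1)
    have h1 := hT (pt 1 1)
    rw [hn] at h0 h1 h2
    simp [qf, pt] at h0 h1 h2
    norm_num at h1
    have hi : 0 ≤ A⁻¹ := inv_nonneg.2 hA.le
    have hi2 : 0 ≤ 2 / A := by positivity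
    rw [mem_closedBall_zero_iff]
    refine (pi_norm_le_iff_of_nonneg (by linarith)).2 fun i => ?_
    fin_cases i <;> simp <;> rw [abs_le] <;> constructor <;> linarith

/-- In a form's own frame: the second axis along a given direction and nominal components. -/
theorem exists_frame {A : ℝ} (hA : 0 < A) {T : Sym2} (hT : T ∈ ellSet A) {v : R2} (hv : v ≠ 0) :
    ∃ (L : R2 ≃L[ℝ] R2) (s : ℝ), s ≠ 0 ∧ L (pt 0 1) = s • v ∧
      frameComp L (bilL T) = nominal := by
  have hpos : ∀ a : R2, a ≠ 0 → 0 < qf T a a := fun a ha =>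
    lt_of_lt_of_le (by positivity) (hT a).1
  set q : ℝ := qf T v v
  have hq : 0 < q := hpos v hv
  set v' : R2 := pt (-v 1) (v 0)
  set e0 : R2 := v' - (qf T v' v / q) • v
  have hv0 : v 0 ^ 2 + v 1 ^ 2 ≠ 0 := fun h => hv (PiLp.ext fun i => by
    have a0 : v 0 = 0 := by nlinarith [sq_nonneg (v 0), sq_nonneg (v 1)]
    have a1 : v 1 = 0 := by nlinarith [sq_nonneg (v 0), sq_nonneg (v 1)]
    fin_cases i
    · exact a0
    · exact a1)
  have he0 : e0 ≠ 0 := fun h => by
    have h0 : e0 0 = 0 := by rw [h]; rfl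
    have h1 : e0 1 = 0 := by rw [h]; rfl
    simp [e0, v', pt] at h0 h1
    refine hv0 ?_
    linear_combination -(v 1) * h0 + (v 0) * h1
  set r : ℝ := Real.sqrt (qf T e0 e0)
  have hr : 0 < r := Real.sqrt_pos.2 (hpos e0 he0)
  set s : ℝ := (Real.sqrt (2 * q))⁻¹
  have hs : 0 < s := inv_pos.2 (Real.sqrt_pos.2 (by linarith))
  let ℓ : R2 →ₗ[ℝ] R2 :=
    ((coordL 0).smulRight (r⁻¹ • e0) + (coordL 1).smulRight (s • v) : R2 →L[ℝ] R2).toLinearMap
  have hℓ : ∀ a, ℓ a = a 0 • r⁻¹ • e0 + a 1 • s • v := fun a => by simp [ℓ, coordL_apply]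
  have hbil : ∀ a b, qf T (ℓ a) (ℓ b) = a 0 * b 0 + a 1 * b 1 * (1 / 2) := fun a b => by
    have o : qf T e0 v = 0 := by
      simp only [← bilL_apply, e0, map_sub, map_smul, _root_.sub_apply,
        _root_.smul_apply, smul_eq_mul]
      simp only [q, bilL_apply]
      rw [div_mul_cancel₀ _ hq.ne', sub_self]
    have o' : qf T v e0 = 0 := by rw [← o]; simp [qf]; ring
    have r2 : r * r = qf T e0 e0 := Real.mul_self_sqrt (hpos e0 he0).le
    have s2 : Real.sqrt (2 * q) * Real.sqrt (2 * q) = 2 * q := Real.mul_self_sqrt (by linarith)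
    simp only [← bilL_apply, hℓ, map_add, map_smul, _root_.add_apply,
      _root_.smul_apply, smul_eq_mul] at o o' r2 ⊢
    rw [o, o', ← r2, bilL_apply, show qf T v v = q from rfl]
    simp only [mul_zero, add_zero, zero_add, s]
    field_simp
    linear_combination (a 1 * b 1) * (-s2)
  have hinj : Function.Injective ℓ := (injective_iff_map_eq_zero ℓ).2 fun a ha => by
    have h := hbil a a
    rw [ha] at h
    simp [qf] at h
    have h0 : a 0 = 0 := by nlinarith [sq_nonneg (a 0), sq_nonneg (a 1)]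
    have h1 : a 1 = 0 := by nlinarith [sq_nonneg (a 0), sq_nonneg (a 1)]
    exact PiLp.ext fun i => by fin_cases i; exacts [h0, h1]
  let L : R2 ≃L[ℝ] R2 := (LinearEquiv.ofInjectiveEndo ℓ hinj).toContinuousLinearEquiv
  have hL : ∀ a, L a = ℓ a := fun a => rfl
  refine ⟨L, s, hs.ne', by rw [hL, hℓ]; simp [pt], ?_⟩
  rw [frameComp_apply, compL'_apply]
  simp only [ContinuousLinearMap.bilinearComp_apply, ContinuousLinearEquiv.coe_coe, hL,
    bilL_apply, hbil]
  simp [pt, nominal]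

/-- A cell of components: a centre and a radius, with one frame for each test direction. -/
structure Cell where
  /-- The centre. -/
  mid : Sym2
  /-- The radius. -/
  rad : ℝ
  rad_pos : 0 < rad
  /-- The frames. -/
  L : Fin 3 → R2 ≃L[ℝ] R2
  /-- The stretch of the second axes. -/
  str : Fin 3 → ℝ
  str_ne : ∀ θ, str θ ≠ 0
  axis : ∀ θ, L θ (pt 0 1) = str θ • dir3 θ
  near : ∀ θ T, ‖T - mid‖ ≤ 2 * rad → ‖frameComp (L θ) (bilL T) - nominal‖ ≤ 1 / 20

/-- Finitely many cells cover the elliptic components. -/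
theorem exists_cells {A : ℝ} (hA : 0 < A) : ∃ (n : ℕ) (c : Fin n → Cell),
    ∀ T ∈ ellSet A, ∃ i, ‖T - (c i).mid‖ ≤ (c i).rad / 2 := by
  have hcell : ∀ T : ellSet A, ∃ c : Cell, c.mid = T := fun T => by
    have hv : ∀ θ, dir3 θ ≠ 0 := fun θ h => by
      have h0 : dir3 θ 0 = 0 := by rw [h]; rfl
      have h1 : dir3 θ 1 = 0 := by rw [h]; rfl
      fin_cases θ <;> simp [dir3, pt] at h0 h1
    choose L s hs hax hL using fun θ => exists_frame hA T.2 (hv θ)
    set Φ : Fin 3 → Sym2 →L[ℝ] Sym2 := fun θ => (frameComp (L θ)).comp bilL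
    set r : ℝ := 1 / (40 * (1 + ∑ θ, ‖Φ θ‖))
    have hden : 0 < 40 * (1 + ∑ θ, ‖Φ θ‖) := by
      have : 0 ≤ ∑ θ, ‖Φ θ‖ := Finset.sum_nonneg fun θ _ => norm_nonneg (Φ θ)
      linarith
    refine ⟨⟨T, r, one_div_pos.2 hden, L, s, hs, hax, fun θ T' hT' => ?_⟩, rfl⟩
    have e : frameComp (L θ) (bilL T') - nominal = Φ θ (T' - T.1) := by
      rw [map_sub, ← hL θ]; rfl
    rw [e]
    refine ((Φ θ).le_opNorm _).trans ?_
    have h1 : ‖Φ θ‖ ≤ 1 + ∑ θ, ‖Φ θ‖ :=
      (single_le_sum (f := fun θ => ‖Φ θ‖) (fun θ _ => norm_nonneg _) (Finset.mem_univ θ)).trans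
        (le_add_of_nonneg_left zero_le_one)
    calc ‖Φ θ‖ * ‖T' - T.1‖ ≤ (1 + ∑ θ, ‖Φ θ‖) * (2 * r) :=
          mul_le_mul h1 hT' (norm_nonneg _) (by linarith)
      _ = 1 / 20 := by simp only [r]; field_simp; ring
  choose cell hmid using hcell
  obtain ⟨t, ht⟩ := (ellSet_compact hA).elim_finite_subcover
    (fun T : ellSet A => ball (T : Sym2) ((cell T).rad / 2)) (fun T => isOpen_ball)
    fun T hT => mem_iUnion.2 ⟨⟨T, hT⟩, mem_ball_self (half_pos (cell ⟨T, hT⟩).rad_pos)⟩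
  refine ⟨t.card, fun i => cell (t.equivFin.symm i : t), fun T hT => ?_⟩
  obtain ⟨T', hT', hb⟩ := mem_iUnion₂.1 (ht hT)
  refine ⟨t.equivFin ⟨T', hT'⟩, ?_⟩
  simp only [Equiv.symm_apply_apply, hmid, ← dist_eq_norm]
  exact (mem_ball.1 hb).le

end Vale.Agent.P205.Iter
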