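import Vale.Agent.P205.Iter.Push
import Vale.Agent.P205.Iter.Frames

/-!
Replacing a map inside a compact part of one chart, and linear changes of the chart.
-/

noncomputable section

set_option maxSynthPendingDepth 3

open Set Filter Finset Metric Function
open scoped ContDiff Topology Manifold

namespace Vale.Agent.P205.Iter

/-- Derivatives after a linear change of variables. -/
theorem lin_comp {E W : Type} [NormedAddCommGroup E] [NormedSpace ℝ E] [NormedAddCommGroup W]
    [NormedSpace ℝ W] (g : E ≃L[ℝ] E) (f : E → W) {s : Set E} (hs : IsOpen s) {x : E}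
    (hx : g x ∈ s) (i : ℕ) :
    ‖iteratedFDeriv ℝ i (fun y => f (g y)) x‖ ≤
      ‖iteratedFDeriv ℝ i f (g x)‖ * ‖(g : E →L[ℝ] E)‖ ^ i := by
  rw [← iteratedFDerivWithin_of_isOpen i (hs.preimage g.continuous) hx,
    ← iteratedFDerivWithin_of_isOpen i hs hx, show (fun y => f (g y)) = f ∘ g from rfl,
    g.iteratedFDerivWithin_comp_right f hs.uniqueDiffOn hx i]
  refine (ContinuousMultilinearMap.norm_compContinuousLinearMap_le _ _).trans (le_of_eq ?_)
  simp

variable {E₀ : Type*} [NormedAddCommGroup E₀] [NormedSpace ℝ E₀]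
  {H : Type*} [TopologicalSpace H] {I : ModelWithCorners ℝ E₀ H}
  {M : Type} [TopologicalSpace M] [ChartedSpace H M]
  {V : Type} [NormedAddCommGroup V] [NormedSpace ℝ V]

namespace Atlas

variable (A : Atlas (E := R2) (I := I) (M := M))

/-- Assembled symmetric pieces are symmetric. -/
theorem push_symm (e : A.ι → R2 → Bil R2) (hs : ∀ j y u v, e j y u v = e j y v u) (k : A.ι)
    (z u v : R2) : A.push e k z u v = A.push e k z v u := by
  simp only [push, _root_.sum_apply]
  refine Finset.sum_congr rfl fun j _ => ?_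
  split_ifs
  · simp [hs j (A.trans j k z)]
  · rfl

variable [T2Space M]

/-- A map changed inside a compact part of a chart. -/
theorem exists_patch (j : A.ι) {O S : Set R2} (hO : IsOpen O) (hO3 : O ⊆ ball 0 3)
    (hS : IsCompact S) (hSO : S ⊆ O) (hS2 : S ⊆ closedBall 0 2) {f : R2 → V}
    (hf : ContDiffOn ℝ ∞ f O) {X : M → V} (hX : ContMDiff I 𝓘(ℝ, V) ∞ X)
    (heq : ∀ y ∈ O, y ∉ S → f y = X (A.par j y)) :
    ∃ X' : M → V, ContMDiff I 𝓘(ℝ, V) ∞ X' ∧
      (∀ k, ∀ z ∈ ball (0 : R2) 2, A.par k z ∈ A.par j '' S →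
        z ∈ A.core j k ∧ A.trans j k z ∈ S ∧
          (fun y => X' (A.par k y)) =ᶠ[𝓝 z] fun y => f (A.trans j k y)) ∧
      (∀ k, ∀ z ∈ ball (0 : R2) 2, A.par k z ∉ A.par j '' S →
        (fun y => X' (A.par k y)) =ᶠ[𝓝 z] fun y => X (A.par k y)) ∧
      ∀ y ∈ O, X' (A.par j y) = f y := by
  classical
  have hS3 : S ⊆ ball (0 : R2) 3 := hSO.trans hO3
  have hcl : IsClosed (A.par j '' S) :=
    (hS.image_of_continuousOn ((A.par_smooth j).continuousOn.mono hS3)).isClosed
  have hdom : IsOpen (A.src j ∩ A.inv j ⁻¹' O) :=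
    (A.inv_smooth j).continuousOn.isOpen_inter_preimage (A.src_open j) hO
  set X' : M → V := fun p => if p ∈ A.src j ∩ A.inv j ⁻¹' O then f (A.inv j p) else X p with hX'
  have hoff : ∀ p, p ∉ A.par j '' S → X' p = X p := fun p hp => by
    simp only [hX']
    split_ifs with h
    · rw [heq _ h.2 fun hS => hp ⟨_, hS, A.par_inv j p h.1⟩, A.par_inv j p h.1]
    · rfl
  have hin : ∀ y ∈ O, X' (A.par j y) = f y := fun y hy => by
    have h : A.par j y ∈ A.src j ∩ A.inv j ⁻¹' O :=
      ⟨A.par_mem j (hO3 hy), by rw [Set.mem_preimage, A.inv_par j y (hO3 hy)]; exact hy⟩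
    simp only [hX', if_pos h, A.inv_par j y (hO3 hy)]
  refine ⟨X', fun p => ?_, fun k z hz hp => ?_, fun k z hz hp => ?_, hin⟩
  · by_cases hp : p ∈ A.par j '' S
    · obtain ⟨y, hy, rfl⟩ := hp
      have hm : A.par j y ∈ A.src j ∩ A.inv j ⁻¹' O := ⟨A.par_mem j (hS3 hy), by
        rw [Set.mem_preimage, A.inv_par j y (hS3 hy)]; exact hSO hy⟩
      have h1 : ContMDiffAt I 𝓘(ℝ, R2) ∞ (A.inv j) (A.par j y) :=
        (A.inv_smooth j).contMDiffAt ((A.src_open j).mem_nhds hm.1)
      exact ((hf.contDiffAt (hO.mem_nhds hm.2)).contMDiffAt.comp _ h1).congr_of_eventuallyEq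
        (eventually_of_mem (hdom.mem_nhds hm) fun q hq => if_pos hq)
    · exact (hX p).congr_of_eventuallyEq (eventually_of_mem (hcl.isOpen_compl.mem_nhds hp) hoff)
  · obtain ⟨y, hy, hyz⟩ := hp
    have hc : z ∈ A.core j k := ⟨ball_subset_closedBall hz, y, hS2 hy, hyz⟩
    have ht : A.trans j k z = y := A.trans_of_image (hS3 hy) hyz
    refine ⟨hc, ht ▸ hy, ?_⟩
    have ho : IsOpen (A.ov j k ∩ A.trans j k ⁻¹' O) :=
      (A.trans_smooth j k).continuousOn.isOpen_inter_preimage (A.isOpen_ov j k) hO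
    filter_upwards [ho.mem_nhds ⟨A.core_subset j k hc, by rw [Set.mem_preimage, ht]; exact hSO hy⟩]
      with w hw
    have hp : A.par j (A.trans j k w) = A.par k w := A.par_inv j _ hw.1.2
    rw [← hp]
    exact hin _ hw.2
  · filter_upwards [((A.par_smooth k).continuousOn.continuousAt (isOpen_ball.mem_nhds
      (ball_subset_ball (by norm_num : (2 : ℝ) ≤ 3) hz))).preimage_mem_nhds
        (hcl.isOpen_compl.mem_nhds hp)] with w hw using hoff _ hw

end Atlas

end Vale.Agent.P205.Iter
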