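import Vale.Agent.P205.Iter.Weights
import Vale.Agent.P205.Iter.Patchwork

/-!
The hypotheses of the three waves for one colour.
-/

noncomputable section

set_option maxSynthPendingDepth 3

open Set Filter Finset Metric Function
open scoped ContDiff Topology Manifold

namespace Vale.Agent.P205.Iter

open Wave (V4 ip)

/-- The comparison constants of jets. -/
theorem exists_low_stable : ∃ L : ℝ, 1 ≤ L ∧ ∀ B : ℝ, 1 ≤ B → ∀ J J' : Jet, ‖J‖ ≤ B → ‖J'‖ ≤ B →
    |areaP J - areaP J'| ≤ L * B ^ 5 * ‖J - J'‖ ∧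
      (∀ θ, |bendP θ J - bendP θ J'| ≤ L * B ^ 5 * ‖J - J'‖) ∧
      |bendS J - bendS J'| ≤ L * B ^ 5 * ‖J - J'‖ ∧ areaP J' ≤ L * B ^ 4 := by
  obtain ⟨a, ha0, ha⟩ := homog_lip areaP_smooth 3 areaP_smul
  choose b hb0 hb using fun θ => homog_lip (bendP_smooth θ) 5 (bendP_smul θ)
  obtain ⟨c, hc0, hc⟩ := homog_lip bendS_smooth 5 bendS_smul
  refine ⟨1 + a + (∑ θ, b θ) + c, by linarith [Finset.sum_nonneg fun θ (_ : θ ∈ Finset.univ) => hb0 θ],
    fun B hB J J' hJ hJ' => ?_⟩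
  have hs := Finset.sum_nonneg fun θ (_ : θ ∈ Finset.univ) => hb0 θ
  have h35 : B ^ 3 ≤ B ^ 5 := pow_le_pow_right₀ hB (by norm_num)
  have h0 : 0 ≤ B ^ 5 := pow_nonneg (by linarith) 5
  have hJJ := norm_nonneg (J - J')
  have key : ∀ l : ℝ, l ≤ 1 + a + (∑ θ, b θ) + c →
      l * B ^ 5 * ‖J - J'‖ ≤ (1 + a + (∑ θ, b θ) + c) * B ^ 5 * ‖J - J'‖ := fun l hl => by gcongr
  refine ⟨?_, fun θ => ?_, (hc B (by linarith) J J' hJ hJ').1.trans (key _ (by linarith)), ?_⟩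
  · refine le_trans ((ha B (by linarith) J J' hJ hJ').1) (le_trans ?_ (key a (by linarith)))
    gcongr
  · exact (hb θ B (by linarith) J J' hJ hJ').1.trans (key _ (by
      linarith [single_le_sum (fun θ _ => hb0 θ) (Finset.mem_univ θ)]))
  · refine ((le_abs_self _).trans (ha B (by linarith) J' J hJ' hJ).2).trans ?_
    gcongr
    linarith

theorem root_root_le {K : ℝ} (hK : 1 ≤ K) (D : ℕ) :
    Real.sqrt (Real.sqrt (K ^ D)⁻¹) ≤ (K ^ (D / 4))⁻¹ := by
  have h0 : 0 ≤ K := zero_le_one.trans hK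
  refine (Real.sqrt_le_iff).2 ⟨inv_nonneg.2 (pow_nonneg h0 _), ?_⟩
  refine (Real.sqrt_le_iff).2 ⟨by positivity, ?_⟩
  rw [inv_pow, inv_pow, ← pow_mul, ← pow_mul]
  exact inv_pow_le hK (by omega)

/-- The two lower bounds in a frame. -/
theorem low_linear {c K Kl C₀ P d σ a b x : ℝ} (hd : d ≠ 0) (hσ : σ ≠ 0) (hc : 0 < c) (hK : 0 < K)
    (hKl : K ≤ Kl) (hK25 : K ^ 24 * K ≤ Kl) (hC₁ : 2 * c / d ^ 2 ≤ C₀)
    (hC₂ : 12 * c * P / σ ^ 4 ≤ C₀) (hP : 0 ≤ P) (a1 : 1 ≤ 2 * c * K * a)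
    (a2 : 1 ≤ 12 * c * K * b) (a3 : a ≤ P * K ^ 24) (hx : x * a = σ ^ 4 * b) :
    1 ≤ C₀ * Kl * (d ^ 2 * a) ∧ 1 ≤ C₀ * Kl * x := by
  have hd2 : 0 < d ^ 2 := pow_two_pos_of_ne_zero hd
  have hσ4 : 0 < σ ^ 4 := Even.pow_pos (by decide) hσ
  have ha : 0 < a := pos_of_mul_pos_right (one_pos.trans_le a1) (by positivity)
  have hb : 0 < b := pos_of_mul_pos_right (one_pos.trans_le a2) (by positivity)
  have hC₀ : 0 ≤ C₀ := le_trans (by positivity) hC₁
  refine ⟨?_, le_of_mul_le_mul_right ?_ ha⟩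
  · calc (1 : ℝ) ≤ 2 * c * K * a := a1
      _ = 2 * c / d ^ 2 * K * (d ^ 2 * a) := by field_simp
      _ ≤ C₀ * Kl * (d ^ 2 * a) :=
          mul_le_mul_of_nonneg_right (mul_le_mul hC₁ hKl hK.le hC₀) (by positivity)
  · calc 1 * a ≤ P * K ^ 24 * 1 := by rw [one_mul, mul_one]; exact a3
      _ ≤ P * K ^ 24 * (12 * c * K * b) := mul_le_mul_of_nonneg_left a2 (by positivity)
      _ = 12 * c * P / σ ^ 4 * (K ^ 24 * K) * (σ ^ 4 * b) := by field_simp
      _ ≤ C₀ * Kl * (σ ^ 4 * b) :=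
          mul_le_mul_of_nonneg_right (mul_le_mul hC₂ hK25 (by positivity) hC₀) (by positivity)
      _ = C₀ * Kl * x * a := by rw [← hx]; ring

variable {E₀ : Type*} [NormedAddCommGroup E₀] [NormedSpace ℝ E₀]
  {H : Type*} [TopologicalSpace H] {I : ModelWithCorners ℝ E₀ H}
  {M : Type} [TopologicalSpace M] [ChartedSpace H M]
  {A : Atlas (E := R2) (I := I) (M := M)} {n : ℕ}

namespace Atlas

/-- The admissible maps: immersed and bent at the rate of the scale. -/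
def Good (Ael c₀ : ℝ) (g : A.Tensor) (K : ℝ) (Z : M → V4) : Prop :=
  ∀ j, ∀ z ∈ ball (0 : R2) 2, compL' (g.comp j z) ∈ ellSet Ael ∧
    1 ≤ c₀ * K * areaP (jet (fun y => Z (A.par j y)) z) ∧
    1 ≤ c₀ * K * bendS (jet (fun y => Z (A.par j y)) z)

/-- Close maps have close jets. -/
theorem jet_close {X Y : M → V4} (hX : ContMDiff I 𝓘(ℝ, V4) ∞ X) (hY : ContMDiff I 𝓘(ℝ, V4) ∞ Y)
    {d : ℝ} (hd : ∀ l ≤ 2, A.NormLe l (fun p => X p - Y p) d) (j : A.ι) {z : R2}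
    (hz : z ∈ ball (0 : R2) 2) :
    ‖jet (fun y => X (A.par j y)) z - jet (fun y => Y (A.par j y)) z‖ ≤ 2 * d := by
  have hn : ball (0 : R2) 3 ∈ 𝓝 z := isOpen_ball.mem_nhds (ball_subset_ball (by norm_num) hz)
  have hX2 := ((chart_smooth (A := A) hX j).contDiffAt hn).of_le
    (WithTop.coe_le_coe.2 (le_top : (2 : ℕ∞) ≤ ⊤))
  have hY2 := ((chart_smooth (A := A) hY j).contDiffAt hn).of_le
    (WithTop.coe_le_coe.2 (le_top : (2 : ℕ∞) ≤ ⊤))
  rw [← jet_sub hX2 hY2]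
  exact norm_jet_le (hX2.sub hY2) (hd 1 (by norm_num) j z hz) (hd 2 le_rfl j z hz)

/-- The jets of a map with bounded first two derivatives. -/
theorem jet_bound {X : M → V4} (hX : ContMDiff I 𝓘(ℝ, V4) ∞ X) {C : ℝ}
    (hC : ∀ l, 1 ≤ l → l ≤ 2 → A.NormLe l X C) (j : A.ι) {z : R2} (hz : z ∈ ball (0 : R2) 2) :
    ‖jet (fun y => X (A.par j y)) z‖ ≤ 2 * C :=
  norm_jet_le (((chart_smooth (A := A) hX j).contDiffAt
    (isOpen_ball.mem_nhds (ball_subset_ball (by norm_num) hz))).of_le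
      (WithTop.coe_le_coe.2 (le_top : (2 : ℕ∞) ≤ ⊤)))
    (hC 1 le_rfl (by norm_num) j z hz) (hC 2 (by norm_num) le_rfl j z hz)

variable {Ael : ℝ} {Ab : ℕ → ℝ} {c1 : ℝ}

/-- The tensor to be added, before weighting. -/
def target (t : A.Dat Ael Ab c1) (k : A.ι) (z : R2) : Bil R2 := t.g.comp k z + A.push t.e k z

theorem target_smooth (t : A.Dat Ael Ab c1) (j : A.ι) [T2Space M] :
    ContDiffOn ℝ ∞ (target t j) (ball 0 3) :=
  (t.g.smooth j).add (A.push_smooth t.smoothE t.suppE j)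

theorem target_symm (t : A.Dat Ael Ab c1) (k : A.ι) {z : R2} (hz : z ∈ ball (0 : R2) 3) (u v : R2) :
    target t k z u v = target t k z v u := by
  simp only [target, _root_.add_apply]
  rw [t.g.symm k z hz u v, A.push_symm t.e t.symmE k z u v]

theorem target_compat (t : A.Dat Ael Ab c1) (j k : A.ι) {z : R2} (hz : z ∈ A.ov j k) :
    target t k z = (target t j (A.trans j k z)).bilinearComp
      (fderiv ℝ (A.trans j k) z) (fderiv ℝ (A.trans j k) z) := by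
  simp only [target]
  rw [t.g.compat j k z hz, A.push_compat t.e j k hz]
  ext u v; simp

variable (cell : Fin n → Cell)

/-- Where the cut-off of a colour lives in its chart. -/
def colSet (c : A.Col n) (t : A.Dat Ael Ab c1) : Set R2 :=
  closedBall 0 1 ∩ {z | ‖compL' (t.g.comp c.1 z) - (cell c.2.1).mid‖ ≤ (cell c.2.1).rad ∧
    bendS (jet (fun y => t.X (A.par c.1 y)) z) ≤
      6 * bendP c.2.2 (jet (fun y => t.X (A.par c.1 y)) z)}

variable {cell}

theorem chartCut_off (c : A.Col n) (t : A.Dat Ael Ab c1) {z : R2} (hz : z ∉ colSet cell c t) :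
    chartCut cell c t z = 0 := by
  by_contra h
  obtain ⟨a, b, d⟩ := chartCut_pos cell c t h
  exact hz ⟨a, b, d⟩

theorem colSet_compact (c : A.Col n) (t : A.Dat Ael Ab c1) : IsCompact (colSet cell c t) := by
  obtain ⟨j, i₀, θ⟩ := c
  set fX : R2 → V4 := fun y => t.X (A.par j y)
  have h13 : closedBall (0 : R2) 1 ⊆ ball 0 3 := closedBall_subset_ball (by norm_num)
  have hJ := (jet_smooth isOpen_ball (chart_smooth (A := A) t.smoothX j)).continuousOn.mono h13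
  have c1' : ContinuousOn (fun z => ‖compL' (t.g.comp j z) - (cell i₀).mid‖) (closedBall 0 1) :=
    ((compL'.continuous.comp_continuousOn ((t.g.smooth j).continuousOn.mono h13)).sub
      continuousOn_const).norm
  have c2' : ContinuousOn (fun z => 6 * bendP θ (jet fX z) - bendS (jet fX z))
      (closedBall 0 1) :=
    (continuousOn_const.mul ((bendP_smooth θ).continuous.comp_continuousOn hJ)).sub
      (bendS_smooth.continuous.comp_continuousOn hJ)
  have e1 : colSet cell (j, i₀, θ) t = (closedBall (0 : R2) 1 ∩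
      (fun z => ‖compL' (t.g.comp j z) - (cell i₀).mid‖) ⁻¹' Iic (cell i₀).rad) ∩
      (closedBall (0 : R2) 1 ∩
      (fun z => 6 * bendP θ (jet fX z) - bendS (jet fX z)) ⁻¹' Ici 0) := by
    ext z; simp [colSet, fX]; tauto
  rw [e1]
  exact (isCompact_closedBall (0 : R2) 1).of_isClosed_subset
    ((c1'.preimage_isClosed_of_isClosed isClosed_closedBall isClosed_Iic).inter
      (c2'.preimage_isClosed_of_isClosed isClosed_closedBall isClosed_Ici))
    (fun z hz => hz.1.1)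

/-- The lower bounds pass to a close map. -/
theorem low_of_close {Ls : ℝ}
    (hLs : ∀ B : ℝ, 1 ≤ B → ∀ J J' : Jet, ‖J‖ ≤ B → ‖J'‖ ≤ B →
      |areaP J - areaP J'| ≤ Ls * B ^ 5 * ‖J - J'‖ ∧
      (∀ θ, |bendP θ J - bendP θ J'| ≤ Ls * B ^ 5 * ‖J - J'‖) ∧
      |bendS J - bendS J'| ≤ Ls * B ^ 5 * ‖J - J'‖ ∧ areaP J' ≤ Ls * B ^ 4)
    (hLs1 : 1 ≤ Ls) (t : A.Dat Ael Ab c1) {Y : M → V4} (hY : ContMDiff I 𝓘(ℝ, V4) ∞ Y) {d : ℝ}
    (hclose : ∀ l ≤ 2, A.NormLe l (fun p => Y p - t.X p) d) (hd : 2 * d ≤ 1)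
    (hsmall : Ls * (2 * (|Ab 1| + |Ab 2| + 1) * t.K ^ 6) ^ 5 * (2 * d) * (c1 * t.K) ≤ 1 / 12)
    (c : A.Col n) {z : R2} (hz : z ∈ colSet cell c t) :
    1 ≤ 2 * c1 * t.K * areaP (jet (fun y => Y (A.par c.1 y)) z) ∧
      1 ≤ 12 * c1 * t.K * bendP c.2.2 (jet (fun y => Y (A.par c.1 y)) z) ∧
      areaP (jet (fun y => Y (A.par c.1 y)) z) ≤
        Ls * (2 * (|Ab 1| + |Ab 2| + 1)) ^ 4 * t.K ^ 24 := by
  set P : ℝ := |Ab 1| + |Ab 2| with hP
  have hz2 : z ∈ ball (0 : R2) 2 := closedBall_subset_ball (by norm_num) hz.1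
  have hK1 := t.one_le
  have hK6 : 1 ≤ t.K ^ 6 := one_le_pow₀ hK1
  set Bq : ℝ := 2 * (P + 1) * t.K ^ 6 with hBq
  set J := jet (fun y => t.X (A.par c.1 y)) z
  set J' := jet (fun y => Y (A.par c.1 y)) z
  have hjX : ‖J‖ ≤ 2 * (P * t.K ^ 6) := by
    refine jet_bound (A := A) t.smoothX (fun l h1 h2 => A.normLe_mono (t.bdX l) ?_) c.1 hz2
    refine mul_le_mul ?_ (pow_le_pow_right₀ hK1 (by omega))
      (pow_nonneg (zero_le_one.trans hK1) _) (add_nonneg (abs_nonneg _) (abs_nonneg _))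
    interval_cases l
    · exact (le_abs_self _).trans (le_add_of_nonneg_right (abs_nonneg _))
    · exact (le_abs_self _).trans (le_add_of_nonneg_left (abs_nonneg _))
  have hB : 2 * (P * t.K ^ 6) + 1 ≤ Bq := by
    calc 2 * (P * t.K ^ 6) + 1 ≤ 2 * (P * t.K ^ 6) + 2 * t.K ^ 6 := by linarith
      _ = Bq := by rw [hBq]; ring
  have hd' : ‖J' - J‖ ≤ 2 * d := jet_close (A := A) hY t.smoothX hclose c.1 hz2
  have hJ' : ‖J'‖ ≤ Bq := (norm_le_norm_add_norm_sub' J' J).trans (by linarith)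
  have hP0 : 0 ≤ P * t.K ^ 6 := by positivity
  obtain ⟨la, lb, -, lA⟩ := hLs Bq (by linarith) J J' (by linarith) hJ'
  obtain ⟨la', lb'⟩ := t.low c.1 z hz2
  have hcK : 0 ≤ c1 * t.K := mul_nonneg t.c1_pos.le (zero_le_one.trans hK1)
  have hdiff : Ls * Bq ^ 5 * ‖J - J'‖ * (c1 * t.K) ≤ 1 / 12 := by
    refine le_trans ?_ hsmall
    rw [norm_sub_rev]
    exact mul_le_mul_of_nonneg_right (mul_le_mul_of_nonneg_left hd'
      (mul_nonneg (zero_le_one.trans hLs1) (pow_nonneg (by linarith) 5))) hcK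
  have ha := mul_le_mul_of_nonneg_right (abs_le.1 la).2 hcK
  have hb := mul_le_mul_of_nonneg_right (abs_le.1 (lb c.2.2)).2 hcK
  have hs6 := mul_le_mul_of_nonneg_left hz.2.2 hcK
  refine ⟨by linarith, by linarith, lA.trans (le_of_eq ?_)⟩
  rw [hBq, mul_pow, ← pow_mul]; ring

/-- The form in the frame is close to the nominal one. -/
theorem near_frame (c : A.Col n) (t : A.Dat Ael Ab c1)
    (hη : ∀ z ∈ ball (0 : R2) 2, ‖compL' (A.push t.e c.1 z)‖ ≤ (cell c.2.1).rad) {z : R2}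
    (hz : z ∈ colSet cell c t) :
    ‖frameComp ((cell c.2.1).L c.2.2) (target t c.1 z) - nominal‖ ≤ 1 / 20 := by
  have hz2 : z ∈ ball (0 : R2) 2 := closedBall_subset_ball (by norm_num) hz.1
  have hn := (cell c.2.1).near c.2.2 (compL' (target t c.1 z)) (by
    simp only [target, map_add]
    rw [add_sub_right_comm]
    refine (norm_add_le _ _).trans ?_
    linarith [hz.2.1, hη z hz2])
  rwa [bilL_compL' (target_symm t c.1 (closedBall_subset_ball (by norm_num) hz.1))] at hn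

variable (cell)

/-- The map of a colour in its frame. -/
def colMap (c : A.Col n) (Y : M → V4) (u : R2) : V4 := Y (A.par c.1 ((cell c.2.1).L c.2.2 u))

/-- The coefficients of a colour. -/
def colBeta (c : A.Col n) (t : A.Dat Ael Ab c1) (b : Fin 3) (u : R2) : ℝ :=
  betaL b (frameComp ((cell c.2.1).L c.2.2) (target t c.1 ((cell c.2.1).L c.2.2 u)))

/-- The weight of a colour in its frame. -/
def colChi (c : A.Col n) (t : A.Dat Ael Ab c1) (u : R2) : ℝ :=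
  chi cell c t ((cell c.2.1).L c.2.2 u)

/-- Where a colour may act. -/
def colDom (c : A.Col n) (Y : M → V4) : Set R2 :=
  ball 0 3 ∩ (fun z => areaP (jet (fun y => Y (A.par c.1 y)) z)) ⁻¹' Ioi 0 ∩
    (ball 0 3 ∩ (fun z => bendP c.2.2 (jet (fun y => Y (A.par c.1 y)) z)) ⁻¹' Ioi 0)

variable {cell}

theorem colDom_open (c : A.Col n) {Y : M → V4} (hY : ContMDiff I 𝓘(ℝ, V4) ∞ Y) :
    IsOpen (colDom (A := A) c Y) := by
  have hJY := jet_smooth isOpen_ball (chart_smooth (A := A) hY c.1)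
  exact ((areaP_smooth.comp_contDiffOn hJY).continuousOn.isOpen_inter_preimage
    isOpen_ball isOpen_Ioi).inter
      (((bendP_smooth c.2.2).comp_contDiffOn hJY).continuousOn.isOpen_inter_preimage
        isOpen_ball isOpen_Ioi)

theorem colDom_ball (c : A.Col n) (Y : M → V4) : colDom (A := A) c Y ⊆ ball 0 3 :=
  fun _ hz => hz.1.1

/-- Constants that serve for the three waves. -/
structure Consts (cell : Fin n → Cell) (c : A.Col n) (out CT : ℕ → ℝ) (Cχ c1 P : ℝ) (C : ℕ → ℝ) :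
    Prop where
  chi : Cχ ≤ C 0
  map : ∀ i, |out i| * ‖((cell c.2.1).L c.2.2 : R2 →L[ℝ] R2)‖ ^ i ≤ C i
  beta : ∀ i, (∑ b, ‖betaL b‖) * ‖frameComp ((cell c.2.1).L c.2.2)‖ *
    (CT i * ‖((cell c.2.1).L c.2.2 : R2 →L[ℝ] R2)‖ ^ i) ≤ C i
  area : 2 * c1 / det2 ((cell c.2.1).L c.2.2) ^ 2 ≤ C 0
  bend : 12 * c1 * P / (cell c.2.1).str c.2.2 ^ 4 ≤ C 0

variable [T2Space M]

/-- The hypotheses of the three waves. -/
theorem trio_data {out CT C : ℕ → ℝ} {Cχ P Kl : ℝ} {Cf : ℕ → ℕ → ℝ} (c : A.Col n)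
    (t : A.Dat Ael Ab c1) (hC : Consts cell c out CT Cχ c1 P C) (hCχ : 0 ≤ Cχ) (hP : 0 ≤ P)
    (hKl : t.K ^ 50 ≤ Kl)
    (hsm : ContDiff ℝ ∞ (chi cell c t))
    (hr : ∀ z, 0 ≤ chi cell c t z ∧ chi cell c t z ≤ Cχ * Real.sqrt (t.K ^ t.D)⁻¹)
    (hz0 : ∀ z, chartCut cell c t z = 0 → chi cell c t z = 0)
    (hCf0 : ∀ i d, 0 ≤ Cf i d)
    (hCf : ∀ i d, ∀ z ∈ ball (0 : R2) 2, ‖iteratedFDeriv ℝ i (chi cell c t) z‖ ≤
      Cf i d * chi cell c t z ^ Legal.expo d * (t.K ^ 50) ^ i)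
    (hT : ∀ i, ∀ z ∈ ball (0 : R2) 2, ‖iteratedFDeriv ℝ i (target t c.1) z‖ ≤ CT i * Kl ^ i)
    (hη : ∀ z ∈ ball (0 : R2) 2, ‖compL' (A.push t.e c.1 z)‖ ≤ (cell c.2.1).rad)
    {Y : M → V4} (hY : ContMDiff I 𝓘(ℝ, V4) ∞ Y) (hYb : ∀ i, A.NormLe i Y (out i * Kl ^ i))
    (hlow : ∀ z ∈ colSet cell c t,
      1 ≤ 2 * c1 * t.K * areaP (jet (fun y => Y (A.par c.1 y)) z) ∧
      1 ≤ 12 * c1 * t.K * bendP c.2.2 (jet (fun y => Y (A.par c.1 y)) z) ∧
      areaP (jet (fun y => Y (A.par c.1 y)) z) ≤ P * t.K ^ 24) :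
    colSet cell c t ⊆ colDom (A := A) c Y ∧
    TrioData C (fun i d => Cf i d * ‖((cell c.2.1).L c.2.2 : R2 →L[ℝ] R2)‖ ^ i) Kl
      ((cell c.2.1).L c.2.2 ⁻¹' colDom (A := A) c Y) ((cell c.2.1).L c.2.2 ⁻¹' colSet cell c t)
      (colMap cell c Y) (colChi cell c t) (colBeta cell c t) := by
  obtain ⟨j, i₀, θ⟩ := c
  set L := (cell i₀).L θ
  set fY : R2 → V4 := fun y => Y (A.par j y)
  have hK1 := t.one_le
  have hKp : 0 < t.K := zero_lt_one.trans_le hK1
  have hKl0 : 0 ≤ Kl := (pow_nonneg hKp.le 50).trans hKl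
  have h12 : closedBall (0 : R2) 1 ⊆ ball 0 2 := closedBall_subset_ball (by norm_num)
  have h23 : ball (0 : R2) 2 ⊆ ball 0 3 := ball_subset_ball (by norm_num)
  have hfYs : ContDiffOn ℝ ∞ fY (ball 0 3) := chart_smooth (A := A) hY j
  have hSΩ : colSet cell (j, i₀, θ) t ⊆ colDom (A := A) ((j, i₀, θ) : A.Col n) Y := fun z hz => by
    obtain ⟨a, b, -⟩ := hlow z hz
    refine ⟨⟨h23 (h12 hz.1), ?_⟩, h23 (h12 hz.1), ?_⟩
    · exact pos_of_mul_pos_right (one_pos.trans_le a)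
        (mul_nonneg (mul_nonneg zero_le_two t.c1_pos.le) hKp.le)
    · exact pos_of_mul_pos_right (one_pos.trans_le b)
        (mul_nonneg (mul_nonneg (by norm_num) t.c1_pos.le) hKp.le)
  have hΩ3 := colDom_ball (A := A) ((j, i₀, θ) : A.Col n) Y
  refine ⟨hSΩ,
  { open_ := (colDom_open _ hY).preimage L.continuous
    compact := L.toHomeomorph.isCompact_preimage.2 (colSet_compact _ t)
    sub := preimage_mono hSΩ
    smoothZ := (hfYs.mono hΩ3).comp L.contDiff.contDiffOn fun u hu => hu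
    smoothChi := hsm.comp L.contDiff
    smoothBeta := fun b => (betaL b).contDiff.comp_contDiffOn ((frameComp L).contDiff.comp_contDiffOn
      (((target_smooth t j).mono hΩ3).comp L.contDiff.contDiffOn fun u hu => hu))
    supp := fun u hu => hz0 _ (chartCut_off _ t hu)
    chi_le := fun u => (hr (L u)).2.trans ((mul_le_of_le_one_right hCχ
      (Real.sqrt_le_one.2 (inv_le_one_of_one_le₀ (one_le_pow₀ hK1)))).trans hC.chi)
    bdZ := fun i u hu => ?_
    bdBeta := fun b i u hu => ?_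
    flat := ?_
    beta_range := fun b u hu => betaL_range (near_frame ((j, i₀, θ) : A.Col n) t hη hu) b
    imm := fun u hu => ?_
    bend := fun u hu => ?_
    low := fun u hu => ?_ }⟩
  · refine (lin_comp L fY isOpen_ball (h12 hu.1) i).trans ?_
    calc ‖iteratedFDeriv ℝ i fY (L u)‖ * ‖(L : R2 →L[ℝ] R2)‖ ^ i
        ≤ |out i| * Kl ^ i * ‖(L : R2 →L[ℝ] R2)‖ ^ i :=
          mul_le_mul_of_nonneg_right ((hYb i j (L u) (h12 hu.1)).trans
            (mul_le_mul_of_nonneg_right (le_abs_self _) (pow_nonneg hKl0 i)))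
            (pow_nonneg (norm_nonneg _) i)
      _ = |out i| * ‖(L : R2 →L[ℝ] R2)‖ ^ i * Kl ^ i := by ring
      _ ≤ C i * Kl ^ i := mul_le_mul_of_nonneg_right (hC.map i) (pow_nonneg hKl0 i)
  · have hu2 : L u ∈ ball (0 : R2) 2 := h12 hu.1
    have hsT : ContDiffAt ℝ i (fun y => target t j (L y)) u :=
      (((target_smooth t j).contDiffAt (isOpen_ball.mem_nhds (h23 hu2))).comp u
        L.contDiff.contDiffAt).of_le (by exact_mod_cast le_top)
    rw [show colBeta cell ((j, i₀, θ) : A.Col n) t b =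
      ((betaL b).comp (frameComp L)) ∘ fun y => target t j (L y) from rfl]
    refine (((betaL b).comp (frameComp L)).norm_iteratedFDeriv_comp_left hsT le_rfl).trans ?_
    calc ‖(betaL b).comp (frameComp L)‖ * ‖iteratedFDeriv ℝ i (fun y => target t j (L y)) u‖
        ≤ ((∑ b, ‖betaL b‖) * ‖frameComp L‖) * (CT i * Kl ^ i * ‖(L : R2 →L[ℝ] R2)‖ ^ i) := by
          refine mul_le_mul (((betaL b).opNorm_comp_le _).trans
            (mul_le_mul_of_nonneg_right (single_le_sum (f := fun b => ‖betaL b‖)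
              (fun b _ => norm_nonneg _) (Finset.mem_univ b)) (norm_nonneg _)))
            ((lin_comp L (target t j) isOpen_ball hu2 i).trans
              (mul_le_mul_of_nonneg_right (hT i _ hu2) (pow_nonneg (norm_nonneg _) i)))
            (norm_nonneg _)
            (mul_nonneg (Finset.sum_nonneg fun b _ => norm_nonneg (betaL b)) (norm_nonneg _))
      _ = (∑ b, ‖betaL b‖) * ‖frameComp L‖ * (CT i * ‖(L : R2 →L[ℝ] R2)‖ ^ i) * Kl ^ i := by ring
      _ ≤ C i * Kl ^ i := mul_le_mul_of_nonneg_right (hC.beta i) (pow_nonneg hKl0 i)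
  · refine Legal.flat_of_bound hKl0 (fun u _ => (hr (L u)).1) fun u hu i d => ?_
    refine (lin_comp L (chi cell (j, i₀, θ) t) isOpen_ball (h12 hu.1) i).trans ?_
    calc ‖iteratedFDeriv ℝ i (chi cell (j, i₀, θ) t) (L u)‖ * ‖(L : R2 →L[ℝ] R2)‖ ^ i
        ≤ Cf i d * chi cell (j, i₀, θ) t (L u) ^ Legal.expo d * Kl ^ i *
            ‖(L : R2 →L[ℝ] R2)‖ ^ i :=
          mul_le_mul_of_nonneg_right ((hCf i d _ (h12 hu.1)).trans (mul_le_mul_of_nonneg_left
            (pow_le_pow_left₀ (pow_nonneg hKp.le _) hKl i)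
            (mul_nonneg (hCf0 i d) (Real.rpow_nonneg (hr _).1 _)))) (pow_nonneg (norm_nonneg _) i)
      _ = _ := by simp only [colChi]; ring
  · have h := hu.1.2
    obtain ⟨h1, -⟩ := linear_chart (Z := fY) L ((cell i₀).axis θ) (u := u)
      ((hfYs.contDiffAt (isOpen_ball.mem_nhds (hΩ3 hu))).of_le
        (WithTop.coe_le_coe.2 (le_top : (2 : ℕ∞) ≤ ⊤))) (ne_of_gt h)
    show 0 < area (fun y => fY (L y)) u
    rw [h1]
    exact mul_pos (pow_two_pos_of_ne_zero (det2_ne L)) h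
  · have h := hu.1.2
    obtain ⟨-, h2⟩ := linear_chart (Z := fY) L ((cell i₀).axis θ) (u := u)
      ((hfYs.contDiffAt (isOpen_ball.mem_nhds (hΩ3 hu))).of_le
        (WithTop.coe_le_coe.2 (le_top : (2 : ℕ∞) ≤ ⊤))) (ne_of_gt h)
    refine pos_of_mul_pos_left (b := areaP (jet fY (L u))) ?_ (le_of_lt h)
    show 0 < bendSq (fun y => fY (L y)) u * _
    rw [h2]
    exact mul_pos (Even.pow_pos (by decide) ((cell i₀).str_ne θ)) hu.2.2
  · obtain ⟨a1, a2, a3⟩ := hlow _ hu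
    have hΩu := hSΩ hu
    obtain ⟨h1, h2⟩ := linear_chart (Z := fY) L ((cell i₀).axis θ) (u := u)
      ((hfYs.contDiffAt (isOpen_ball.mem_nhds (hΩ3 hΩu))).of_le
        (WithTop.coe_le_coe.2 (le_top : (2 : ℕ∞) ≤ ⊤))) (ne_of_gt hΩu.1.2)
    have h := low_linear (det2_ne L) ((cell i₀).str_ne θ) t.c1_pos hKp
      ((le_self_pow₀ hK1 (by norm_num)).trans hKl)
      (((pow_succ t.K 24).symm.le.trans (pow_le_pow_right₀ hK1 (by norm_num))).trans hKl)
      hC.area hC.bend hP a1 a2 a3 h2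
    rw [← h1] at h
    exact h

end Atlas

end Vale.Agent.P205.Iter
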