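import Vale.Agent.P205.Iter.Limit

/-!
A compact boundaryless manifold is covered by finitely many parametrised balls.
-/

noncomputable section

open Set Filter Metric
open scoped Topology ContDiff Manifold

namespace Vale.Agent.P205.Iter

variable {E : Type*} [NormedAddCommGroup E] [NormedSpace ℝ E] [FiniteDimensional ℝ E]
  {H : Type*} [TopologicalSpace H] {I : ModelWithCorners ℝ E H} [I.Boundaryless]
  {M : Type} [TopologicalSpace M] [ChartedSpace H M] [IsManifold I ∞ M]

omit [FiniteDimensional ℝ E] in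
/-- A parametrised ball of radius three around a point. -/
theorem exists_par (p : M) : ∃ ψ : E → M, ∃ U ∈ 𝓝 p,
    ContMDiffOn 𝓘(ℝ, E) I ∞ ψ (ball 0 3) ∧
    (∀ z ∈ ball (0 : E) 1, ∃ q : M → E, ContMDiffAt I 𝓘(ℝ, E) ∞ q (ψ z) ∧ q (ψ z) = z ∧
      ∀ᶠ y in 𝓝 (ψ z), ψ (q y) = y) ∧
    ∀ y ∈ U, ∃ z ∈ ball (0 : E) 1, ψ z = y := by
  set e := extChartAt I p with he
  obtain ⟨ε, hε, hball⟩ := Metric.isOpen_iff.1 (isOpen_extChartAt_target p (I := I)) (e p)
    (mem_extChartAt_target p)
  set r : ℝ := ε / 4 with hr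
  have hr0 : 0 < r := by positivity
  have hmem : ∀ z ∈ ball (0 : E) 3, e p + r • z ∈ e.target := fun z hz => hball <| by
    rw [mem_ball, dist_self_add_left, norm_smul, Real.norm_eq_abs, abs_of_pos hr0]
    have := mem_ball_zero_iff.1 hz
    have : r * ‖z‖ ≤ r * 3 := mul_le_mul_of_nonneg_left this.le hr0.le
    rw [hr] at this ⊢; linarith
  set ψ : E → M := fun z => e.symm (e p + r • z) with hψ
  set q : M → E := fun y => r⁻¹ • (e y - e p) with hq
  have hqψ : ∀ z ∈ ball (0 : E) 3, q (ψ z) = z := fun z hz => by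
    simp only [hq, hψ]
    rw [e.right_inv (hmem z hz), add_sub_cancel_left, inv_smul_smul₀ hr0.ne']
  have hψq : ∀ y ∈ e.source, ψ (q y) = y := fun y hy => by
    simp only [hq, hψ]
    rw [smul_inv_smul₀ hr0.ne', add_sub_cancel, e.left_inv hy]
  refine ⟨ψ, {y | y ∈ e.source ∧ q y ∈ ball (0 : E) 1}, ?_, ?_, fun z hz => ?_,
    fun y hy => ⟨q y, hy.2, hψq y hy.1⟩⟩
  · refine inter_mem (extChartAt_source_mem_nhds p) ?_
    have hc : ContinuousAt q p :=
      ((continuousAt_extChartAt p).sub continuousAt_const).const_smul r⁻¹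
    exact hc.preimage_mem_nhds (isOpen_ball.mem_nhds (by simp [hq, he]))
  · exact (contMDiffOn_extChartAt_symm p).comp
      (contDiff_const.add (contDiff_id.const_smul r)).contMDiff.contMDiffOn hmem
  · have hz3 : z ∈ ball (0 : E) 3 := ball_subset_ball (by norm_num) hz
    have hs : ψ z ∈ e.source := e.map_target (hmem z hz3)
    have hc : ψ z ∈ (chartAt H p).source := by rwa [he, extChartAt_source] at hs
    refine ⟨q, ?_, hqψ z hz3, ?_⟩
    · exact ((contDiff_id.sub contDiff_const).const_smul r⁻¹).contMDiff.contMDiffAt.comp _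
        (contMDiffAt_extChartAt' hc)
    · exact Filter.eventually_of_mem ((isOpen_extChartAt_source p).mem_nhds hs) hψq

omit [FiniteDimensional ℝ E] in
/-- The covering family. -/
theorem nonempty_cover [CompactSpace M] : Nonempty (Cover (E := E) (I := I) (M := M)) := by
  choose ψ U hU hs hi hc using fun p : M => exists_par (I := I) p
  obtain ⟨t, ht⟩ := isCompact_univ.elim_nhds_subcover U fun p _ => hU p
  refine ⟨⟨t, inferInstance, fun j => ψ j, fun j => hs _, fun j => hi _, fun y => ?_⟩⟩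
  obtain ⟨p, hp, hy⟩ := mem_iUnion₂.1 (ht.2 (mem_univ y))
  exact ⟨⟨p, hp⟩, hc p y hy⟩

end Vale.Agent.P205.Iter
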