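import Vale.Agent.P205.Legal.Flat
import Vale.Agent.P205.Wave.CostInt

/-!
The basic flat function composed with families of controlled cost.
-/

noncomputable section

open Set Finset Real Polynomial
open scoped ContDiff

namespace Vale.Agent.P205.Iter

open Wave (Scale Cost)
open Legal (expo expo_nonneg expo_le_one rpow_expo_pow)

theorem iteratedDeriv_glue (n : ℕ) : ∃ P : ℝ[X],
    iteratedDeriv n expNegInvGlue = fun x => P.eval x⁻¹ * expNegInvGlue x := by
  induction n with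
  | zero => exact ⟨1, by funext x; simp⟩
  | succ n ih =>
    obtain ⟨P, hP⟩ := ih
    refine ⟨X ^ 2 * (P - derivative (R := ℝ) P), ?_⟩
    rw [iteratedDeriv_succ, hP]
    funext x
    exact (expNegInvGlue.hasDerivAt_polynomial_eval_inv_mul P x).deriv

theorem glue_le_one (x : ℝ) : expNegInvGlue x ≤ 1 := by
  rcases le_or_gt x 0 with hx | hx
  · simp [expNegInvGlue.zero_of_nonpos hx]
  · simp only [expNegInvGlue, not_le.2 hx, if_false, Real.exp_le_one_iff]
    simp [inv_nonneg.2 hx.le]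

/-- All derivatives of the basic flat function keep any power less than one, globally. -/
theorem glue_flat (n d : ℕ) : ∃ C : ℝ, 0 ≤ C ∧ ∀ x : ℝ,
    ‖iteratedFDeriv ℝ n expNegInvGlue x‖ ≤ C * expNegInvGlue x ^ expo d := by
  obtain ⟨P, hP⟩ := iteratedDeriv_glue n
  obtain ⟨C1, hC1⟩ := (isCompact_Icc (a := (0 : ℝ)) (b := 1)).exists_bound_of_continuousOn
    (P ^ (d + 1)).continuous.continuousOn
  obtain ⟨C2, hC2⟩ := (isCompact_Icc (a := (-1 : ℝ)) (b := 2)).exists_bound_of_continuousOn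
    (expNegInvGlue.continuous_polynomial_eval_inv_mul (P ^ (d + 1))).continuousOn
  set C0 : ℝ := |C1| + |C2| with hC0
  have hb : ∀ x : ℝ, |(P ^ (d + 1)).eval x⁻¹ * expNegInvGlue x| ≤ C0 := fun x => by
    rcases le_or_gt x 0 with hx | hx
    · rw [expNegInvGlue.zero_of_nonpos hx, mul_zero, abs_zero]; positivity
    · rcases le_or_gt x 1 with hx1 | hx1
      · exact (hC2 x ⟨by linarith, by linarith⟩).trans (by rw [hC0]; linarith [le_abs_self C2, abs_nonneg C1])
      · have h1 : |(P ^ (d + 1)).eval x⁻¹| ≤ |C1| :=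
          (hC1 x⁻¹ ⟨by positivity, inv_le_one_of_one_le₀ hx1.le⟩).trans (le_abs_self C1)
        rw [abs_mul, abs_of_nonneg (expNegInvGlue.nonneg x)]
        calc _ ≤ |C1| * 1 := mul_le_mul h1 (glue_le_one x) (expNegInvGlue.nonneg x) (abs_nonneg _)
          _ ≤ C0 := by rw [hC0]; linarith [abs_nonneg C2]
  refine ⟨C0 + 1, by positivity, fun x => ?_⟩
  have h0 := expNegInvGlue.nonneg x
  rw [norm_iteratedFDeriv_eq_norm_iteratedDeriv, hP, Real.norm_eq_abs]
  have h2 : |P.eval x⁻¹ * expNegInvGlue x| ^ (d + 1) ≤ C0 * expNegInvGlue x ^ d := by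
    have e : |P.eval x⁻¹ * expNegInvGlue x| ^ (d + 1) =
        |(P ^ (d + 1)).eval x⁻¹ * expNegInvGlue x| * expNegInvGlue x ^ d := by
      rw [eval_pow, abs_mul, abs_mul, abs_pow, abs_of_nonneg h0, mul_pow, pow_succ']
      ring
    rw [e]
    exact mul_le_mul_of_nonneg_right (hb x) (pow_nonneg h0 d)
  refine le_of_pow_le_pow_left₀ (Nat.succ_ne_zero d) (by positivity) (h2.trans ?_)
  rw [mul_pow, rpow_expo_pow h0]
  refine mul_le_mul_of_nonneg_right ?_ (pow_nonneg h0 d)
  exact le_trans (by linarith) (le_self_pow₀ (by linarith [abs_nonneg C1, abs_nonneg C2]) (Nat.succ_ne_zero d))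

variable {ι X : Type} [NormedAddCommGroup X] [NormedSpace ℝ X] {σ : Scale ι X}

/-- A family of flat cut-offs: sized by any power less than one of itself. -/
def Flt (σ : Scale ι X) (f : ι → X → ℝ) : Prop :=
  ∀ d, Cost σ (fun t x => f t x ^ expo d) f

/-- The basic flat function of a family of controlled cost is flat. -/
theorem flt_glue {u : ι → X → ℝ} (hu : ∀ t, ContDiffOn ℝ ∞ (u t) (σ.S t))
    (hb : ∀ i, 1 ≤ i → ∃ C, ∀ t, ∀ x ∈ σ.S t, ‖iteratedFDeriv ℝ i (u t) x‖ ≤ C * σ.B t ^ i) :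
    Flt σ fun t x => expNegInvGlue (u t x) := by
  intro d
  refine ⟨fun t => expNegInvGlue.contDiff.comp_contDiffOn (hu t),
    fun t x _ => Real.rpow_nonneg (expNegInvGlue.nonneg _) _, fun i => ?_⟩
  choose cg hcg0 hcg using fun n => glue_flat n d
  have hb' : ∀ j, ∃ C, 0 ≤ C ∧ (1 ≤ j → ∀ t, ∀ x ∈ σ.S t,
      ‖iteratedFDeriv ℝ j (u t) x‖ ≤ C * σ.B t ^ j) := fun j => by
    rcases Nat.eq_zero_or_pos j with rfl | hj
    · exact ⟨0, le_rfl, fun h => absurd h (by norm_num)⟩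
    · obtain ⟨C, hC⟩ := hb j hj
      exact ⟨|C|, abs_nonneg C, fun _ t x hx => (hC t x hx).trans
        (mul_le_mul_of_nonneg_right (le_abs_self C) (pow_nonneg (zero_le_one.trans (σ.one_le t)) j))⟩
  choose C hC0 hC using hb'
  set Cg := ∑ j ∈ Finset.range (i + 1), cg j with hCg
  set A := 1 + ∑ j ∈ Finset.range (i + 1), C j with hA
  have hA1 : 1 ≤ A := le_add_of_nonneg_right (sum_nonneg fun j _ => hC0 j)
  refine ⟨i.factorial * Cg * A ^ i, mul_nonneg (mul_nonneg (Nat.cast_nonneg _)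
    (sum_nonneg fun j _ => hcg0 j)) (pow_nonneg (zero_le_one.trans hA1) i), fun t x hx => ?_⟩
  have h := norm_iteratedFDerivWithin_comp_le (𝕜 := ℝ) (g := expNegInvGlue) (f := u t) (n := i)
    (s := σ.S t) (t := univ) (x := x) (N := ∞)
    (C := Cg * expNegInvGlue (u t x) ^ expo d) (D := A * σ.B t)
    expNegInvGlue.contDiff.contDiffOn (hu t) (by exact WithTop.coe_le_coe.2 le_top)
    uniqueDiffOn_univ (σ.isOpen t).uniqueDiffOn (mapsTo_univ _ _) hx
    (fun j hj => by
      rw [iteratedFDerivWithin_univ]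
      exact (hcg j (u t x)).trans (mul_le_mul_of_nonneg_right
        (single_le_sum (fun l _ => hcg0 l) (Finset.mem_range.2 (by omega)))
        (Real.rpow_nonneg (expNegInvGlue.nonneg _) _)))
    (fun j hj1 hj => by
      rw [iteratedFDerivWithin_of_isOpen j (σ.isOpen t) hx, mul_pow]
      refine (hC j hj1 t x hx).trans ?_
      refine mul_le_mul_of_nonneg_right ?_ (pow_nonneg (zero_le_one.trans (σ.one_le t)) j)
      calc C j ≤ A := (single_le_sum (fun l _ => hC0 l) (Finset.mem_range.2 (by omega))).trans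
              (le_add_of_nonneg_left zero_le_one)
        _ ≤ A ^ j := le_self_pow₀ hA1 (by omega))
  rw [iteratedFDerivWithin_of_isOpen i (σ.isOpen t) hx] at h
  refine h.trans (le_of_eq ?_)
  rw [mul_pow]
  ring

theorem Flt.nonneg {f : ι → X → ℝ} (hf : Flt σ f) {t : ι} {x : X} (hx : x ∈ σ.S t) :
    0 ≤ f t x ^ expo 0 := (hf 0).nonneg t x hx

/-- Products of flat families are flat. -/
theorem Flt.mul {f g : ι → X → ℝ} (hf : Flt σ f) (hg : Flt σ g) (hf0 : ∀ t x, 0 ≤ f t x)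
    (hg0 : ∀ t x, 0 ≤ g t x) : Flt σ fun t x => f t x * g t x := by
  intro d
  have h := (hf d).bilin (hg d) (ContinuousLinearMap.mul ℝ ℝ)
  exact h.mono zero_le_one (fun t x _ => Real.rpow_nonneg (mul_nonneg (hf0 t x) (hg0 t x)) _)
    fun t x _ => by rw [one_mul, Real.mul_rpow (hf0 t x) (hg0 t x)]

/-- A flat family times a family of bounded cost that is bounded below is flat. -/
theorem Flt.mul_low {f g : ι → X → ℝ} (hf : Flt σ f) (hg : Cost σ (fun _ _ => 1) g)
    (hf0 : ∀ t x, 0 ≤ f t x) {c : ℝ} (hc : 0 < c) (hlo : ∀ t, ∀ x ∈ σ.S t, c ≤ g t x) :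
    Flt σ fun t x => f t x * g t x := by
  intro d
  have h := (hf d).bilin hg (ContinuousLinearMap.mul ℝ ℝ)
  refine h.mono (c := (c ^ expo d)⁻¹) (inv_nonneg.2 (Real.rpow_nonneg hc.le _))
    (fun t x hx => Real.rpow_nonneg (mul_nonneg (hf0 t x) (hc.le.trans (hlo t x hx))) _)
    fun t x hx => ?_
  rw [mul_one, le_inv_mul_iff₀ (Real.rpow_pos_of_pos hc _),
    Real.mul_rpow (hf0 t x) (hc.le.trans (hlo t x hx)), mul_comm (c ^ expo d)]
  exact mul_le_mul_of_nonneg_left (Real.rpow_le_rpow hc.le (hlo t x hx) (expo_nonneg d))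
    (Real.rpow_nonneg (hf0 t x) _)

/-- Scaling by numbers at most one keeps flatness. -/
theorem Flt.smul_le_one {f : ι → X → ℝ} (hf : Flt σ f) (hf0 : ∀ t x, 0 ≤ f t x) {a : ι → ℝ}
    (ha0 : ∀ t, 0 ≤ a t) (ha1 : ∀ t, a t ≤ 1) : Flt σ fun t x => a t * f t x := by
  intro d
  refine ⟨fun t => contDiffOn_const.mul ((hf d).smooth t),
    fun t x _ => Real.rpow_nonneg (mul_nonneg (ha0 t) (hf0 t x)) _, fun i => ?_⟩
  obtain ⟨C, hC0, hC⟩ := (hf d).bound i
  refine ⟨C, hC0, fun t x hx => ?_⟩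
  rw [show (fun x => a t * f t x) = a t • f t from rfl,
    iteratedFDeriv_const_smul_apply ((hf d).contDiffAt hx i), norm_smul, Real.norm_eq_abs,
    abs_of_nonneg (ha0 t), Real.mul_rpow (ha0 t) (hf0 t x)]
  calc a t * ‖iteratedFDeriv ℝ i (f t) x‖
      ≤ a t ^ expo d * (C * f t x ^ expo d * σ.B t ^ i) :=
        mul_le_mul (Real.self_le_rpow_of_le_one (ha0 t) (ha1 t) (expo_le_one d)) (hC t x hx)
          (norm_nonneg _) (Real.rpow_nonneg (ha0 t) _)
    _ = _ := by ring

end Vale.Agent.P205.Iter
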