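import Mathlib

/-!
Smooth limits of sequences of maps with summable increments, first on balls of a model space and
then on a manifold covered by parametrised balls.
-/

noncomputable section

open Set Filter Metric Finset
open scoped Topology ContDiff Manifold

namespace Vale.Agent.P205.Iter

variable {E V : Type*} [NormedAddCommGroup E] [NormedSpace ℝ E] [FiniteDimensional ℝ E]
  [HasContDiffBump E] [NormedAddCommGroup V] [NormedSpace ℝ V] [CompleteSpace V]

omit [CompleteSpace V] in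
/-- A cut-off product is smooth on the whole space, with controlled derivatives. -/
theorem bump_mul (φ : ContDiffBump (0 : E)) (hφ : φ.rOut < 2) {h : ℕ → E → V}
    (hh : ∀ n, ContDiffOn ℝ ∞ (h n) (ball 0 2)) {a : ℕ → ℕ → ℝ}
    (ha : ∀ i n, ∀ z ∈ ball (0 : E) 2, ‖iteratedFDeriv ℝ i (h n) z‖ ≤ a i n)
    (ha0 : ∀ i n, 0 ≤ a i n) :
    (∀ n, ContDiff ℝ ∞ fun z => φ z • h n z) ∧ ∀ i : ℕ, ∃ C : ℕ → ℝ,
      ∀ n z, ‖iteratedFDeriv ℝ i (fun z => φ z • h n z) z‖ ≤
        ∑ l ∈ range (i + 1), C l * a (i - l) n := by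
  have hzero : ∀ n, ∀ z ∉ ball (0 : E) 2, (fun y => φ y • h n y) =ᶠ[𝓝 z] 0 := fun n z hz => by
    have hzs : z ∉ tsupport φ := by
      rw [φ.tsupport_eq]
      simp only [mem_closedBall, mem_ball, not_lt, not_le] at hz ⊢
      linarith
    filter_upwards [notMem_tsupport_iff_eventuallyEq.1 hzs] with y hy
    simp [hy]
  refine ⟨fun n => contDiff_iff_contDiffAt.2 fun z => ?_, fun i => ?_⟩
  · by_cases hz : z ∈ ball (0 : E) 2
    · exact (φ.contDiff.contDiffAt).smul ((hh n).contDiffAt (isOpen_ball.mem_nhds hz))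
    · exact (contDiffAt_const (c := (0 : V))).congr_of_eventuallyEq (hzero n z hz)
  · have hφb : ∀ l : ℕ, ∃ C, ∀ z, ‖iteratedFDeriv ℝ l φ z‖ ≤ C := fun l =>
      (φ.contDiff (n := l)).continuous_iteratedFDeriv le_rfl |>.bounded_above_of_compact_support
        (φ.hasCompactSupport.iteratedFDeriv l)
    choose Cφ hCφ using hφb
    refine ⟨fun l => (i.choose l : ℝ) * Cφ l, fun n z => ?_⟩
    have hC0 : ∀ l, 0 ≤ Cφ l := fun l => (norm_nonneg _).trans (hCφ l 0)
    by_cases hz : z ∈ ball (0 : E) 2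
    · have key := norm_iteratedFDerivWithin_smul_le (φ.contDiff.contDiffOn (n := ∞)) (hh n)
        isOpen_ball.uniqueDiffOn hz (n := i) (by exact_mod_cast le_top)
      rw [iteratedFDerivWithin_of_isOpen i isOpen_ball hz] at key
      refine key.trans (Finset.sum_le_sum fun l _ => ?_)
      rw [iteratedFDerivWithin_of_isOpen l isOpen_ball hz,
        iteratedFDerivWithin_of_isOpen (i - l) isOpen_ball hz]
      exact mul_le_mul (mul_le_mul_of_nonneg_left (hCφ l z) (Nat.cast_nonneg _))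
        (ha _ n z hz) (norm_nonneg _) (mul_nonneg (Nat.cast_nonneg _) (hC0 l))
    · rw [((hzero n z hz).iteratedFDeriv ℝ i).eq_of_nhds]
      rw [show (0 : E → V) = fun _ => 0 from rfl, iteratedFDeriv_fun_zero, Pi.zero_apply, norm_zero]
      exact Finset.sum_nonneg fun l _ =>
        mul_nonneg (mul_nonneg (Nat.cast_nonneg _) (hC0 l)) (ha0 _ n)

/-- Maps on a ball whose increments have eventually summable derivatives of each order converge,
together with their differentials, to a smooth map. -/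
theorem exists_limit {f : ℕ → E → V} (hf : ∀ n, ContDiffOn ℝ ∞ (f n) (ball 0 3))
    (hb : ∀ i : ℕ, ∃ a : ℕ → ℝ, Summable a ∧ ∀ᶠ n in atTop, ∀ z ∈ ball (0 : E) 2,
      ‖iteratedFDeriv ℝ i (fun y => f (n + 1) y - f n y) z‖ ≤ a n) :
    ∃ g : E → V, ContDiffOn ℝ ∞ g (ball 0 1) ∧ ∀ z ∈ ball (0 : E) 1,
      Tendsto (fun n => f n z) atTop (𝓝 (g z)) ∧
      Tendsto (fun n => fderiv ℝ (f n) z) atTop (𝓝 (fderiv ℝ g z)) := by
  set h : ℕ → E → V := fun n y => f (n + 1) y - f n y with hh_def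
  have hh : ∀ n, ContDiffOn ℝ ∞ (h n) (ball 0 3) := fun n => (hf (n + 1)).sub (hf n)
  have hall : ∀ i : ℕ, ∃ a : ℕ → ℝ, Summable a ∧ (∀ n, 0 ≤ a n) ∧
      ∀ n, ∀ z ∈ ball (0 : E) 2, ‖iteratedFDeriv ℝ i (h n) z‖ ≤ a n := by
    intro i
    obtain ⟨a, hs, he⟩ := hb i
    obtain ⟨n₀, hn₀⟩ := eventually_atTop.1 he
    have hbd : ∀ n, ∃ C, ∀ z ∈ ball (0 : E) 2, ‖iteratedFDeriv ℝ i (h n) z‖ ≤ C := fun n => by
      obtain ⟨C, hC⟩ := (isCompact_closedBall (0 : E) 2).exists_bound_of_continuousOn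
        (f := iteratedFDeriv ℝ i (h n)) (by
          refine ContinuousOn.mono ?_ (closedBall_subset_ball (by norm_num : (2 : ℝ) < 3))
          exact ((hh n).continuousOn_iteratedFDerivWithin (by exact_mod_cast le_top)
            isOpen_ball.uniqueDiffOn).congr fun z hz =>
            (iteratedFDerivWithin_of_isOpen i isOpen_ball hz).symm)
      exact ⟨C, fun z hz => hC z (ball_subset_closedBall hz)⟩
    choose C hC using hbd
    refine ⟨fun n => if n < n₀ then |C n| else |a n|, ?_, ?_, fun n z hz => ?_⟩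
    · refine hs.abs.congr_cofinite ?_
      rw [Nat.cofinite_eq_atTop]
      filter_upwards [eventually_ge_atTop n₀] with n hn
      simp [not_lt.2 hn]
    · intro n; dsimp only; split_ifs <;> exact abs_nonneg _
    · dsimp only; split_ifs with hn
      · exact (hC n z hz).trans (le_abs_self _)
      · exact (hn₀ n (not_lt.1 hn) z hz).trans (le_abs_self _)
  choose a has ha0 ha using hall
  let φ : ContDiffBump (0 : E) := ⟨1, 3 / 2, one_pos, by norm_num⟩
  obtain ⟨hu, hub⟩ := bump_mul φ (show (3 : ℝ) / 2 < 2 by norm_num)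
    (fun n => (hh n).mono (ball_subset_ball (by norm_num))) ha ha0
  choose Cb hCb using hub
  set u : ℕ → E → V := fun n z => φ z • h n z with hu_def
  set v : ℕ → ℕ → ℝ := fun i n => ∑ l ∈ range (i + 1), Cb i l * a (i - l) n with hv
  have hvs : ∀ i, Summable (v i) := fun i =>
    summable_sum fun l _ => (has _).mul_left _
  have hS : ContDiff ℝ ∞ fun z => ∑' n, u n z :=
    contDiff_tsum hu (fun k _ => hvs k) fun k n z _ => hCb k n z
  refine ⟨fun z => f 0 z + ∑' n, u n z,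
    ((hf 0).mono (ball_subset_ball (by norm_num))).add hS.contDiffOn, fun z hz => ?_⟩
  have hz3 : z ∈ ball (0 : E) 3 := ball_subset_ball (by norm_num) hz
  have h1 : ∀ n, u n =ᶠ[𝓝 z] h n := fun n => by
    filter_upwards [isOpen_ball.mem_nhds hz] with y hy
    simp [hu_def, φ.one_of_mem_closedBall (ball_subset_closedBall hy)]
  have hsum : Summable fun n => u n z :=
    Summable.of_norm_bounded (hvs 0) fun n => by
      rw [← norm_iteratedFDeriv_zero (𝕜 := ℝ) (f := u n)]
      exact hCb 0 n z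
  refine ⟨?_, ?_⟩
  · have e : ∀ n, f n z = f 0 z + ∑ m ∈ range n, u m z := fun n => by
      rw [Finset.sum_congr rfl fun m _ => (h1 m).eq_of_nhds, hh_def,
        Finset.sum_range_sub fun m => f m z]
      abel
    exact (tendsto_const_nhds.add hsum.hasSum.tendsto_sum_nat).congr fun n => (e n).symm
  · have hd : ∀ m, DifferentiableAt ℝ (f m) z := fun m =>
      ((hf m).differentiableOn (by simp)).differentiableAt (isOpen_ball.mem_nhds hz3)
    have hb1 : ∀ n x, ‖fderiv ℝ (u n) x‖ ≤ v 1 n := fun n x => by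
      rw [← norm_iteratedFDeriv_one]; exact hCb 1 n x
    have hgd : fderiv ℝ (fun y => f 0 y + ∑' n, u n y) z
        = fderiv ℝ (f 0) z + ∑' n, fderiv ℝ (u n) z := by
      rw [fderiv_fun_add (hd 0) (hS.differentiable (by simp) z),
        fderiv_tsum_apply (hvs 1) (fun n => (hu n).differentiable (by simp)) hb1 hsum]
    have e : ∀ n, fderiv ℝ (f n) z = fderiv ℝ (f 0) z + ∑ m ∈ range n, fderiv ℝ (u m) z :=
      fun n => by
        rw [Finset.sum_congr rfl fun m _ => (h1 m).fderiv_eq.trans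
          (fderiv_fun_sub (hd (m + 1)) (hd m)), Finset.sum_range_sub fun m => fderiv ℝ (f m) z]
        abel
    rw [hgd]
    exact (tendsto_const_nhds.add
      (Summable.of_norm_bounded (hvs 1) fun n => hb1 n z).hasSum.tendsto_sum_nat).congr
        fun n => (e n).symm

section manifold

variable {E₀ : Type*} [NormedAddCommGroup E₀] [NormedSpace ℝ E₀]
  {H M : Type*} [TopologicalSpace H] {I : ModelWithCorners ℝ E₀ H} [TopologicalSpace M]
  [ChartedSpace H M]

variable (E) (I) (M) in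
/-- Finitely many parametrised balls of radius three whose unit parts cover the manifold. -/
structure Cover where
  /-- The index type. -/
  ι : Type
  fin : Fintype ι
  /-- The parametrisations. -/
  par : ι → E → M
  smooth : ∀ j, ContMDiffOn 𝓘(ℝ, E) I ∞ (par j) (ball 0 3)
  inv : ∀ j, ∀ z ∈ ball (0 : E) 1, ∃ q : M → E, ContMDiffAt I 𝓘(ℝ, E) ∞ q (par j z) ∧
    q (par j z) = z ∧ ∀ᶠ y in 𝓝 (par j z), par j (q y) = y
  cover : ∀ p, ∃ j, ∃ z ∈ ball (0 : E) 1, par j z = p

/-- A smooth isometric limit: smooth maps whose increments are eventually summable in every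
derivative and whose pulled back forms tend to `g`. -/
theorem exists_isometric_limit (c : Cover (E := E) (I := I) (M := M)) {X : ℕ → M → V}
    (hX : ∀ n, ContMDiff I 𝓘(ℝ, V) ∞ (X n))
    (hinc : ∀ (j : c.ι) (i : ℕ), ∃ a : ℕ → ℝ, Summable a ∧ ∀ᶠ n in atTop, ∀ z ∈ ball (0 : E) 2,
      ‖iteratedFDeriv ℝ i (fun y => X (n + 1) (c.par j y) - X n (c.par j y)) z‖ ≤ a n)
    {b : V → V → ℝ} (hb : Continuous fun p : V × V => b p.1 p.2)
    {g : (p : M) → TangentSpace I p → TangentSpace I p → ℝ}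
    (hg : ∀ p v w, Tendsto (fun n => b (mfderiv I 𝓘(ℝ, V) (X n) p v)
      (mfderiv I 𝓘(ℝ, V) (X n) p w)) atTop (𝓝 (g p v w))) :
    ∃ F : M → V, ContMDiff I 𝓘(ℝ, V) ∞ F ∧ (∀ p, Tendsto (fun n => X n p) atTop (𝓝 (F p))) ∧
      ∀ p v w, b (mfderiv I 𝓘(ℝ, V) F p v) (mfderiv I 𝓘(ℝ, V) F p w) = g p v w := by
  have hf : ∀ j n, ContDiffOn ℝ ∞ (fun z => X n (c.par j z)) (ball 0 3) := fun j n =>
    ((hX n).comp_contMDiffOn (c.smooth j)).contDiffOn
  choose G hG hGlim using fun j => exists_limit (hf j) (hinc j)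
  set F : M → V := fun p => limUnder atTop fun n => X n p with hF
  have hFG : ∀ j, ∀ z ∈ ball (0 : E) 1, F (c.par j z) = G j z := fun j z hz =>
    (hGlim j z hz).1.limUnder_eq
  have loc : ∀ p, ∃ j, ∃ q : M → E, q p ∈ ball (0 : E) 1 ∧ c.par j (q p) = p ∧
      ContMDiffAt I 𝓘(ℝ, E) ∞ q p ∧ (∀ᶠ y in 𝓝 p, c.par j (q y) = y) ∧
      F =ᶠ[𝓝 p] fun y => G j (q y) := fun p => by
    obtain ⟨j, z, hz, rfl⟩ := c.cover p
    obtain ⟨q, hq, hqz, hev⟩ := c.inv j z hz
    have hball : ∀ᶠ y in 𝓝 (c.par j z), q y ∈ ball (0 : E) 1 :=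
      hq.continuousAt.preimage_mem_nhds (by rw [hqz]; exact isOpen_ball.mem_nhds hz)
    refine ⟨j, q, by rwa [hqz], by rw [hqz], hq, hev, ?_⟩
    filter_upwards [hev, hball] with y hy hyb
    rw [← hFG j _ hyb, hy]
  have hlim : ∀ p, Tendsto (fun n => X n p) atTop (𝓝 (F p)) := fun p => by
    obtain ⟨j, q, hqb, hqp, -, -, -⟩ := loc p
    have := (hGlim j _ hqb).1
    rw [← hFG j _ hqb] at this
    simpa only [hqp] using this
  have hsm : ∀ p, ContMDiffAt I 𝓘(ℝ, V) ∞ F p := fun p => by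
    obtain ⟨j, q, hqb, -, hq, -, he⟩ := loc p
    exact (((hG j).contDiffAt (isOpen_ball.mem_nhds hqb)).contMDiffAt.comp p hq).congr_of_eventuallyEq he
  refine ⟨F, hsm, hlim, fun p v w => ?_⟩
  obtain ⟨j, q, hqb, hqp, hq, hev, he⟩ := loc p
  have hq' : MDifferentiableAt I 𝓘(ℝ, E) q p := hq.mdifferentiableAt (by simp)
  have hqb3 : q p ∈ ball (0 : E) 3 := ball_subset_ball (by norm_num) hqb
  have dF : ∀ u, mfderiv I 𝓘(ℝ, V) F p u = fderiv ℝ (G j) (q p) (mfderiv I 𝓘(ℝ, E) q p u) :=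
    fun u => by
      rw [he.mfderiv_eq]
      have hd : MDifferentiableAt 𝓘(ℝ, E) 𝓘(ℝ, V) (G j) (q p) :=
        ((hG j).contDiffAt (isOpen_ball.mem_nhds hqb)).contMDiffAt.mdifferentiableAt (by simp)
      rw [show (fun y => G j (q y)) = G j ∘ q from rfl, mfderiv_comp p hd hq', mfderiv_eq_fderiv]
      rfl
  have dX : ∀ n u, mfderiv I 𝓘(ℝ, V) (X n) p u
      = fderiv ℝ (fun z => X n (c.par j z)) (q p) (mfderiv I 𝓘(ℝ, E) q p u) := fun n u => by
    have e : X n =ᶠ[𝓝 p] fun y => X n (c.par j (q y)) := by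
      filter_upwards [hev] with y hy; rw [hy]
    rw [e.mfderiv_eq]
    have hd : MDifferentiableAt 𝓘(ℝ, E) 𝓘(ℝ, V) (fun z => X n (c.par j z)) (q p) :=
      ((hf j n).contDiffAt (isOpen_ball.mem_nhds hqb3)).contMDiffAt.mdifferentiableAt (by simp)
    rw [show (fun y => X n (c.par j (q y))) = (fun z => X n (c.par j z)) ∘ q from rfl,
      mfderiv_comp p hd hq', mfderiv_eq_fderiv]
    rfl
  have ev : ∀ u, Tendsto (fun n => mfderiv I 𝓘(ℝ, V) (X n) p u) atTop
      (𝓝 (mfderiv I 𝓘(ℝ, V) F p u)) := fun u => by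
    simp only [dX, dF]
    let w : E := mfderiv I 𝓘(ℝ, E) q p u
    exact ((ContinuousLinearMap.apply ℝ V w).continuous.tendsto _).comp (hGlim j _ hqb).2
  exact tendsto_nhds_unique ((hb.tendsto _).comp ((ev v).prodMk_nhds (ev w))) (hg p v w)

omit [FiniteDimensional ℝ E] [HasContDiffBump E] [CompleteSpace V] in
/-- A smooth map inducing a positive definite form is an immersion. -/
theorem injective_of_form {F : M → V} {b : V → V → ℝ} (hb0 : b 0 0 = 0)
    {g : (p : M) → TangentSpace I p → TangentSpace I p → ℝ}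
    (hpos : ∀ p v, v ≠ 0 → 0 < g p v v)
    (hg : ∀ p v w, b (mfderiv I 𝓘(ℝ, V) F p v) (mfderiv I 𝓘(ℝ, V) F p w) = g p v w) (p : M) :
    Function.Injective (mfderiv I 𝓘(ℝ, V) F p) := by
  intro v w h
  by_contra hvw
  have h0 : mfderiv I 𝓘(ℝ, V) F p (v - w) = 0 := by rw [map_sub, h, sub_self]
  have h1 := hg p (v - w) (v - w)
  rw [h0] at h1
  exact absurd (hb0.symm.trans h1) (ne_of_lt (hpos p _ (sub_ne_zero.2 hvw)))

end manifold

end Vale.Agent.P205.Iter
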