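import Mathlib

/-!
High order mollifiers: `S = 1 - (1 - T)^q` for a fixed bump convolution `T` at scale `h`.
-/

noncomputable section

open MeasureTheory Set Metric Function Finset ContinuousLinearMap
open scoped ContDiff Convolution

namespace Vale.Agent.P205.Iter

variable {E : Type} [NormedAddCommGroup E] [NormedSpace ℝ E] [FiniteDimensional ℝ E]
  [MeasureSpace E] [BorelSpace E] [Measure.IsAddHaarMeasure (volume : Measure E)]

/-- The fixed kernel. -/
def bump0 : ContDiffBump (0 : E) := ⟨1 / 2, 1, by norm_num, by norm_num⟩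

/-- The normalised kernel. -/
def ker0 : E → ℝ := (bump0 (E := E)).normed volume

theorem ker0_smooth : ContDiff ℝ ∞ (ker0 (E := E)) := ContDiffBump.contDiff_normed _

theorem ker0_compact : HasCompactSupport (ker0 (E := E)) := ContDiffBump.hasCompactSupport_normed _

theorem ker0_nonneg (y : E) : 0 ≤ ker0 y := ContDiffBump.nonneg_normed _ y

theorem integral_ker0 : ∫ y : E, ker0 y = 1 := ContDiffBump.integral_normed _

theorem integrable_ker0 : Integrable (ker0 (E := E)) :=
  ker0_smooth.continuous.integrable_of_hasCompactSupport ker0_compact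

theorem norm_le_one_of_ker0 {y : E} (hy : ker0 y ≠ 0) : ‖y‖ ≤ 1 := by
  have h : y ∈ support (ker0 (E := E)) := hy
  rw [ker0, ContDiffBump.support_normed_eq] at h
  exact (mem_ball_zero_iff.1 h).le

/-- Smooth maps with compact support. -/
def Test {F : Type} [NormedAddCommGroup F] [NormedSpace ℝ F] (g : E → F) : Prop :=
  ContDiff ℝ ∞ g ∧ HasCompactSupport g

/-- The `i`-th derivative is bounded by `C`. -/
def Bdd {F : Type} [NormedAddCommGroup F] [NormedSpace ℝ F] (i : ℕ) (g : E → F) (C : ℝ) : Prop :=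
  ∀ x, ‖iteratedFDeriv ℝ i g x‖ ≤ C

section basic

variable {F : Type} [NormedAddCommGroup F] [NormedSpace ℝ F] [CompleteSpace F] {g : E → F}

/-- Unit scale smoothing. -/
def T1 (g : E → F) : E → F := ker0 ⋆[lsmul ℝ ℝ, volume] g

omit [CompleteSpace F] in
theorem T1_test (hg : Test g) : Test (T1 g) :=
  ⟨ker0_compact.contDiff_convolution_left _ ker0_smooth hg.1.continuous.locallyIntegrable,
    HasCompactSupport.convolution _ ker0_compact hg.2⟩

omit [MeasureSpace E] [BorelSpace E] [Measure.IsAddHaarMeasure (volume : Measure E)] [FiniteDimensional ℝ E] [CompleteSpace F] in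
theorem Test.fderiv_test (hg : Test g) : Test (fderiv ℝ g) :=
  ⟨hg.1.fderiv_right (by simp), hg.2.fderiv ℝ⟩

omit [CompleteSpace F] [FiniteDimensional ℝ E] [MeasureSpace E] [BorelSpace E] [Measure.IsAddHaarMeasure (volume : Measure E)] in
theorem precompR_lsmul :
    (lsmul ℝ ℝ : ℝ →L[ℝ] F →L[ℝ] F).precompR E =
      (lsmul ℝ ℝ : ℝ →L[ℝ] (E →L[ℝ] F) →L[ℝ] (E →L[ℝ] F)) := by
  ext r A
  simp [precompR, compL_apply, lsmul_apply]

omit [CompleteSpace F] in
theorem fderiv_T1 (hg : Test g) : fderiv ℝ (T1 g) = T1 (fderiv ℝ g) := by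
  funext x
  rw [T1, (hg.2.hasFDerivAt_convolution_right (lsmul ℝ ℝ) integrable_ker0.locallyIntegrable
    (hg.1.of_le (by simp)) x).fderiv, precompR_lsmul]
  rfl

omit [CompleteSpace F] in
theorem norm_T1_le {C : ℝ} (hC : ∀ x, ‖g x‖ ≤ C) (x : E) : ‖T1 g x‖ ≤ C := by
  rw [T1, convolution_lsmul]
  refine (norm_integral_le_of_norm_le (integrable_ker0.mul_const C)
    (ae_of_all _ fun t => ?_)).trans ?_
  · rw [norm_smul, Real.norm_of_nonneg (ker0_nonneg t)]
    exact mul_le_mul_of_nonneg_left (hC _) (ker0_nonneg t)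
  · rw [integral_mul_const, integral_ker0, one_mul]

theorem norm_sub_T1_le (hg : Test g) {C : ℝ} (hC : ∀ x, ‖fderiv ℝ g x‖ ≤ C) (x : E) :
    ‖g x - T1 g x‖ ≤ C := by
  have hint : Integrable fun t => ker0 t • g (x - t) :=
    ((ker0_smooth (E := E)).continuous.smul
      (hg.1.continuous.comp (continuous_const.sub continuous_id))).integrable_of_hasCompactSupport
      ker0_compact.smul_right
  rw [T1, convolution_lsmul,
    show g x = ∫ t : E, ker0 t • g x by rw [integral_smul_const, integral_ker0, one_smul],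
    ← integral_sub (integrable_ker0.smul_const _) hint]
  refine (norm_integral_le_of_norm_le (integrable_ker0.mul_const C)
    (ae_of_all _ fun t => ?_)).trans ?_
  · rw [← smul_sub, norm_smul, Real.norm_of_nonneg (ker0_nonneg t)]
    by_cases ht : ker0 t = 0
    · simp [ht]
    refine mul_le_mul_of_nonneg_left ?_ (ker0_nonneg t)
    have h := Convex.norm_image_sub_le_of_norm_fderiv_le
      (fun z _ => (hg.1.differentiable (by simp)) z) (fun z _ => hC z) convex_univ
      (mem_univ (x - t)) (mem_univ x)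
    refine h.trans ?_
    rw [sub_sub_cancel]
    exact mul_le_of_le_one_right ((norm_nonneg _).trans (hC 0)) (norm_le_one_of_ker0 ht)
  · rw [integral_mul_const, integral_ker0, one_mul]

end basic

/-- Smoothing does not increase derivative bounds. -/
theorem bdd_T1 : ∀ (i : ℕ) {F : Type} [NormedAddCommGroup F] [NormedSpace ℝ F] [CompleteSpace F]
    {g : E → F}, Test g → ∀ {C : ℝ}, Bdd i g C → Bdd i (T1 g) C
  | 0, F, _, _, _, g, _, C, hC => fun x => by
    rw [norm_iteratedFDeriv_zero]
    exact norm_T1_le (fun y => by simpa using hC y) x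
  | i + 1, F, _, _, _, g, hg, C, hC => fun x => by
    rw [← norm_iteratedFDeriv_fderiv, fderiv_T1 hg]
    exact bdd_T1 i hg.fderiv_test (fun y => by rw [norm_iteratedFDeriv_fderiv]; exact hC y) x

/-- Smoothing changes a function by at most one derivative. -/
theorem bdd_sub_T1 : ∀ (i : ℕ) {F : Type} [NormedAddCommGroup F] [NormedSpace ℝ F] [CompleteSpace F]
    {g : E → F}, Test g → ∀ {C : ℝ}, Bdd (i + 1) g C → Bdd i (fun x => g x - T1 g x) C
  | 0, F, _, _, _, g, hg, C, hC => fun x => by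
    rw [norm_iteratedFDeriv_zero]
    exact norm_sub_T1_le hg
      (fun y => by rw [← norm_iteratedFDeriv_one]; exact hC y) x
  | i + 1, F, _, _, _, g, hg, C, hC => fun x => by
    rw [← norm_iteratedFDeriv_fderiv]
    have e : fderiv ℝ (fun x => g x - T1 g x) = fun x => fderiv ℝ g x - T1 (fderiv ℝ g) x := by
      funext y
      rw [fderiv_fun_sub (hg.1.differentiable (by simp) y)
        ((T1_test hg).1.differentiable (by simp) y), fderiv_T1 hg]
    rw [e]
    exact bdd_sub_T1 i hg.fderiv_test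
      (fun y => by rw [norm_iteratedFDeriv_fderiv]; exact hC y) x

/-- Derivatives of a smoothing cost only the size of the function. -/
theorem bdd_conv : ∀ (i : ℕ) {W V F : Type} [NormedAddCommGroup W] [NormedSpace ℝ W]
    [NormedAddCommGroup V] [NormedSpace ℝ V] [NormedAddCommGroup F] [NormedSpace ℝ F]
    [CompleteSpace F] (L : W →L[ℝ] V →L[ℝ] F) {ψ : E → W} {g : E → V},
    Test ψ → Continuous g → ∀ {C : ℝ}, (∀ x, ‖g x‖ ≤ C) →
      Bdd i (ψ ⋆[L, volume] g) (‖L‖ * (∫ y, ‖iteratedFDeriv ℝ i ψ y‖) * C)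
  | 0, W, V, F, _, _, _, _, _, _, _, L, ψ, g, hψ, hg, C, hC => fun x => by
    rw [norm_iteratedFDeriv_zero, convolution_def]
    simp only [norm_iteratedFDeriv_zero]
    rw [mul_assoc, ← integral_mul_const, ← integral_const_mul]
    refine norm_integral_le_of_norm_le
      (((hψ.1.continuous.norm.integrable_of_hasCompactSupport hψ.2.norm).mul_const C).const_mul _)
      (ae_of_all _ fun t => ?_)
    calc ‖L (ψ t) (g (x - t))‖ ≤ ‖L‖ * ‖ψ t‖ * ‖g (x - t)‖ := L.le_opNorm₂ _ _
      _ ≤ ‖L‖ * (‖ψ t‖ * C) := by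
          rw [← mul_assoc]; exact mul_le_mul_of_nonneg_left (hC _) (by positivity)
  | i + 1, W, V, F, _, _, _, _, _, _, _, L, ψ, g, hψ, hg, C, hC => fun x => by
    have e : fderiv ℝ (ψ ⋆[L, volume] g) = fderiv ℝ ψ ⋆[L.precompL E, volume] g := funext fun y =>
      (hψ.2.hasFDerivAt_convolution_left L (hψ.1.of_le (by simp)) hg.locallyIntegrable y).fderiv
    rw [← norm_iteratedFDeriv_fderiv, e]
    refine (bdd_conv i (L.precompL E) hψ.fderiv_test hg hC x).trans ?_
    simp only [norm_iteratedFDeriv_fderiv]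
    refine mul_le_mul_of_nonneg_right (mul_le_mul_of_nonneg_right (L.norm_precompL_le (Eₗ := E))
      (integral_nonneg fun y => norm_nonneg _)) ((norm_nonneg _).trans (hC 0))

section scaled

variable {F : Type} [NormedAddCommGroup F] [NormedSpace ℝ F] [CompleteSpace F]

/-- Smoothing at scale `h`. -/
def Th (h : ℝ) (g : E → F) : E → F := fun x => T1 (fun z => g (h • z)) (h⁻¹ • x)

omit [CompleteSpace F] [MeasureSpace E] [BorelSpace E] [Measure.IsAddHaarMeasure (volume : Measure E)] [FiniteDimensional ℝ E] in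
theorem Test.scale {g : E → F} (hg : Test g) {c : ℝ} (hc : c ≠ 0) : Test fun z => g (c • z) :=
  ⟨hg.1.comp (contDiff_id.const_smul c), hg.2.comp_smul hc⟩

omit [CompleteSpace F] [MeasureSpace E] [BorelSpace E] [Measure.IsAddHaarMeasure (volume : Measure E)] [FiniteDimensional ℝ E] in
theorem bdd_scale {g : E → F} (hg : ContDiff ℝ ∞ g) {i : ℕ} {C : ℝ} (hC : Bdd i g C) (c : ℝ) :
    Bdd i (fun z => g (c • z)) (|c| ^ i * C) := fun x => by
  have e : (fun z => g (c • z)) = g ∘ (c • ContinuousLinearMap.id ℝ E) := by funext z; simp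
  rw [e, ContinuousLinearMap.iteratedFDeriv_comp_right _ hg _ (by exact_mod_cast le_top)]
  refine (ContinuousMultilinearMap.norm_compContinuousLinearMap_le _ _).trans ?_
  rw [Finset.prod_const, card_univ, Fintype.card_fin, mul_comm]
  refine mul_le_mul (pow_le_pow_left₀ (norm_nonneg _) ?_ i) (hC _) (norm_nonneg _) (by positivity)
  rw [norm_smul, Real.norm_eq_abs]
  exact mul_le_of_le_one_right (abs_nonneg c) ContinuousLinearMap.norm_id_le

omit [CompleteSpace F] in
theorem Th_test {g : E → F} (hg : Test g) {h : ℝ} (hh : h ≠ 0) : Test (Th h g) :=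
  (T1_test (hg.scale hh)).scale (inv_ne_zero hh)

theorem bdd_Th {g : E → F} (hg : Test g) {h : ℝ} (hh : 0 < h) {i : ℕ} {C : ℝ} (hC : Bdd i g C) :
    Bdd i (Th h g) C := by
  intro x
  refine (bdd_scale (T1_test (hg.scale hh.ne')).1
    (bdd_T1 i (hg.scale hh.ne') (bdd_scale hg.1 hC h)) h⁻¹ x).trans (le_of_eq ?_)
  rw [abs_inv, abs_of_pos hh, ← mul_assoc, ← mul_pow, inv_mul_cancel₀ hh.ne', one_pow, one_mul]

theorem bdd_sub_Th {g : E → F} (hg : Test g) {h : ℝ} (hh : 0 < h) {i : ℕ} {C : ℝ}
    (hC : Bdd (i + 1) g C) : Bdd i (fun x => g x - Th h g x) (h * C) := by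
  have hs := hg.scale hh.ne'
  have e : (fun x => g x - Th h g x) =
      fun x => (fun z => g (h • z) - T1 (fun y => g (h • y)) z) (h⁻¹ • x) := by
    funext x; simp [Th, smul_smul, mul_inv_cancel₀ hh.ne']
  intro x
  rw [e]
  refine (bdd_scale (hs.1.sub (T1_test hs).1) (bdd_sub_T1 i hs (bdd_scale hg.1 hC h)) h⁻¹ x).trans
    (le_of_eq ?_)
  rw [abs_inv, abs_of_pos hh, pow_succ, ← mul_assoc, ← mul_assoc, ← mul_pow,
    inv_mul_cancel₀ hh.ne', one_pow, one_mul]

/-- The cost of a derivative at unit scale. -/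
def kerCost (i : ℕ) : ℝ :=
  ‖(lsmul ℝ ℝ : ℝ →L[ℝ] F →L[ℝ] F)‖ * ∫ y : E, ‖iteratedFDeriv ℝ i (ker0 (E := E)) y‖

theorem bdd_Th_size {g : E → F} (hg : Test g) {h : ℝ} (hh : 0 < h) (i : ℕ) {C : ℝ}
    (hC : ∀ x, ‖g x‖ ≤ C) : Bdd i (Th h g) (h⁻¹ ^ i * (kerCost (E := E) (F := F) i * C)) := by
  intro x
  have hs := hg.scale hh.ne'
  refine (bdd_scale (T1_test hs).1 (bdd_conv i (lsmul ℝ ℝ) ⟨ker0_smooth, ker0_compact⟩
    hs.1.continuous (fun z => hC _)) h⁻¹ x).trans (le_of_eq ?_)
  rw [abs_inv, abs_of_pos hh, kerCost]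

/-- The defect after `q` smoothings. -/
def defect (h : ℝ) (g : E → F) : ℕ → E → F
  | 0 => g
  | q + 1 => fun x => defect h g q x - Th h (defect h g q) x

/-- The mollifier of order `q`. -/
def smoothing (h : ℝ) (q : ℕ) (g : E → F) : E → F := fun x => g x - defect h g q x

omit [CompleteSpace F] in
theorem smoothing_succ (h : ℝ) (q : ℕ) (g : E → F) (x : E) :
    smoothing h (q + 1) g x = smoothing h q g x + Th h (defect h g q) x := by
  simp [smoothing, defect]; abel

theorem defect_test {g : E → F} (hg : Test g) {h : ℝ} (hh : 0 < h) :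
    ∀ q, Test (defect h g q)
  | 0 => hg
  | q + 1 => by
    have hq := defect_test hg hh q
    exact ⟨hq.1.sub (Th_test hq hh.ne').1, hq.2.sub (Th_test hq hh.ne').2⟩

/-- The mollifier is close: `q` derivatives buy a factor `h ^ q`. -/
theorem bdd_defect : ∀ (q : ℕ) {g : E → F}, Test g → ∀ {h : ℝ}, 0 < h → ∀ {i : ℕ} {C : ℝ},
    Bdd (i + q) g C → Bdd i (defect h g q) (h ^ q * C)
  | 0, g, _, h, _, i, C, hC => by simpa [defect] using hC
  | q + 1, g, hg, h, hh, i, C, hC => by
    have h1 := bdd_defect q hg hh (i := i + 1) (C := C) (by rwa [add_right_comm, add_assoc])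
    intro x
    refine (bdd_sub_Th (defect_test hg hh q) hh h1 x).trans (le_of_eq ?_)
    rw [pow_succ]; ring

theorem norm_defect_le {g : E → F} (hg : Test g) {h : ℝ} (hh : 0 < h) {C : ℝ}
    (hC : ∀ x, ‖g x‖ ≤ C) : ∀ q x, ‖defect h g q x‖ ≤ 2 ^ q * C
  | 0, x => by simpa [defect] using hC x
  | q + 1, x => by
    have hb : Bdd 0 (defect h g q) (2 ^ q * C) := fun y => by
      rw [norm_iteratedFDeriv_zero]; exact norm_defect_le hg hh hC q y
    have h2 : ‖Th h (defect h g q) x‖ ≤ 2 ^ q * C := by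
      rw [← norm_iteratedFDeriv_zero (𝕜 := ℝ) (f := Th h (defect h g q))]
      exact bdd_Th (defect_test hg hh q) hh hb x
    refine (norm_sub_le _ _).trans ((add_le_add (norm_defect_le hg hh hC q x) h2).trans (le_of_eq ?_))
    ring

theorem smoothing_test {g : E → F} (hg : Test g) {h : ℝ} (hh : 0 < h) (q : ℕ) :
    Test (smoothing h q g) :=
  ⟨hg.1.sub (defect_test hg hh q).1, hg.2.sub (defect_test hg hh q).2⟩

/-- The mollifier has universal derivative bounds. -/
theorem bdd_smoothing {g : E → F} (hg : Test g) {h : ℝ} (hh : 0 < h) {C : ℝ}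
    (hC : ∀ x, ‖g x‖ ≤ C) (i : ℕ) :
    ∀ q, Bdd i (smoothing h q g) (2 ^ q * (h⁻¹ ^ i * (kerCost (E := E) (F := F) i * C)))
  | 0 => fun x => by
    have e : smoothing h 0 g = fun _ => (0 : F) := by funext y; simp [smoothing, defect]
    rw [e, iteratedFDeriv_fun_zero, Pi.zero_apply, norm_zero]
    have : 0 ≤ kerCost (E := E) (F := F) i := mul_nonneg (norm_nonneg _)
      (integral_nonneg fun y => norm_nonneg _)
    have := (norm_nonneg _).trans (hC 0)
    positivity
  | q + 1 => fun x => by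
    have e : smoothing h (q + 1) g = fun y => smoothing h q g y + Th h (defect h g q) y :=
      funext (smoothing_succ h q g)
    have hq := defect_test hg hh q
    have h1 := bdd_smoothing hg hh hC i q x
    have h2 := bdd_Th_size hq hh i (norm_defect_le hg hh hC q) x
    rw [e, fun_iteratedFDeriv_add ((smoothing_test hg hh q).1.of_le (by exact_mod_cast le_top))
      ((Th_test hq hh.ne').1.of_le (by exact_mod_cast le_top))]
    refine (norm_add_le _ _).trans ((add_le_add h1 h2).trans (le_of_eq ?_))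
    rw [pow_succ]; ring

/-- The mollifier error. -/
theorem bdd_sub_smoothing {g : E → F} (hg : Test g) {h : ℝ} (hh : 0 < h) {i q : ℕ} {C : ℝ}
    (hC : Bdd (i + q) g C) : Bdd i (fun x => g x - smoothing h q g x) (h ^ q * C) := by
  have e : (fun x => g x - smoothing h q g x) = defect h g q := by funext x; simp [smoothing]
  rw [e]
  exact bdd_defect q hg hh hC

end scaled

end Vale.Agent.P205.Iter
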