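import Vale.Agent.P205.Iter.Spec

/-!
Smoothness, bounds and compatibility of assembled tensors; transfer of bounds between charts.
-/

noncomputable section

set_option maxSynthPendingDepth 3

open Set Filter Metric Finset Function
open scoped Topology ContDiff Manifold

namespace Vale.Agent.P205.Iter

section algebra

variable {E : Type} [NormedAddCommGroup E] [NormedSpace ℝ E]

/-- Pulling back a form by a linear map, as an operator. -/
def pullOp (D : E →L[ℝ] E) : Bil E →L[ℝ] Bil E :=
  (ContinuousLinearMap.flipₗᵢ ℝ E E ℝ).toContinuousLinearEquiv.toContinuousLinearMap.comp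
    (((ContinuousLinearMap.compL ℝ E E (E →L[ℝ] ℝ)).flip D).comp
      ((ContinuousLinearMap.flipₗᵢ ℝ E E ℝ).toContinuousLinearEquiv.toContinuousLinearMap.comp
        ((ContinuousLinearMap.compL ℝ E E (E →L[ℝ] ℝ)).flip D)))

theorem pullOp_apply (D : E →L[ℝ] E) (w : Bil E) : pullOp D w = w.bilinearComp D D := by
  ext u v
  simp [pullOp]

theorem pullOp_smooth : ContDiff ℝ ∞ (pullOp : (E →L[ℝ] E) → Bil E →L[ℝ] Bil E) := by
  have h : ContDiff ℝ ∞ fun D : E →L[ℝ] E =>
      (ContinuousLinearMap.compL ℝ E E (E →L[ℝ] ℝ)).flip D :=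
    ContinuousLinearMap.contDiff _
  exact contDiff_const.clm_comp (h.clm_comp (contDiff_const.clm_comp h))

end algebra

variable {E : Type} [NormedAddCommGroup E] [NormedSpace ℝ E]
  {E₀ : Type*} [NormedAddCommGroup E₀] [NormedSpace ℝ E₀]
  {H : Type*} [TopologicalSpace H] {I : ModelWithCorners ℝ E₀ H}
  {M : Type} [TopologicalSpace M] [ChartedSpace H M]

namespace Atlas

variable (A : Atlas (E := E) (I := I) (M := M))

open Classical in
/-- Assembled pieces are compatible. -/
theorem push_compat (e : A.ι → E → Bil E) (j k : A.ι) {z : E} (hz : z ∈ A.ov j k) :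
    A.push e k z = (A.push e j (A.trans j k z)).bilinearComp (fderiv ℝ (A.trans j k) z)
      (fderiv ℝ (A.trans j k) z) := by
  have hy : A.trans j k z ∈ ball (0 : E) 3 := A.trans_mem hz
  have hp : A.par j (A.trans j k z) = A.par k z := A.par_inv j _ hz.2
  simp only [push]
  rw [show (∑ i, if A.par j (A.trans j k z) ∈ A.src i then
      (e i (A.trans i j (A.trans j k z))).bilinearComp (fderiv ℝ (A.trans i j) (A.trans j k z))
        (fderiv ℝ (A.trans i j) (A.trans j k z)) else 0).bilinearComp (fderiv ℝ (A.trans j k) z)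
        (fderiv ℝ (A.trans j k) z) = ∑ i, pullOp (fderiv ℝ (A.trans j k) z)
      (if A.par j (A.trans j k z) ∈ A.src i then
      (e i (A.trans i j (A.trans j k z))).bilinearComp (fderiv ℝ (A.trans i j) (A.trans j k z))
        (fderiv ℝ (A.trans i j) (A.trans j k z)) else 0) by rw [← pullOp_apply, map_sum]]
  refine Finset.sum_congr rfl fun i _ => ?_
  rw [hp]
  split_ifs with h
  · have hij : A.trans j k z ∈ A.ov i j := ⟨hy, by rw [Set.mem_preimage, hp]; exact h⟩
    have hev : A.trans i j ∘ A.trans j k =ᶠ[𝓝 z] A.trans i k := by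
      filter_upwards [(A.isOpen_ov j k).mem_nhds hz] with y hy
      simp only [comp_apply, trans, A.par_inv j _ hy.2]
    have hd : fderiv ℝ (A.trans i k) z =
        (fderiv ℝ (A.trans i j) (A.trans j k z)).comp (fderiv ℝ (A.trans j k) z) := by
      rw [← hev.fderiv_eq, fderiv_comp z
        (((A.trans_smooth i j).differentiableOn (by simp)).differentiableAt
          ((A.isOpen_ov i j).mem_nhds hij))
        (((A.trans_smooth j k).differentiableOn (by simp)).differentiableAt
          ((A.isOpen_ov j k).mem_nhds hz))]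
    have he : A.trans i j (A.trans j k z) = A.trans i k z := by
      simp only [trans] at hp ⊢; rw [hp]
    rw [pullOp_apply, he, hd]
    rfl
  · simp

theorem isClosed_image (j : A.ι) [T2Space M] [FiniteDimensional ℝ E] {r : ℝ} (hr : r < 3) :
    IsClosed (A.par j '' closedBall 0 r) :=
  ((isCompact_closedBall 0 r).image_of_continuousOn ((A.par_smooth j).continuousOn.mono
    (closedBall_subset_ball hr))).isClosed

/-- The points of the ball of radius two of `k` seen in the closed ball of radius two of `j`. -/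
def core (j k : A.ι) : Set E := closedBall 0 2 ∩ A.par k ⁻¹' (A.par j '' closedBall 0 2)

theorem core_subset (j k : A.ι) : A.core j k ⊆ A.ov j k := by
  rintro y ⟨hy, w, hw, hwy⟩
  refine ⟨closedBall_subset_ball (by norm_num) hy, ?_⟩
  rw [Set.mem_preimage, ← hwy]
  exact A.par_mem j (closedBall_subset_ball (by norm_num) hw)

theorem trans_of_image {j k : A.ι} {z w : E} (hw : w ∈ ball (0 : E) 3)
    (h : A.par j w = A.par k z) : A.trans j k z = w := by
  rw [trans, ← h, A.inv_par j w hw]

variable [FiniteDimensional ℝ E] [T2Space M]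

theorem core_compact (j k : A.ι) : IsCompact (A.core j k) :=
  (isCompact_closedBall (0 : E) 2).of_isClosed_subset
    (((A.par_smooth k).continuousOn.mono
      (closedBall_subset_ball (by norm_num))).preimage_isClosed_of_isClosed
        isClosed_closedBall (A.isClosed_image j (by norm_num))) inter_subset_left

/-- Derivatives of the changes of parametrisations are bounded on the cores. -/
theorem trans_bound (i : ℕ) : ∃ D : ℝ, 1 ≤ D ∧ ∀ j k : A.ι, ∀ z ∈ A.core j k, ∀ l ≤ i,
    ‖iteratedFDerivWithin ℝ l (A.trans j k) (A.ov j k) z‖ ≤ D := by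
  have hbd : ∀ j k : A.ι, ∀ l : ℕ, ∃ B, ∀ y ∈ A.core j k,
      ‖iteratedFDerivWithin ℝ l (A.trans j k) (A.ov j k) y‖ ≤ B := fun j k l =>
    (A.core_compact j k).exists_bound_of_continuousOn
      (((A.trans_smooth j k).continuousOn_iteratedFDerivWithin (by exact_mod_cast le_top)
        (A.isOpen_ov j k).uniqueDiffOn).mono (A.core_subset j k))
  choose B hB using hbd
  refine ⟨1 + ∑ j, ∑ k, cap (B j k) i, le_add_of_nonneg_right (Finset.sum_nonneg fun j _ =>
    Finset.sum_nonneg fun k _ => cap_nonneg _ _),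
    fun j k z hz l hl => ?_⟩
  have h2 : cap (B j k) i ≤ ∑ k, cap (B j k) i :=
    single_le_sum (f := fun k => cap (B j k) i) (fun k _ => cap_nonneg _ _) (Finset.mem_univ k)
  have h3 : ∑ k, cap (B j k) i ≤ ∑ j, ∑ k, cap (B j k) i :=
    single_le_sum (f := fun j => ∑ k, cap (B j k) i)
      (fun j _ => Finset.sum_nonneg fun k _ => cap_nonneg _ _) (Finset.mem_univ j)
  linarith [hB j k l z hz, le_cap (B j k) hl]

/-- Bounds of a map in one chart pass to another chart. -/
theorem transfer (i : ℕ) : ∃ c : ℝ, 0 ≤ c ∧ ∀ {W : Type} [NormedAddCommGroup W] [NormedSpace ℝ W]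
    (j k : A.ι) (f : E → W) (U : Set E), IsOpen U → ContDiffOn ℝ ∞ f U → ∀ z ∈ A.core j k,
    A.trans j k z ∈ U → ∀ C : ℝ, (∀ l ≤ i, ‖iteratedFDeriv ℝ l f (A.trans j k z)‖ ≤ C) →
      ‖iteratedFDeriv ℝ i (fun y => f (A.trans j k y)) z‖ ≤ c * C := by
  obtain ⟨D, hD1, hD⟩ := A.trans_bound i
  refine ⟨(i.factorial : ℝ) * D ^ i, mul_nonneg (Nat.cast_nonneg _)
    (pow_nonneg (zero_le_one.trans hD1) i),
    fun {W} _ _ j k f U hU hf z hz hzU C hC => ?_⟩
  set O : Set E := A.ov j k ∩ A.trans j k ⁻¹' U with hO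
  have hOo : IsOpen O :=
    (A.trans_smooth j k).continuousOn.isOpen_inter_preimage (A.isOpen_ov j k) hU
  have hzO : z ∈ O := ⟨A.core_subset j k hz, hzU⟩
  rw [← iteratedFDerivWithin_of_isOpen i hOo hzO]
  refine (norm_iteratedFDerivWithin_comp_le (N := ∞) (g := f) (f := A.trans j k) (t := U) hf
    ((A.trans_smooth j k).mono inter_subset_left) (by exact_mod_cast le_top) hU.uniqueDiffOn
    hOo.uniqueDiffOn (fun y hy => hy.2) hzO (C := C) (D := D)
    (fun l hl => by rw [iteratedFDerivWithin_of_isOpen l hU hzU]; exact hC l hl)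
    fun l h1 h2 => ?_).trans (le_of_eq (by ring))
  rw [iteratedFDerivWithin_of_isOpen l hOo hzO,
    ← iteratedFDerivWithin_of_isOpen l (A.isOpen_ov j k) hzO.1]
  exact (hD j k z hz l h2).trans (le_self_pow₀ hD1 (by omega))

open Classical in
/-- Assembled pieces are smooth. -/
theorem push_smooth {e : A.ι → E → Bil E} (he : ∀ j, ContDiff ℝ ∞ (e j))
    (hs : ∀ j, support (e j) ⊆ closedBall 0 2) (k : A.ι) :
    ContDiffOn ℝ ∞ (A.push e k) (ball 0 3) := by
  refine ContDiffOn.sum fun j _ => fun z hz => ContDiffAt.contDiffWithinAt ?_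
  by_cases h : A.par k z ∈ A.src j
  · have hz' : z ∈ A.ov j k := ⟨hz, h⟩
    have hn := (A.isOpen_ov j k).mem_nhds hz'
    have hT : ContDiffAt ℝ ∞ (A.trans j k) z := (A.trans_smooth j k).contDiffAt hn
    have hd : ContDiffAt ℝ ∞ (fun y => pullOp (fderiv ℝ (A.trans j k) y)) z :=
      pullOp_smooth.contDiffAt.comp z (hT.fderiv_right (by simp))
    refine (hd.clm_apply ((he j).contDiffAt.comp z hT)).congr_of_eventuallyEq ?_
    filter_upwards [hn] with y hy
    simp only [comp_apply]
    rw [if_pos (show A.par k y ∈ A.src j from hy.2), pullOp_apply]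
  · refine (contDiffAt_const (c := (0 : Bil E))).congr_of_eventuallyEq ?_
    have hP : A.par k z ∉ A.par j '' closedBall 0 2 := fun ⟨w, hw, hwz⟩ =>
      h (hwz ▸ A.par_mem j (closedBall_subset_ball (by norm_num) hw))
    filter_upwards [((A.par_smooth k).continuousOn.continuousAt
      (isOpen_ball.mem_nhds hz)).preimage_mem_nhds
        ((A.isClosed_image j (by norm_num)).isOpen_compl.mem_nhds hP)] with y hy
    split_ifs with hy2
    · have : e j (A.trans j k y) = 0 := notMem_support.1 fun h0 =>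
        hy ⟨_, hs j h0, A.par_inv j _ hy2⟩
      simp [this]
    · rfl

open Classical in
/-- Assembling costs a constant in each order. -/
theorem push_deriv (i : ℕ) : ∃ c : ℝ, 0 ≤ c ∧ ∀ e : A.ι → E → Bil E, (∀ j, ContDiff ℝ ∞ (e j)) →
    (∀ j, support (e j) ⊆ closedBall 0 2) → ∀ C : ℝ, 0 ≤ C →
    (∀ l ≤ i, ∀ j y, ‖iteratedFDeriv ℝ l (e j) y‖ ≤ C) →
      ∀ k, ∀ z ∈ ball (0 : E) 2, ‖iteratedFDeriv ℝ i (A.push e k) z‖ ≤ c * C := by
  choose ct hct0 hct using fun l => A.transfer l
  have hbd : ∀ j k : A.ι, ∀ l : ℕ, ∃ B, ∀ y ∈ A.core j k,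
      ‖iteratedFDerivWithin ℝ l (fun y => pullOp (fderiv ℝ (A.trans j k) y)) (A.ov j k) y‖ ≤ B :=
    fun j k l => (A.core_compact j k).exists_bound_of_continuousOn
      (((pullOp_smooth.comp_contDiffOn ((A.trans_smooth j k).fderiv_of_isOpen (A.isOpen_ov j k)
        (by simp))).continuousOn_iteratedFDerivWithin (by exact_mod_cast le_top)
        (A.isOpen_ov j k).uniqueDiffOn).mono (A.core_subset j k))
  choose B hB using hbd
  refine ⟨∑ k, ∑ j, ∑ l ∈ range (i + 1), (i.choose l : ℝ) * |B j k l| * ct (i - l),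
    Finset.sum_nonneg fun k _ => Finset.sum_nonneg fun j _ => Finset.sum_nonneg fun l _ =>
      mul_nonneg (by positivity) (hct0 _), fun e he hs C hC0 hC k z hz => ?_⟩
  have hz3 : z ∈ ball (0 : E) 3 := ball_subset_ball (by norm_num) hz
  set term : A.ι → E → Bil E := fun j y => if A.par k y ∈ A.src j then
    (e j (A.trans j k y)).bilinearComp (fderiv ℝ (A.trans j k) y) (fderiv ℝ (A.trans j k) y)
    else 0 with hterm
  have hev : ∀ j, z ∈ A.core j k →
      term j =ᶠ[𝓝 z] fun y => pullOp (fderiv ℝ (A.trans j k) y) (e j (A.trans j k y)) := fun j hj => by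
    filter_upwards [(A.isOpen_ov j k).mem_nhds (A.core_subset j k hj)] with y hy
    simp only [hterm]
    rw [if_pos (show A.par k y ∈ A.src j from hy.2), pullOp_apply]
  have hzero : ∀ j, z ∉ A.core j k → term j =ᶠ[𝓝 z] fun _ => 0 := fun j hj => by
    have hP : A.par k z ∉ A.par j '' closedBall 0 2 := fun h =>
      hj ⟨ball_subset_closedBall hz, h⟩
    filter_upwards [((A.par_smooth k).continuousOn.continuousAt
      (isOpen_ball.mem_nhds hz3)).preimage_mem_nhds
        ((A.isClosed_image j (by norm_num)).isOpen_compl.mem_nhds hP)] with y hy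
    simp only [hterm]
    split_ifs with hy2
    · have : e j (A.trans j k y) = 0 := notMem_support.1 fun h0 =>
        hy ⟨_, hs j h0, A.par_inv j _ hy2⟩
      simp [this]
    · rfl
  have hsm : ∀ j, z ∈ A.core j k → ContDiffAt ℝ i
      (fun y => pullOp (fderiv ℝ (A.trans j k) y) (e j (A.trans j k y))) z := fun j hj => by
    have hn := (A.isOpen_ov j k).mem_nhds (A.core_subset j k hj)
    have hT : ContDiffAt ℝ ∞ (A.trans j k) z := (A.trans_smooth j k).contDiffAt hn
    exact ((pullOp_smooth.contDiffAt.comp z (hT.fderiv_right (by simp))).clm_apply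
      ((he j).contDiffAt.comp z hT)).of_le (by exact_mod_cast le_top)
  have hts : ∀ j, ContDiffAt ℝ i (term j) z := fun j => by
    by_cases hj : z ∈ A.core j k
    · exact (hsm j hj).congr_of_eventuallyEq (hev j hj)
    · exact contDiffAt_const.congr_of_eventuallyEq (hzero j hj)
  rw [show A.push e k = fun y => ∑ j, term j y from rfl,
    iteratedFDeriv_fun_sum_apply fun j _ => hts j]
  refine (norm_sum_le _ _).trans (le_trans ?_ (mul_le_mul_of_nonneg_right (single_le_sum
    (f := fun k => ∑ j, ∑ l ∈ range (i + 1), (i.choose l : ℝ) * |B j k l| * ct (i - l))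
    (fun k _ => Finset.sum_nonneg fun j _ => Finset.sum_nonneg fun l _ =>
      mul_nonneg (by positivity) (hct0 _)) (Finset.mem_univ k)) hC0))
  rw [Finset.sum_mul]
  refine Finset.sum_le_sum fun j _ => ?_
  have hpos : 0 ≤ (∑ l ∈ range (i + 1), (i.choose l : ℝ) * |B j k l| * ct (i - l)) * C :=
    mul_nonneg (Finset.sum_nonneg fun l _ => mul_nonneg (by positivity) (hct0 _)) hC0
  by_cases hj : z ∈ A.core j k
  · rw [((hev j hj).iteratedFDeriv ℝ i).eq_of_nhds,
      ← iteratedFDerivWithin_of_isOpen i (A.isOpen_ov j k) (A.core_subset j k hj), Finset.sum_mul]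
    refine (norm_iteratedFDerivWithin_clm_apply
      (pullOp_smooth.comp_contDiffOn ((A.trans_smooth j k).fderiv_of_isOpen (A.isOpen_ov j k)
        (by simp))) ((he j).comp_contDiffOn (A.trans_smooth j k))
      (A.isOpen_ov j k).uniqueDiffOn (A.core_subset j k hj) (n := i)
      (by exact_mod_cast le_top)).trans (Finset.sum_le_sum fun l _ => ?_)
    rw [mul_assoc _ (ct (i - l)) C]
    refine mul_le_mul (mul_le_mul_of_nonneg_left ((hB j k l z hj).trans (le_abs_self _))
      (Nat.cast_nonneg _)) ?_ (norm_nonneg _) (by positivity)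
    rw [iteratedFDerivWithin_of_isOpen _ (A.isOpen_ov j k) (A.core_subset j k hj)]
    exact hct (i - l) j k (e j) univ isOpen_univ (he j).contDiffOn z hj (mem_univ _) C
      fun m hm => hC m (hm.trans (Nat.sub_le i l)) j _
  · rw [((hzero j hj).iteratedFDeriv ℝ i).eq_of_nhds, iteratedFDeriv_fun_zero, Pi.zero_apply,
      norm_zero]
    exact hpos

end Atlas

end Vale.Agent.P205.Iter
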