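import Vale.Agent.P205.Iter.Atlas
import Vale.Agent.P205.Iter.Mollify

/-!
The high order mollifier on a manifold with an atlas.
-/

noncomputable section

open Set Filter Metric Finset Function ContinuousLinearMap MeasureTheory
open scoped Topology ContDiff Manifold Convolution MeasureTheory

namespace Vale.Agent.P205.Iter

variable {E : Type} [NormedAddCommGroup E] [NormedSpace ℝ E] [FiniteDimensional ℝ E]
  [MeasureSpace E] [BorelSpace E] [Measure.IsAddHaarMeasure (volume : Measure E)]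
  {V : Type} [NormedAddCommGroup V] [NormedSpace ℝ V] [CompleteSpace V]

omit [CompleteSpace V] in
theorem Th_supp {g : E → V} {r h : ℝ} (hh : 0 < h) (hs : support g ⊆ closedBall 0 r) :
    support (Th h g) ⊆ closedBall 0 (r + h) := by
  intro x hx
  have hx' : h⁻¹ • x ∈ support (T1 fun z => g (h • z)) := hx
  obtain ⟨a, ha, b, hb, hab⟩ := support_convolution_subset (lsmul ℝ ℝ) hx'
  have h1 : ‖a‖ ≤ 1 := norm_le_one_of_ker0 ha
  have hb2 : ‖h • b‖ ≤ r := mem_closedBall_zero_iff.1 (hs hb)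
  have he : x = h • a + h • b := by
    rw [← smul_add, show a + b = h⁻¹ • x from hab, smul_inv_smul₀ hh.ne']
  rw [mem_closedBall_zero_iff, he]
  refine (norm_add_le _ _).trans ?_
  rw [norm_smul h a, Real.norm_of_nonneg hh.le]
  linarith [mul_le_of_le_one_right hh.le h1]

omit [CompleteSpace V] in
theorem defect_supp {g : E → V} {r h : ℝ} (hh : 0 < h) (hs : support g ⊆ closedBall 0 r) :
    ∀ q : ℕ, support (defect h g q) ⊆ closedBall 0 (r + q * h)
  | 0 => by simpa [defect] using hs
  | q + 1 => by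
    have h1 := defect_supp hh hs q
    refine (support_sub _ _).trans (union_subset
      (h1.trans (closedBall_subset_closedBall (by push_cast; linarith))) ?_)
    refine (Th_supp hh h1).trans (closedBall_subset_closedBall ?_)
    push_cast; linarith

omit [CompleteSpace V] in
theorem smoothing_supp {g : E → V} {h : ℝ} (hh : 0 < h) (hs : support g ⊆ closedBall 0 1) {q : ℕ}
    (hq : (q : ℝ) * h ≤ 1) : support (smoothing h q g) ⊆ closedBall 0 2 :=
  (support_sub _ _).trans (union_subset (hs.trans (closedBall_subset_closedBall (by norm_num)))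
    ((defect_supp hh hs q).trans (closedBall_subset_closedBall (by linarith))))

namespace Atlas

variable {E₀ : Type*} [NormedAddCommGroup E₀] [NormedSpace ℝ E₀]
  {H : Type*} [TopologicalSpace H] {I : ModelWithCorners ℝ E₀ H}
  {M : Type} [TopologicalSpace M] [ChartedSpace H M] (A : Atlas (E := E) (I := I) (M := M))

omit [MeasureSpace E] [BorelSpace E] [Measure.IsAddHaarMeasure (volume : Measure E)] [CompleteSpace V] in
theorem loc_test (j : A.ι) {X : M → V} (hX : ContMDiff I 𝓘(ℝ, V) ∞ X) : Test (A.loc j X) :=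
  ⟨A.loc_smooth j hX, HasCompactSupport.intro (isCompact_closedBall 0 1) fun _ hz =>
    notMem_support.1 fun h => hz (A.loc_supp j X h)⟩

/-- The mollifier of order `q` at scale `h`. -/
def mollify (h : ℝ) (q : ℕ) (X : M → V) (p : M) : V :=
  ∑ j, A.glue j (smoothing h q (A.loc j X)) p

variable [T2Space M] {X : M → V} {h : ℝ} {q : ℕ}

theorem mollify_smooth (hX : ContMDiff I 𝓘(ℝ, V) ∞ X) (hh : 0 < h) (hq : (q : ℝ) * h ≤ 1) :
    ContMDiff I 𝓘(ℝ, V) ∞ (A.mollify h q X) :=
  contMDiff_finsetSum fun j _ => A.glue_smooth j (smoothing_test (A.loc_test j hX) hh q).1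
    (smoothing_supp hh (A.loc_supp j X) hq)

omit [T2Space M] [FiniteDimensional ℝ E] [MeasureSpace E] [BorelSpace E] [Measure.IsAddHaarMeasure (volume : Measure E)] [CompleteSpace V] in
theorem normLe_sum {i : ℕ} {Y : A.ι → M → V} (hY : ∀ j, ContMDiff I 𝓘(ℝ, V) ∞ (Y j))
    {C : A.ι → ℝ} (hC : ∀ j, A.NormLe i (Y j) (C j)) :
    A.NormLe i (fun p => ∑ j, Y j p) (∑ j, C j) := by
  intro k z hz
  have hz3 : z ∈ ball (0 : E) 3 := ball_subset_ball (by norm_num) hz
  have hd : ∀ j, ContDiffAt ℝ i (fun y => Y j (A.par k y)) z := fun j =>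
    ((((hY j).comp_contMDiffOn (A.par_smooth k)).contDiffOn).contDiffAt
      (isOpen_ball.mem_nhds hz3)).of_le (by exact_mod_cast le_top)
  rw [iteratedFDeriv_fun_sum_apply fun j _ => hd j]
  exact (norm_sum_le _ _).trans (Finset.sum_le_sum fun j _ => hC j k z hz)

theorem normLe_mollify (i q : ℕ) : ∃ c : ℝ, 0 ≤ c ∧ ∀ X : M → V, ContMDiff I 𝓘(ℝ, V) ∞ X →
    ∀ h : ℝ, 0 < h → h ≤ 1 → (q : ℝ) * h ≤ 1 → ∀ C : ℝ, A.NormLe 0 X C →
      A.NormLe i (A.mollify h q X) (c * h⁻¹ ^ i * C) := by
  obtain ⟨c0, hc0, hloc⟩ := A.loc_bound (V := V) 0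
  choose cg hcg hglue using fun j => A.glue_bound (V := V) j i
  set k : ℕ → ℝ := fun l => |kerCost (E := E) (F := V) l| with hk
  refine ⟨∑ j, cg j * ((∑ l ∈ range (i + 1), 2 ^ q * k l) * c0),
    Finset.sum_nonneg fun j _ => mul_nonneg (hcg j) (mul_nonneg
      (Finset.sum_nonneg fun l _ => by positivity) hc0), fun X hX h hh hh1 hq C hC => ?_⟩
  have hl0 : ∀ j z, ‖A.loc j X z‖ ≤ c0 * C := fun j z => by
    rw [← norm_iteratedFDeriv_zero (𝕜 := ℝ) (f := A.loc j X)]
    exact hloc X hX C (fun l hl => by rwa [Nat.le_zero.1 hl]) j z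
  rw [Finset.sum_mul, Finset.sum_mul]
  refine A.normLe_sum (fun j => A.glue_smooth j (smoothing_test (A.loc_test j hX) hh q).1
    (smoothing_supp hh (A.loc_supp j X) hq)) fun j => ?_
  have hc1 : 0 ≤ c0 * C := (norm_nonneg _).trans (hl0 j 0)
  have hinv : 1 ≤ h⁻¹ := (one_le_inv₀ hh).2 hh1
  have hb : ∀ l ≤ i, ∀ y, ‖iteratedFDeriv ℝ l (smoothing h q (A.loc j X)) y‖ ≤
      (∑ l ∈ range (i + 1), 2 ^ q * k l) * (h⁻¹ ^ i * (c0 * C)) := fun l hl y => by
    refine (bdd_smoothing (A.loc_test j hX) hh (hl0 j) l q y).trans ?_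
    calc (2 : ℝ) ^ q * (h⁻¹ ^ l * (kerCost (E := E) (F := V) l * (c0 * C)))
        = (2 ^ q * kerCost (E := E) (F := V) l) * (h⁻¹ ^ l * (c0 * C)) := by ring
      _ ≤ _ := by
        refine mul_le_mul ?_ (mul_le_mul_of_nonneg_right (pow_le_pow_right₀ hinv hl) hc1)
          (by positivity) (Finset.sum_nonneg fun m _ => by positivity)
        exact le_trans (mul_le_mul_of_nonneg_left (le_abs_self _) (by positivity))
          (single_le_sum (f := fun m => 2 ^ q * k m) (fun m _ => by positivity)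
            (Finset.mem_range.2 (by omega)))
  intro k' z hz
  refine (hglue j _ (smoothing_test (A.loc_test j hX) hh q).1
    (smoothing_supp hh (A.loc_supp j X) hq) _ hb k' z hz).trans (le_of_eq (by ring))

theorem normLe_sub_mollify (i q : ℕ) : ∃ c : ℝ, 0 ≤ c ∧ ∀ X : M → V, ContMDiff I 𝓘(ℝ, V) ∞ X →
    ∀ h : ℝ, 0 < h → (q : ℝ) * h ≤ 1 → ∀ C : ℝ, (∀ l ≤ i + q, A.NormLe l X C) →
      A.NormLe i (fun p => X p - A.mollify h q X p) (c * h ^ q * C) := by
  choose cl hcl hloc using fun l => A.loc_bound (V := V) (l + q)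
  choose cg hcg hglue using fun j => A.glue_bound (V := V) j i
  refine ⟨∑ j, cg j * ∑ l ∈ range (i + 1), cl l, Finset.sum_nonneg fun j _ =>
    mul_nonneg (hcg j) (Finset.sum_nonneg fun l _ => hcl l), fun X hX h hh hq C hC => ?_⟩
  have e : (fun p => X p - A.mollify h q X p) =
      fun p => ∑ j, A.glue j (fun y => A.loc j X y - smoothing h q (A.loc j X) y) p := by
    funext p
    conv_lhs => rw [← A.sum_glue_loc X p]
    rw [mollify, ← Finset.sum_sub_distrib]
    refine Finset.sum_congr rfl fun j _ => ?_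
    simp only [glue]
    split_ifs <;> simp
  rw [e, Finset.sum_mul, Finset.sum_mul]
  have hsup : ∀ j, support (fun y => A.loc j X y - smoothing h q (A.loc j X) y) ⊆ closedBall 0 2 :=
    fun j => (support_sub _ _).trans (union_subset
      ((A.loc_supp j X).trans (closedBall_subset_closedBall (by norm_num)))
      (smoothing_supp hh (A.loc_supp j X) hq))
  have hsm : ∀ j, ContDiff ℝ ∞ fun y => A.loc j X y - smoothing h q (A.loc j X) y := fun j =>
    (A.loc_smooth j hX).sub (smoothing_test (A.loc_test j hX) hh q).1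
  refine A.normLe_sum (fun j => A.glue_smooth j (hsm j) (hsup j)) fun j k z hz => ?_
  have hC0 : 0 ≤ C := (norm_nonneg _).trans (hC 0 (Nat.zero_le _) j 0 (by simp))
  have hb : ∀ l ≤ i, ∀ y,
      ‖iteratedFDeriv ℝ l (fun y => A.loc j X y - smoothing h q (A.loc j X) y) y‖ ≤
        (∑ l ∈ range (i + 1), cl l) * (h ^ q * C) := fun l hl y => by
    have h1 := bdd_sub_smoothing (A.loc_test j hX) hh (i := l) (q := q) (C := cl l * C)
      (fun x => hloc l X hX C (fun m hm => hC m (by omega)) j x) y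
    refine h1.trans ?_
    rw [show h ^ q * (cl l * C) = cl l * (h ^ q * C) by ring]
    exact mul_le_mul_of_nonneg_right (single_le_sum (fun m _ => hcl m)
      (Finset.mem_range.2 (by omega))) (by positivity)
  exact (hglue j _ (hsm j) (hsup j) _ hb k z hz).trans (le_of_eq (by ring))

end Atlas

end Vale.Agent.P205.Iter
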