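import Vale.Agent.P205.Iter.Forms

/-!
The stage as an abstract statement, and elementary arithmetic of the scales.
-/

noncomputable section

set_option maxSynthPendingDepth 3

open Set Filter Metric Finset Function
open scoped Topology ContDiff Manifold

namespace Vale.Agent.P205.Iter

variable {E : Type} [NormedAddCommGroup E] [NormedSpace ℝ E]
  {E₀ : Type*} [NormedAddCommGroup E₀] [NormedSpace ℝ E₀]
  {H : Type*} [TopologicalSpace H] {I : ModelWithCorners ℝ E₀ H}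
  {M : Type} [TopologicalSpace M] [ChartedSpace H M]
  {V : Type} [NormedAddCommGroup V] [NormedSpace ℝ V]

namespace Atlas

variable (A : Atlas (E := E) (I := I) (M := M))

theorem normLe_mono {i : ℕ} {X : M → V} {C C' : ℝ} (h : A.NormLe i X C) (hC : C ≤ C') :
    A.NormLe i X C' := fun j z hz => (h j z hz).trans hC

theorem normLe_add {i : ℕ} {X Y : M → V} (hX : ContMDiff I 𝓘(ℝ, V) ∞ X)
    (hY : ContMDiff I 𝓘(ℝ, V) ∞ Y) {C C' : ℝ} (h : A.NormLe i X C) (h' : A.NormLe i Y C') :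
    A.NormLe i (fun p => X p + Y p) (C + C') := fun j z hz => by
  have hz3 : ball (0 : E) 3 ∈ 𝓝 z :=
    isOpen_ball.mem_nhds (ball_subset_ball (by norm_num) hz)
  rw [fun_iteratedFDeriv_add_apply
    (((chart_smooth hX j).contDiffAt hz3).of_le (by exact_mod_cast le_top))
    (((chart_smooth hY j).contDiffAt hz3).of_le (by exact_mod_cast le_top))]
  exact (norm_add_le _ _).trans (add_le_add (h j z hz) (h' j z hz))

theorem normLe_triangle {i : ℕ} {X Y Z : M → V} (hX : ContMDiff I 𝓘(ℝ, V) ∞ X)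
    (hY : ContMDiff I 𝓘(ℝ, V) ∞ Y) (hZ : ContMDiff I 𝓘(ℝ, V) ∞ Z) {C C' : ℝ}
    (h : A.NormLe i (fun p => X p - Y p) C) (h' : A.NormLe i (fun p => Y p - Z p) C') :
    A.NormLe i (fun p => X p - Z p) (C + C') := by
  have := A.normLe_add (hX.sub hY) (hY.sub hZ) h h'
  simpa [sub_add_sub_cancel] using this

theorem normLe_neg_sub {i : ℕ} {X Y : M → V} {C : ℝ} (h : A.NormLe i (fun p => X p - Y p) C) :
    A.NormLe i (fun p => Y p - X p) C := fun j z hz => by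
  have e : (fun y => Y (A.par j y) - X (A.par j y)) =
      -(fun y => X (A.par j y) - Y (A.par j y)) := by funext y; simp
  rw [e, iteratedFDeriv_neg_apply, norm_neg]
  exact h j z hz

theorem normLe_sub {i : ℕ} {X Y : M → V} (hX : ContMDiff I 𝓘(ℝ, V) ∞ X)
    (hY : ContMDiff I 𝓘(ℝ, V) ∞ Y) {C C' : ℝ} (h : A.NormLe i X C) (h' : A.NormLe i Y C') :
    A.NormLe i (fun p => X p - Y p) (C + C') := fun j z hz => by
  have hz3 : ball (0 : E) 3 ∈ 𝓝 z :=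
    isOpen_ball.mem_nhds (ball_subset_ball (by norm_num) hz)
  rw [fun_iteratedFDeriv_sub_apply
    (((chart_smooth hX j).contDiffAt hz3).of_le (by exact_mod_cast le_top))
    (((chart_smooth hY j).contDiffAt hz3).of_le (by exact_mod_cast le_top))]
  exact (norm_sub_le _ _).trans (add_le_add (h j z hz) (h' j z hz))

/-- What a stage achieves at scale `K`: a target close to `K ^ -D • g` is added to the induced
form up to an arbitrarily high power of the scale, the next scale being `K ^ B`. -/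
def StageSpec (Bf : V →L[ℝ] V →L[ℝ] ℝ) (Good : A.Tensor → ℝ → (M → V) → Prop)
    (s B : ℕ) (η : ℝ) : Prop :=
  ∀ (Ab : ℕ → ℝ) (N : ℕ), ∃ (out : ℕ → ℝ) (K₀ : ℝ), ∀ K : ℝ, K₀ ≤ K → ∀ D : ℕ, s ≤ D → D ≤ N →
    ∀ g : A.Tensor,
    (∀ (i : ℕ) (j : A.ι), ∀ z ∈ ball (0 : E) 2, ‖iteratedFDeriv ℝ i (g.comp j) z‖ ≤ Ab i) →
    ∀ X Z : M → V, ContMDiff I 𝓘(ℝ, V) ∞ X → ContMDiff I 𝓘(ℝ, V) ∞ Z → Good g K Z →
    (∀ l ≤ 2, A.NormLe l (fun p => X p - Z p) (K ^ s)⁻¹) →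
    (∀ i, A.NormLe i X (Ab i * K ^ (3 * i))) →
    ∀ e : A.ι → E → Bil E, (∀ j, ContDiff ℝ ∞ (e j)) →
    (∀ j, support (e j) ⊆ closedBall 0 2) → (∀ j y u v, e j y u v = e j y v u) →
    (∀ (i : ℕ) (j : A.ι) (y : E), ‖iteratedFDeriv ℝ i (e j) y‖ ≤ Ab i * K ^ (3 * i)) →
    (∀ (j : A.ι) (y : E), ‖e j y‖ ≤ η) →
    ∃ X' : M → V, ContMDiff I 𝓘(ℝ, V) ∞ X' ∧ Good g (K ^ B) X' ∧
      (∀ i, A.NormLe i X' (out i * (K ^ B) ^ i)) ∧
      (∀ l ≤ 2, A.NormLe l (fun p => X' p - X p) (out 0 * K ^ B * (K ^ (D / 4))⁻¹)) ∧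
      ∀ k, ∀ z ∈ ball (0 : E) 2,
        ‖formAt (A := A) Bf X' k z - formAt (A := A) Bf X k z -
          (K ^ D)⁻¹ • (g.comp k z + A.push e k z)‖ ≤ (K ^ (B * N))⁻¹

end Atlas

/-- Below the scale a constant times powers is a smaller power. -/
theorem tiny {c K : ℝ} (hK : 1 ≤ K) (hc : c ≤ K) {m a b : ℕ} (h : m + b + 1 ≤ a) :
    c * K ^ m * (K ^ a)⁻¹ ≤ (K ^ b)⁻¹ := by
  have h0 : 0 < K := lt_of_lt_of_le one_pos hK
  rw [← div_eq_mul_inv, div_le_iff₀ (pow_pos h0 _), ← div_eq_inv_mul, le_div_iff₀ (pow_pos h0 _)]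
  calc c * K ^ m * K ^ b ≤ K * K ^ m * K ^ b := by gcongr
    _ = K ^ (m + b + 1) := by rw [pow_succ, pow_add]; ring
    _ ≤ K ^ a := pow_le_pow_right₀ hK h

theorem inv_pow_le {K : ℝ} (hK : 1 ≤ K) {a b : ℕ} (h : a ≤ b) : (K ^ b)⁻¹ ≤ (K ^ a)⁻¹ :=
  inv_anti₀ (pow_pos (lt_of_lt_of_le one_pos hK) _) (pow_le_pow_right₀ hK h)

/-- Sums of absolute values. -/
def cap (f : ℕ → ℝ) (m : ℕ) : ℝ := ∑ l ∈ range (m + 1), |f l|

theorem le_cap (f : ℕ → ℝ) {l m : ℕ} (h : l ≤ m) : f l ≤ cap f m :=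
  (le_abs_self _).trans (single_le_sum (f := fun l => |f l|) (fun _ _ => abs_nonneg _)
    (Finset.mem_range.2 (by omega)))

theorem cap_nonneg (f : ℕ → ℝ) (m : ℕ) : 0 ≤ cap f m := Finset.sum_nonneg fun _ _ => abs_nonneg _

theorem cap_mono (f : ℕ → ℝ) : Monotone (cap f) := fun _ _ h =>
  Finset.sum_le_sum_of_subset_of_nonneg (Finset.range_subset_range.2 (by omega))
    fun _ _ _ => abs_nonneg _

end Vale.Agent.P205.Iter
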