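import Vale.Agent.P205.Iter.Colour
import Vale.Agent.P205.Iter.Spec

/-!
A stage: all colours one after another.
-/

noncomputable section

set_option maxSynthPendingDepth 3

open Set Filter Finset Metric Function
open scoped ContDiff Topology Manifold

namespace Vale.Agent.P205.Iter

open Wave (V4 ip)

variable {E₀ : Type*} [NormedAddCommGroup E₀] [NormedSpace ℝ E₀]
  {H : Type*} [TopologicalSpace H] {I : ModelWithCorners ℝ E₀ H}
  {M : Type} [TopologicalSpace M] [ChartedSpace H M]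
  {A : Atlas (E := R2) (I := I) (M := M)}

namespace Atlas

/-- Two close maps have close bounds from below. -/
theorem low_diff {Ls : ℝ}
    (hLs : ∀ B : ℝ, 1 ≤ B → ∀ J J' : Jet, ‖J‖ ≤ B → ‖J'‖ ≤ B →
      |areaP J - areaP J'| ≤ Ls * B ^ 5 * ‖J - J'‖ ∧
      (∀ θ, |bendP θ J - bendP θ J'| ≤ Ls * B ^ 5 * ‖J - J'‖) ∧
      |bendS J - bendS J'| ≤ Ls * B ^ 5 * ‖J - J'‖ ∧ areaP J' ≤ Ls * B ^ 4)
    (hLs1 : 1 ≤ Ls) {X Y : M → V4} (hX : ContMDiff I 𝓘(ℝ, V4) ∞ X) (hY : ContMDiff I 𝓘(ℝ, V4) ∞ Y)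
    {K P d c : ℝ} (hK : 1 ≤ K) (hP : 0 ≤ P) (hc : 0 ≤ c)
    (hXb : ∀ l, 1 ≤ l → l ≤ 2 → A.NormLe l X (P * K ^ 6))
    (hd : ∀ l ≤ 2, A.NormLe l (fun p => X p - Y p) d) (hd1 : 2 * d ≤ 1)
    (hsmall : Ls * (2 * (P + 1) * K ^ 6) ^ 5 * (2 * d) * c ≤ 1 / 2) (j : A.ι) {z : R2}
    (hz : z ∈ ball (0 : R2) 2) :
    c * |areaP (jet (fun y => X (A.par j y)) z) - areaP (jet (fun y => Y (A.par j y)) z)| ≤ 1 / 2 ∧
    c * |bendS (jet (fun y => X (A.par j y)) z) - bendS (jet (fun y => Y (A.par j y)) z)| ≤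
      1 / 2 := by
  set J := jet (fun y => X (A.par j y)) z
  set J' := jet (fun y => Y (A.par j y)) z
  set Bq : ℝ := 2 * (P + 1) * K ^ 6 with hBq
  have hK6 : 1 ≤ K ^ 6 := one_le_pow₀ hK
  have hjX : ‖J‖ ≤ 2 * (P * K ^ 6) := jet_bound (A := A) hX hXb j hz
  have hB : 2 * (P * K ^ 6) + 1 ≤ Bq := by
    calc 2 * (P * K ^ 6) + 1 ≤ 2 * (P * K ^ 6) + 2 * K ^ 6 := by linarith
      _ = Bq := by rw [hBq]; ring
  have hd' : ‖J - J'‖ ≤ 2 * d := jet_close (A := A) hX hY hd j hz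
  have hJ' : ‖J'‖ ≤ Bq :=
    (norm_le_norm_add_norm_sub J J').trans (by linarith)
  have hP0 : 0 ≤ P * K ^ 6 := mul_nonneg hP (zero_le_one.trans hK6)
  obtain ⟨la, -, lb, -⟩ := hLs Bq (by linarith) J J' (by linarith) hJ'
  have hfac : Ls * Bq ^ 5 * ‖J - J'‖ * c ≤ 1 / 2 :=
    le_trans (mul_le_mul_of_nonneg_right (mul_le_mul_of_nonneg_left hd'
      (mul_nonneg (zero_le_one.trans hLs1) (pow_nonneg (by linarith) 5))) hc) hsmall
  constructor
  · rw [mul_comm]; exact (mul_le_mul_of_nonneg_right la hc).trans hfac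
  · rw [mul_comm]; exact (mul_le_mul_of_nonneg_right lb hc).trans hfac

/-- Bounds from below pass to a close value. -/
theorem low_of_diff {c a b : ℝ} (h : 1 ≤ c * a) (hd : c * |a - b| ≤ 1 / 2) (hc : 0 ≤ c) :
    1 ≤ 2 * c * b := by
  have := mul_le_mul_of_nonneg_left (le_abs_self (a - b)) hc
  linarith

variable [T2Space M]

/-- All colours of a set. -/
theorem exists_reached (hTrio : TrioProp) {n : ℕ} : ∃ γ : ℕ, ∀ (Ael : ℝ) (cell : Fin n → Cell),
    (∀ T ∈ ellSet Ael, ∃ i, ‖T - (cell i).mid‖ ≤ (cell i).rad / 2) →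
    ∃ η : ℝ, 0 < η ∧ ∀ (Ab : ℕ → ℝ) (c1 : ℝ) (N B : ℕ) (s : Finset (A.Col n)),
      ∃ (out : ℕ → ℝ) (K₁ : ℝ), ∀ t : A.Dat Ael Ab c1, K₁ ≤ t.K →
        4 * (expAt γ (Fintype.card (A.Col n)) + 100) ≤ t.D → (∀ j y, ‖t.e j y‖ ≤ η) →
        ∃ Y : M → V4, Reached cell γ N B s out t Y := by
  obtain ⟨γ, hγ⟩ := exists_colour (A := A) (n := n) hTrio
  refine ⟨γ, fun Ael cell hcell => ?_⟩
  obtain ⟨η, hη0, hη⟩ := hγ Ael cell hcell
  refine ⟨η, hη0, fun Ab c1 N B s => ?_⟩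
  induction s using Finset.cons_induction with
  | empty =>
    refine ⟨fun i => |Ab i|, 1, fun t _ _ _ => ⟨t.X, t.smoothX, fun i => A.normLe_mono (t.bdX i) ?_,
      fun l _ j z _ => ?_, fun k z _ => ?_⟩⟩
    · refine mul_le_mul (le_abs_self _) ?_ (pow_nonneg (zero_le_one.trans t.one_le) _) (abs_nonneg _)
      rw [← pow_mul]
      exact pow_le_pow_right₀ t.one_le (Nat.mul_le_mul (by linarith [expAt_pos γ (∅ : Finset (A.Col n)).card]) le_rfl)
    · simp only [sub_self, iteratedFDeriv_fun_zero, Pi.zero_apply, norm_zero]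
      exact mul_nonneg (mul_nonneg (abs_nonneg _) (pow_nonneg (zero_le_one.trans t.one_le) _))
        (inv_nonneg.2 (pow_nonneg (zero_le_one.trans t.one_le) _))
    · simp only [Finset.sum_empty, zero_smul, sub_self, norm_zero]
      exact mul_nonneg (abs_nonneg _) (inv_nonneg.2 (pow_nonneg (zero_le_one.trans t.one_le) _))
  | cons c s hc ih =>
    obtain ⟨out, K₁, h⟩ := ih
    obtain ⟨out', K₂, h'⟩ := hη Ab c1 N B s c hc out
    refine ⟨out', max K₁ K₂, fun t hK hD he => ?_⟩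
    obtain ⟨Y, hY⟩ := h t ((le_max_left _ _).trans hK) hD he
    refine h' t ((le_max_right _ _).trans hK) (le_trans ?_ hD) he Y hY
    exact Nat.mul_le_mul_left 4 (Nat.add_le_add_right
      (expAt_mono γ (Finset.card_le_univ s)) 100)

/-- The stage of the iteration. -/
theorem exists_stage (hTrio : TrioProp) {Ael : ℝ} (hA : 0 < Ael) :
    ∃ (B s : ℕ) (η : ℝ), 3 ≤ B ∧ 0 < η ∧ ∀ c₀ : ℝ, 0 < c₀ →
      A.StageSpec ipL (fun g K Z => Good Ael c₀ g K Z) s B η := by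
  obtain ⟨n, cell, hcell⟩ := exists_cells hA
  obtain ⟨γ, hγ⟩ := exists_reached (A := A) (n := n) hTrio
  obtain ⟨η, hη0, hreach⟩ := hγ Ael cell hcell
  obtain ⟨Ls, hLs1, hLs⟩ := exists_low_stable
  set e := expAt γ (Fintype.card (A.Col n)) with he
  have he50 : 50 ≤ e := expAt_pos γ _
  refine ⟨e, 4 * (e + 100), η, by omega, hη0, fun c₀ hc₀ Ab N => ?_⟩
  obtain ⟨out, K₁, hout⟩ := hreach Ab (2 * c₀) N e Finset.univ
  obtain ⟨Cχ, -, -, hsum, -⟩ := chi_props (A := A) (Ab := Ab) (c1 := 2 * c₀) hcell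
  set P : ℝ := |Ab 1| + |Ab 2| with hP
  have hP0 : 0 ≤ P := add_nonneg (abs_nonneg _) (abs_nonneg _)
  set k₀ : ℝ := Ls * (2 * (P + 1)) ^ 5 * c₀ with hk₀
  have hk0 : 0 ≤ k₀ := mul_nonneg (mul_nonneg (zero_le_one.trans hLs1)
    (pow_nonneg (mul_nonneg zero_le_two (add_nonneg hP0 zero_le_one)) 5)) hc₀.le
  refine ⟨out, max (max K₁ 4) (max (8 * k₀ * (|out 0| + 1)) (2 * (|out 0| + 1))),
    fun K hK D hsD _ g hg X Z hXs hZs hGZ hXZ hXb f hf hfsupp hfsymm hfb hfη => ?_⟩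
  have hK₁ : K₁ ≤ K := ((le_max_left _ _).trans (le_max_left _ _)).trans hK
  have hK4 : 4 ≤ K := ((le_max_right _ _).trans (le_max_left _ _)).trans hK
  have hKk : 8 * k₀ * (|out 0| + 1) ≤ K := ((le_max_left _ _).trans (le_max_right _ _)).trans hK
  have hKo : 2 * (|out 0| + 1) ≤ K := ((le_max_right _ _).trans (le_max_right _ _)).trans hK
  clear hK
  have hK1 : 1 ≤ K := le_trans (by norm_num) hK4
  have hKp : 0 < K := zero_lt_one.trans_le hK1
  have hP6 : ∀ l, 1 ≤ l → l ≤ 2 → A.NormLe l X (P * K ^ 6) := fun l h1 h2 => by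
    refine A.normLe_mono (hXb l) (mul_le_mul ?_ (pow_le_pow_right₀ hK1 (by omega))
      (pow_nonneg hKp.le _) hP0)
    interval_cases l
    · exact (le_abs_self _).trans (le_add_of_nonneg_right (abs_nonneg _))
    · exact (le_abs_self _).trans (le_add_of_nonneg_left (abs_nonneg _))
  have h1o : 1 ≤ |out 0| + 1 := le_add_of_nonneg_left (abs_nonneg _)
  -- the given map is close to an admissible one
  have hsZ : Ls * (2 * (P + 1) * K ^ 6) ^ 5 * (2 * (K ^ (4 * (e + 100)))⁻¹) * (c₀ * K) ≤ 1 / 2 := by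
    have h := tiny hK1 (c := 4 * k₀) (le_trans (by
      calc 4 * k₀ ≤ 8 * k₀ * 1 := by linarith
        _ ≤ _ := mul_le_mul_of_nonneg_left h1o (mul_nonneg (by norm_num) hk0)) hKk)
      (m := 31) (a := 4 * (e + 100)) (b := 0) (by omega)
    rw [pow_zero, inv_one] at h
    have e1 : Ls * (2 * (P + 1) * K ^ 6) ^ 5 * (2 * (K ^ (4 * (e + 100)))⁻¹) * (c₀ * K) * 2 =
        4 * k₀ * K ^ 31 * (K ^ (4 * (e + 100)))⁻¹ := by rw [hk₀]; ring
    linarith
  have hdZ : 2 * (K ^ (4 * (e + 100)))⁻¹ ≤ 1 := by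
    have h := tiny hK1 (c := 2) (by linarith) (m := 0) (a := 4 * (e + 100)) (b := 0) (by omega)
    simpa using h
  have hlowX : ∀ j, ∀ z ∈ ball (0 : R2) 2,
      1 ≤ 2 * c₀ * K * areaP (jet (fun y => X (A.par j y)) z) ∧
        1 ≤ 2 * c₀ * K * bendS (jet (fun y => X (A.par j y)) z) := fun j z hz => by
    obtain ⟨-, a, b⟩ := hGZ j z hz
    obtain ⟨da, db⟩ := low_diff hLs hLs1 hXs hZs hK1 hP0 (mul_nonneg hc₀.le hKp.le) hP6 hXZ hdZ
      hsZ j hz
    rw [abs_sub_comm] at da db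
    constructor
    · simpa [mul_assoc] using low_of_diff a da (mul_nonneg hc₀.le hKp.le)
    · simpa [mul_assoc] using low_of_diff b db (mul_nonneg hc₀.le hKp.le)
  let t : A.Dat Ael Ab (2 * c₀) :=
    { K := K, D := D, g := g, X := X, e := f, one_le := hK1
      c1_pos := mul_pos two_pos hc₀
      ell := fun j z hz => (hGZ j z hz).1
      bdg := hg, smoothX := hXs, bdX := hXb, smoothE := hf, suppE := hfsupp, symmE := hfsymm
      bdE := hfb, low := hlowX }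
  obtain ⟨Y, hY⟩ := hout t hK₁ hsD hfη
  have hcard : (Finset.univ : Finset (A.Col n)).card = Fintype.card (A.Col n) := Finset.card_univ
  have hbound := hY.bound
  have hclose : ∀ l ≤ 2, A.NormLe l (fun p => Y p - X p) (out 0 * K ^ e * (K ^ (D / 4))⁻¹) := by
    intro l hl
    have h := hY.close l hl
    rw [hcard] at h
    exact h
  set d : ℝ := out 0 * K ^ e * (K ^ (D / 4))⁻¹ with hdd
  have hpos : 0 ≤ K ^ e * (K ^ (D / 4))⁻¹ :=
    mul_nonneg (pow_nonneg hKp.le _) (inv_nonneg.2 (pow_nonneg hKp.le _))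
  have hd1 : 2 * d ≤ 1 := by
    have h := tiny hK1 hKo (m := e) (a := D / 4) (b := 0) (by omega)
    rw [pow_zero, inv_one, mul_assoc] at h
    refine le_trans (le_of_eq_of_le (by rw [hdd]; ring : 2 * d = 2 * out 0 *
      (K ^ e * (K ^ (D / 4))⁻¹)) ?_) h
    exact mul_le_mul_of_nonneg_right (by linarith [le_abs_self (out 0)]) hpos
  have hsY : Ls * (2 * (P + 1) * K ^ 6) ^ 5 * (2 * d) * (2 * c₀ * K) ≤ 1 / 2 := by
    have h := tiny hK1 (c := 8 * k₀ * out 0) (le_trans (mul_le_mul_of_nonneg_left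
      ((le_abs_self _).trans (le_add_of_nonneg_right zero_le_one))
      (mul_nonneg (by norm_num) hk0)) hKk) (m := e + 31) (a := D / 4) (b := 0) (by omega)
    rw [pow_zero, inv_one] at h
    have e1 : Ls * (2 * (P + 1) * K ^ 6) ^ 5 * (2 * d) * (2 * c₀ * K) * 2 =
        8 * k₀ * out 0 * K ^ (e + 31) * (K ^ (D / 4))⁻¹ := by rw [hk₀, hdd, pow_add]; ring
    linarith
  refine ⟨Y, hY.smooth, fun j z hz => ⟨(hGZ j z hz).1, ?_⟩, fun i => ?_, hclose, fun k z hz => ?_⟩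
  · obtain ⟨a, b⟩ := hlowX j z hz
    have hd' : ∀ l ≤ 2, A.NormLe l (fun p => X p - Y p) d := fun l hl =>
      A.normLe_neg_sub (hclose l hl)
    have hcK : 0 ≤ 2 * c₀ * K := mul_nonneg (mul_nonneg zero_le_two hc₀.le) hKp.le
    obtain ⟨da, db⟩ := low_diff hLs hLs1 hXs hY.smooth hK1 hP0 hcK hP6 hd' hd1 hsY j hz
    have hKB : 4 * K ≤ K ^ e := by
      calc 4 * K ≤ K * K := mul_le_mul_of_nonneg_right hK4 hKp.le
        _ = K ^ 2 := (pow_two K).symm
        _ ≤ K ^ e := pow_le_pow_right₀ hK1 (by omega)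
    have hup : ∀ v : ℝ, 1 ≤ 2 * (2 * c₀ * K) * v → 1 ≤ c₀ * K ^ e * v := fun v hv => by
      have hv0 : 0 ≤ v := (pos_of_mul_pos_right (one_pos.trans_le hv)
        (mul_nonneg zero_le_two hcK)).le
      have := mul_le_mul_of_nonneg_right (mul_le_mul_of_nonneg_left hKB hc₀.le) hv0
      linarith
    exact ⟨hup _ (low_of_diff a da hcK), hup _ (low_of_diff b db hcK)⟩
  · have h := hbound i
    rw [hcard] at h
    exact h
  · have h := hY.form k z hz
    rw [hsum t (A.par k z)] at h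
    refine h.trans ?_
    have := tiny hK1 (c := out 0) (le_trans (by linarith [le_abs_self (out 0)]) hKo)
      (m := 0) (a := e * N + 1) (b := e * N) (by omega)
    simpa [pow_zero] using this

end Atlas

end Vale.Agent.P205.Iter
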