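import Vale.Agent.P205.Iter.Spec
import Vale.Agent.P205.Iter.Smoothing

/-!
One step of the iteration: mollify, prescribe the tensor, apply the stage.
-/

noncomputable section

set_option maxSynthPendingDepth 3

open Set Filter Metric Finset Function MeasureTheory
open scoped Topology ContDiff Manifold MeasureTheory

namespace Vale.Agent.P205.Iter

variable {E : Type} [NormedAddCommGroup E] [NormedSpace ℝ E] [FiniteDimensional ℝ E]
  [MeasureSpace E] [BorelSpace E] [Measure.IsAddHaarMeasure (volume : Measure E)]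
  {E₀ : Type*} [NormedAddCommGroup E₀] [NormedSpace ℝ E₀]
  {H : Type*} [TopologicalSpace H] {I : ModelWithCorners ℝ E₀ H}
  {M : Type} [TopologicalSpace M] [ChartedSpace H M]
  {V : Type} [NormedAddCommGroup V] [NormedSpace ℝ V]

/-- The order of mollification at order `D`. -/
def qOf (B s D : ℕ) : ℕ := s + B * (D + 3) + 20

/-- The range of orders of derivatives kept at order `D`. -/
def rangeOf (B s D : ℕ) : ℕ := 2 * qOf B s D + 3

theorem rangeOf_mono (B s : ℕ) : Monotone (rangeOf B s) := fun a b h => by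
  have : B * (a + 3) ≤ B * (b + 3) := Nat.mul_le_mul_left B (by omega)
  simp only [rangeOf, qOf]; omega

namespace Atlas

variable (A : Atlas (E := E) (I := I) (M := M))

/-- The state of the iteration at scale `K` and order `D`. -/
structure State (Bf : V →L[ℝ] V →L[ℝ] ℝ) (Good : A.Tensor → ℝ → (M → V) → Prop) (B s : ℕ)
    (Cx : ℕ → ℝ) (Cd : ℝ) (g : A.Tensor) (K : ℝ) (D : ℕ) (X : M → V) : Prop where
  smooth : ContMDiff I 𝓘(ℝ, V) ∞ X
  good : Good g K X
  bound : ∀ l ≤ rangeOf B s D, A.NormLe l X (Cx D * K ^ (l + 1))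
  deficit : ∀ k, ∀ z ∈ ball (0 : E) 2,
    ‖g.comp k z - formAt (A := A) Bf X k z - (K ^ D)⁻¹ • g.comp k z‖ ≤ Cd * (K ^ (D + 1))⁻¹

omit [FiniteDimensional ℝ E] [MeasureSpace E] [BorelSpace E]
  [Measure.IsAddHaarMeasure (volume : Measure E)] in
/-- The deficit left by a map is a tensor. -/
theorem exists_deficit_tensor {Bf : V →L[ℝ] V →L[ℝ] ℝ} (hsymm : ∀ u v, Bf u v = Bf v u)
    (g : A.Tensor) {X : M → V} (hX : ContMDiff I 𝓘(ℝ, V) ∞ X) (c : ℝ) :
    ∃ T : A.Tensor, ∀ k z, T.comp k z = g.comp k z - formAt (A := A) Bf X k z - c • g.comp k z := by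
  refine ⟨⟨fun k z => g.comp k z - formAt (A := A) Bf X k z - c • g.comp k z, fun j => ?_,
    fun j z hz u v => ?_, fun j k z hz => ?_⟩, fun _ _ => rfl⟩
  · exact ((g.smooth j).sub (formAt_smooth Bf hX j)).sub ((g.smooth j).const_smul c)
  · have h1 : formAt (A := A) Bf X j z u v = formAt (A := A) Bf X j z v u := by
      simp [formAt, form, hsymm]
    simp [g.symm j z hz u v, h1]
  · rw [g.compat j k z hz, formAt_compat Bf hX hz]
    ext u v
    simp

omit [FiniteDimensional ℝ E] [MeasureSpace E] [BorelSpace E]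
  [Measure.IsAddHaarMeasure (volume : Measure E)] in
/-- Derivatives of the deficit. -/
theorem deficit_deriv {Bf : V →L[ℝ] V →L[ℝ] ℝ} (g : A.Tensor) {X : M → V}
    (hX : ContMDiff I 𝓘(ℝ, V) ∞ X) {c : ℝ} (hc : |c| ≤ 1) {i : ℕ} {Cg N : ℝ}
    (hg : ∀ j, ∀ z ∈ ball (0 : E) 2, ‖iteratedFDeriv ℝ i (g.comp j) z‖ ≤ Cg)
    (hN : ∀ l ≤ i + 1, A.NormLe l X N) (j : A.ι) {z : E} (hz : z ∈ ball (0 : E) 2) :
    ‖iteratedFDeriv ℝ i (fun y => g.comp j y - formAt (A := A) Bf X j y - c • g.comp j y) z‖ ≤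
      2 * Cg + ‖formL Bf (E := E)‖ * 2 ^ i * N ^ 2 := by
  have hz3 : ball (0 : E) 3 ∈ 𝓝 z := isOpen_ball.mem_nhds (ball_subset_ball (by norm_num) hz)
  have h1 : ContDiffAt ℝ i (g.comp j) z :=
    ((g.smooth j).contDiffAt hz3).of_le (by exact_mod_cast le_top)
  have h2 : ContDiffAt ℝ i (formAt (A := A) Bf X j) z :=
    ((formAt_smooth Bf hX j).contDiffAt hz3).of_le (by exact_mod_cast le_top)
  rw [fun_iteratedFDeriv_sub_apply (h1.sub h2) (h1.const_smul c),
    fun_iteratedFDeriv_sub_apply h1 h2, iteratedFDeriv_const_smul_apply' h1]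
  refine (norm_sub_le _ _).trans ((add_le_add (norm_sub_le _ _) le_rfl).trans ?_)
  rw [norm_smul, Real.norm_eq_abs]
  have h3 := hg j z hz
  have h4 := A.formAt_bound Bf hX hN j hz
  have h5 : |c| * ‖iteratedFDeriv ℝ i (g.comp j) z‖ ≤ Cg :=
    (mul_le_of_le_one_left (norm_nonneg _) hc).trans h3
  linarith

omit [MeasureSpace E] [BorelSpace E] [Measure.IsAddHaarMeasure (volume : Measure E)]
  [FiniteDimensional ℝ E] in
/-- Close maps induce close forms. -/
theorem form_close (Bf : V →L[ℝ] V →L[ℝ] ℝ) {X Y : M → V} (hX : ContMDiff I 𝓘(ℝ, V) ∞ X)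
    (hY : ContMDiff I 𝓘(ℝ, V) ∞ Y) {a d : ℝ} (ha : A.NormLe 1 X a)
    (hd : A.NormLe 1 (fun p => X p - Y p) d) (hd1 : d ≤ 1) (k : A.ι) {z : E}
    (hz : z ∈ ball (0 : E) 2) :
    ‖formAt (A := A) Bf X k z - formAt (A := A) Bf Y k z‖ ≤ ‖Bf‖ * (2 * a + 1) * d := by
  have hz3 : ball (0 : E) 3 ∈ 𝓝 z := isOpen_ball.mem_nhds (ball_subset_ball (by norm_num) hz)
  have d1 := ((chart_smooth (A := A) hX k).contDiffAt hz3).differentiableAt (by simp)
  have d2 := ((chart_smooth (A := A) hY k).contDiffAt hz3).differentiableAt (by simp)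
  set L := fderiv ℝ (fun y => X (A.par k y)) z
  set L' := fderiv ℝ (fun y => Y (A.par k y)) z
  have h1 : ‖L‖ ≤ a := by rw [← norm_iteratedFDeriv_one]; exact ha k z hz
  have h2 : ‖L - L'‖ ≤ d := by
    rw [← fderiv_fun_sub d1 d2, ← norm_iteratedFDeriv_one]
    exact hd k z hz
  have h4 : ‖L‖ + ‖L'‖ ≤ 2 * a + 1 := by linarith [norm_sub_norm_le L' L, norm_sub_rev L' L]
  have h5 : 0 ≤ 2 * a + 1 := by linarith [norm_nonneg L, norm_nonneg L']
  exact (norm_form_sub_le Bf L L').trans (mul_le_mul (mul_le_mul_of_nonneg_left h4 (norm_nonneg _))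
    h2 (norm_nonneg _) (mul_nonneg (norm_nonneg _) h5))

variable [T2Space M]

/-- The tensor to be prescribed, built from mollified pieces of a tensor. -/
theorem exists_prescribed : ∃ (ca : ℕ → ℕ → ℝ) (cb : ℕ → ℝ), (∀ q i, 0 ≤ ca q i) ∧
    (∀ q, 0 ≤ cb q) ∧ ∀ (K : ℝ), 1 ≤ K → ∀ D q : ℕ, (q : ℝ) * (K ^ 3)⁻¹ ≤ 1 →
    ∀ c : ℝ, 0 ≤ c → c ≤ K⁻¹ → ∀ g T : A.Tensor, ∀ Cg : ℕ → ℝ,
    (∀ (i l : ℕ), l ≤ i → ∀ (j : A.ι), ∀ z ∈ ball (0 : E) 2,
      ‖iteratedFDeriv ℝ l (g.comp j) z‖ ≤ Cg i) →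
    ∀ Cd : ℝ, 0 ≤ Cd → (∀ j, ∀ z ∈ ball (0 : E) 2, ‖T.comp j z‖ ≤ Cd * (K ^ (D + 1))⁻¹) →
    ∀ CT : ℝ, 0 ≤ CT →
    (∀ l ≤ q, ∀ j, ∀ z ∈ ball (0 : E) 2, ‖iteratedFDeriv ℝ l (T.comp j) z‖ ≤ CT) →
    ∃ e : A.ι → E → Bil E, (∀ j, ContDiff ℝ ∞ (e j)) ∧
      (∀ j, support (e j) ⊆ closedBall 0 2) ∧ (∀ j y u v, e j y u v = e j y v u) ∧
      (∀ i j y, ‖iteratedFDeriv ℝ i (e j) y‖ ≤ ca q i * (Cd + Cg i) * K ^ (3 * i) * K⁻¹) ∧
      ∀ k, ∀ z ∈ ball (0 : E) 2,
        ‖(K ^ D)⁻¹ • A.push e k z + ((K ^ D)⁻¹ * c) • g.comp k z - T.comp k z‖ ≤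
          cb q * CT * (K ^ (3 * q))⁻¹ := by
  choose cc hcc0 hcc using fun i => A.cut_bound i
  obtain ⟨pb, hpb0, hpb⟩ := A.push_bound
  refine ⟨fun q i => 2 ^ q * |kerCost (E := E) (F := Bil E) i| * cc 0 + cc i,
    fun q => pb * cc q, fun q i => by have := hcc0 0; have := hcc0 i; positivity,
    fun q => mul_nonneg hpb0 (hcc0 q),
    fun K hK1 D q hqh c hc0 hc1 g T Cg hg Cd hCd hT0 CT hCT hTq => ?_⟩
  have hKp : 0 < K := by linarith
  set h : ℝ := (K ^ 3)⁻¹ with hh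
  have hh0 : 0 < h := by positivity
  set P : A.ι → E → Bil E := fun j => A.cut j (T.comp j) with hP
  set G : A.ι → E → Bil E := fun j => A.cut j (g.comp j) with hG
  have hPs : ∀ j, Test (P j) := fun j => ⟨A.cut_smooth j (T.smooth j),
    HasCompactSupport.intro (isCompact_closedBall 0 1) fun _ hy =>
      notMem_support.1 fun hc => hy (A.cut_supp j _ hc)⟩
  set SP : A.ι → E → Bil E := fun j => smoothing h q (P j) with hSP
  have hSs : ∀ j, ContDiff ℝ ∞ (SP j) := fun j => (smoothing_test (hPs j) hh0 q).1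
  have hGs : ∀ j, ContDiff ℝ ∞ (G j) := fun j => A.cut_smooth j (g.smooth j)
  have hGsym : ∀ j y u v, G j y u v = G j y v u := fun j y u v => by
    simp only [hG, cut]
    split_ifs with hy
    · simp [g.symm j y hy u v]
    · rfl
  have hPsym : ∀ j y, symL E (P j y) = P j y := fun j y => symL_of_symm fun u v => by
    simp only [hP, cut]
    split_ifs with hy
    · simp [T.symm j y hy u v]
    · rfl
  have hS0 : ∀ j y, y ∉ closedBall (0 : E) 2 → SP j y = 0 ∧ P j y = 0 ∧ G j y = 0 :=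
    fun j y hy =>
      ⟨notMem_support.1 fun hc => hy (smoothing_supp hh0 (A.cut_supp j _) hqh hc),
        notMem_support.1 fun hc =>
          hy (closedBall_subset_closedBall (by norm_num) (A.cut_supp j _ hc)),
        notMem_support.1 fun hc =>
          hy (closedBall_subset_closedBall (by norm_num) (A.cut_supp j _ hc))⟩
  refine ⟨fun j y => K ^ D • symL E (SP j y) - c • G j y,
    fun j => (((symL E).contDiff.comp (hSs j)).const_smul (K ^ D)).sub ((hGs j).const_smul c),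
    fun j y hy => ?_, fun j y u v => by simp [symL_symm (SP j y) u v, hGsym j y u v],
    fun i j y => ?_, fun k z hz => ?_⟩
  · by_contra hy2
    obtain ⟨h1, -, h3⟩ := hS0 j y hy2
    simp [h1, h3] at hy
  · have hsm : ContDiffAt ℝ i (fun y => symL E (SP j y)) y :=
      ((symL E).contDiff.comp (hSs j)).contDiffAt.of_le (by exact_mod_cast le_top)
    have hGi : ContDiffAt ℝ i (G j) y := (hGs j).contDiffAt.of_le (by exact_mod_cast le_top)
    rw [fun_iteratedFDeriv_sub_apply (hsm.const_smul _) (hGi.const_smul c),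
      iteratedFDeriv_const_smul_apply' hsm, iteratedFDeriv_const_smul_apply' hGi]
    refine (norm_sub_le _ _).trans ?_
    rw [norm_smul, norm_smul, Real.norm_of_nonneg (by positivity : (0 : ℝ) ≤ K ^ D),
      Real.norm_of_nonneg hc0]
    have hP0 : ∀ y, ‖P j y‖ ≤ cc 0 * (Cd * (K ^ (D + 1))⁻¹) := fun y => by
      rw [← norm_iteratedFDeriv_zero (𝕜 := ℝ) (f := P j)]
      refine hcc 0 j _ (T.smooth j) _ (fun l hl z hz => ?_) y
      rw [Nat.le_zero.1 hl, norm_iteratedFDeriv_zero]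
      exact hT0 j z hz
    have h1 : ‖iteratedFDeriv ℝ i (fun y => symL E (SP j y)) y‖ ≤
        2 ^ q * |kerCost (E := E) (F := Bil E) i| * cc 0 * (Cd * K ^ (3 * i) *
          (K ^ (D + 1))⁻¹) := by
      refine ((symL E).norm_iteratedFDeriv_comp_left (hSs j).contDiffAt
        (n := i) (by exact_mod_cast le_top)).trans ?_
      refine (mul_le_of_le_one_left (norm_nonneg _) norm_symL_le).trans ?_
      refine (bdd_smoothing (hPs j) hh0 hP0 i q y).trans ?_
      rw [show h⁻¹ ^ i = K ^ (3 * i) by rw [hh, inv_inv, ← pow_mul]]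
      calc (2 : ℝ) ^ q * (K ^ (3 * i) * (kerCost (E := E) (F := Bil E) i *
            (cc 0 * (Cd * (K ^ (D + 1))⁻¹))))
          = kerCost (E := E) (F := Bil E) i *
            (2 ^ q * cc 0 * (Cd * K ^ (3 * i) * (K ^ (D + 1))⁻¹)) := by ring
        _ ≤ |kerCost (E := E) (F := Bil E) i| *
            (2 ^ q * cc 0 * (Cd * K ^ (3 * i) * (K ^ (D + 1))⁻¹)) := by
          refine mul_le_mul_of_nonneg_right (le_abs_self _) ?_
          have := hcc0 0; positivity
        _ = _ := by ring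
    have h2 : ‖iteratedFDeriv ℝ i (G j) y‖ ≤ cc i * Cg i :=
      hcc i j _ (g.smooth j) _ (fun l hl z hz => hg i l hl j z hz) y
    have h3 : (1 : ℝ) ≤ K ^ (3 * i) := one_le_pow₀ hK1
    have hg0 : 0 ≤ Cg i := (norm_nonneg _).trans (hg i 0 (Nat.zero_le i) j 0 (by simp))
    have hc2 : c * ‖iteratedFDeriv ℝ i (G j) y‖ ≤ cc i * Cg i * (K ^ (3 * i) * K⁻¹) :=
      calc c * ‖iteratedFDeriv ℝ i (G j) y‖ ≤ K⁻¹ * (cc i * Cg i * K ^ (3 * i)) :=
            mul_le_mul hc1 (h2.trans (le_mul_of_one_le_right ((norm_nonneg _).trans h2) h3))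
              (norm_nonneg _) (by positivity)
        _ = _ := by ring
    have hs : K ^ D * ‖iteratedFDeriv ℝ i (fun y => symL E (SP j y)) y‖ ≤
        2 ^ q * |kerCost (E := E) (F := Bil E) i| * cc 0 * Cd * (K ^ (3 * i) * K⁻¹) :=
      calc _ ≤ K ^ D * (2 ^ q * |kerCost (E := E) (F := Bil E) i| * cc 0 * (Cd * K ^ (3 * i) *
            (K ^ (D + 1))⁻¹)) := mul_le_mul_of_nonneg_left h1 (by positivity)
        _ = _ := by rw [pow_succ]; field_simp
    have hk : (0 : ℝ) ≤ 2 ^ q * |kerCost (E := E) (F := Bil E) i| * cc 0 := by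
      have := hcc0 0; positivity
    have hx : (0 : ℝ) ≤ K ^ (3 * i) * K⁻¹ := by positivity
    nlinarith [mul_nonneg (mul_nonneg hk hg0) hx, mul_nonneg (mul_nonneg (hcc0 i) hCd) hx]
  · have hz3 : z ∈ ball (0 : E) 3 := ball_subset_ball (by norm_num) hz
    rw [A.push_sub (fun j y => K ^ D • symL E (SP j y)) (fun j y => c • G j y), A.push_smul,
      A.push_smul, show A.push G k z = g.comp k z from A.push_cut g.compat k hz3, smul_sub,
      smul_smul, smul_smul, inv_mul_cancel₀ (by positivity), one_smul, sub_add_cancel,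
      ← A.push_cut T.compat k hz3, ← A.push_sub]
    refine le_trans (hpb _ (fun j y hy => ?_) (cc q * CT * (K ^ (3 * q))⁻¹)
      (by have := hcc0 q; positivity) (fun j y => ?_) k z hz) (le_of_eq (by ring))
    · by_contra hy2
      obtain ⟨h1, h2, -⟩ := hS0 j y hy2
      exact hy (by
        show symL E (SP j y) - P j y = 0
        rw [h1, h2, map_zero, sub_zero])
    · show ‖symL E (SP j y) - P j y‖ ≤ _
      rw [norm_sub_rev, show P j y - symL E (SP j y) = symL E (P j y - SP j y) by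
        rw [map_sub, hPsym]]
      refine ((symL E).le_opNorm _).trans ((mul_le_of_le_one_left (norm_nonneg _)
        norm_symL_le).trans ?_)
      rw [← norm_iteratedFDeriv_zero (𝕜 := ℝ) (f := fun y => P j y - SP j y)]
      refine (bdd_sub_smoothing (hPs j) hh0 (i := 0) (q := q) (C := cc q * CT) ?_ y).trans ?_
      · rw [Nat.zero_add]
        exact fun y => hcc q j _ (T.smooth j) _ (fun l hl z hz => hTq l hl j z hz) y
      · rw [hh, inv_pow, ← pow_mul]
        exact le_of_eq (by ring)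

variable [CompleteSpace V]

/-- Smallness in the uniform norm and growing bounds give smallness in every order. -/
theorem exists_interp : ∃ ci cj : ℕ → ℝ, (∀ i, 0 ≤ ci i) ∧ (∀ i, 0 ≤ cj i) ∧
    ∀ (K : ℝ), 1 ≤ K → ∀ B i : ℕ, 1 ≤ B → ((i + 3 : ℕ) : ℝ) ≤ K →
    ∀ w : M → V, ContMDiff I 𝓘(ℝ, V) ∞ w → ∀ a b : ℝ, A.NormLe 0 w a →
    (∀ m ≤ 2 * i + 3, A.NormLe m w b) →
    A.NormLe i w (ci i * K ^ (2 * B * i) * a + cj i * (K ^ (2 * B * (i + 3)))⁻¹ * b) := by
  choose cm hcm0 hcm using fun i q => A.normLe_mollify (V := V) i q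
  choose cs hcs0 hcs using fun i q => A.normLe_sub_mollify (V := V) i q
  refine ⟨fun i => cm i (i + 3), fun i => cs i (i + 3), fun i => hcm0 _ _, fun i => hcs0 _ _,
    fun K hK1 B i hB hiK w hw a b ha hb => ?_⟩
  set h : ℝ := (K ^ (2 * B))⁻¹ with hh
  have hh0 : 0 < h := by positivity
  have hqh : ((i + 3 : ℕ) : ℝ) * h ≤ 1 := by
    rw [hh, mul_inv_le_iff₀ (by positivity), one_mul]
    exact hiK.trans (le_self_pow₀ hK1 (by omega))
  have e1 := hcm i (i + 3) w hw h hh0 (inv_le_one_of_one_le₀ (one_le_pow₀ hK1)) hqh a ha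
  have e2 := hcs i (i + 3) w hw h hh0 hqh b fun m hm => hb m (by omega)
  have hs := A.mollify_smooth hw hh0 hqh
  have h1 := A.normLe_add hs (hw.sub hs) e1 e2
  simp only [add_sub_cancel] at h1
  refine A.normLe_mono h1 (le_of_eq ?_)
  rw [hh, inv_inv, inv_pow, ← pow_mul, ← pow_mul]

set_option maxHeartbeats 800000 in
/-- One step of the iteration. -/
theorem exists_step {Bf : V →L[ℝ] V →L[ℝ] ℝ} (hsymm : ∀ u v, Bf u v = Bf v u)
    {Good : A.Tensor → ℝ → (M → V) → Prop} {B s : ℕ} (hB : 3 ≤ B) {η : ℝ} (hη : 0 < η)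
    (hst : A.StageSpec Bf Good s B η) (C1 : ℕ → ℝ) :
    ∃ Cx Ψ : ℕ → ℝ, (∀ D, 0 ≤ Cx D ∧ ∀ l ≤ rangeOf B s D, C1 l ≤ Cx D) ∧ (∀ D, 3 ≤ Ψ D) ∧
      ∀ (K : ℝ) (D D' : ℕ), Ψ D ≤ K → 4 * (B + 4) + s ≤ D → D ≤ D' → D' ≤ D + 1 →
      ∀ g : A.Tensor,
      (∀ (i : ℕ) (j : A.ι), ∀ z ∈ ball (0 : E) 2, ‖iteratedFDeriv ℝ i (g.comp j) z‖ ≤ C1 i) →
      ∀ X : M → V, A.State Bf Good B s Cx (|C1 0| + 3) g K D X →
      A.NormLe 0 X (|C1 0| + 1) →
      ∃ X' : M → V, A.State Bf Good B s Cx (|C1 0| + 3) g (K ^ B) D' X' ∧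
        (∀ l ≤ 2, A.NormLe l (fun p => X' p - X p) (2 * (K ^ 2)⁻¹)) ∧
        ∀ i, 2 * i + 3 ≤ D → 8 * B * i + 4 * B + 16 ≤ D →
          A.NormLe i (fun p => X' p - X p) (3 * K⁻¹) := by
  choose cm hcm0 hcm using fun i q => A.normLe_mollify (V := V) i q
  choose cs hcs0 hcs using fun i q => A.normLe_sub_mollify (V := V) i q
  obtain ⟨ca, cb, hca, hcb, hpre⟩ := A.exists_prescribed
  obtain ⟨ci, cj, hci, hcj, hint⟩ := A.exists_interp (V := V)
  set R : ℝ := |C1 0| + 1 with hRd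
  set Cd : ℝ := |C1 0| + 3 with hCd
  set Ab : ℕ → ℕ → ℝ := fun D i => cm i (qOf B s D) * R +
    ca (qOf B s D) i * (Cd + cap C1 i) + cap C1 i with hAb
  choose out K₀ hstage using fun D => hst (Ab D) (D + 2)
  set Cx : ℕ → ℝ := fun m => cap C1 (rangeOf B s (m + 1)) +
    ∑ N ∈ range (m + 1), cap (out N) (rangeOf B s (m + 1)) + 1 with hCxd
  set Dm : ℕ → ℝ := fun D => cap (fun l => cs l (qOf B s D)) (qOf B s D) * Cx D with hDm
  set CT : ℕ → ℝ := fun D => 2 * cap C1 (qOf B s D) +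
    ‖formL Bf (E := E)‖ * 2 ^ qOf B s D * Cx D ^ 2 with hCT
  set Ip : ℕ → ℝ := fun D => cap ci (qOf B s D) * |out D 0| +
    cap cj (qOf B s D) * (cap (out D) (qOf B s D) + cap (Ab D) (qOf B s D)) with hIp
  refine ⟨Cx, fun D => 3 + |K₀ D| + (qOf B s D : ℝ) + |Ab D 0| / η + |Dm D| +
    |cb (qOf B s D) * CT D| + |‖Bf‖ * (2 * Cx D + 1) * Dm D| + |out D 0| + |Ip D|,
    fun D => ⟨?_, fun l hl => ?_⟩, fun D => ?_, fun K D D' hK hD hDD' hD'D g hg X hX hX0 => ?_⟩
  · have h1 := cap_nonneg C1 (rangeOf B s (D + 1))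
    have h2 : 0 ≤ ∑ N ∈ range (D + 1), cap (out N) (rangeOf B s (D + 1)) :=
      Finset.sum_nonneg fun _ _ => cap_nonneg _ _
    simp only [hCxd]; linarith
  · have h1 : C1 l ≤ cap C1 (rangeOf B s (D + 1)) :=
      le_cap C1 (hl.trans (rangeOf_mono B s (Nat.le_succ D)))
    have h2 : 0 ≤ ∑ N ∈ range (D + 1), cap (out N) (rangeOf B s (D + 1)) :=
      Finset.sum_nonneg fun _ _ => cap_nonneg _ _
    simp only [hCxd]; linarith
  · have h1 : (0 : ℝ) ≤ qOf B s D := Nat.cast_nonneg _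
    have h2 : 0 ≤ |Ab D 0| / η := by positivity
    linarith [abs_nonneg (K₀ D), abs_nonneg (Dm D), abs_nonneg (cb (qOf B s D) * CT D),
      abs_nonneg (‖Bf‖ * (2 * Cx D + 1) * Dm D), abs_nonneg (out D 0), abs_nonneg (Ip D)]
  set q := qOf B s D with hq
  have hqb : s + B * (D + 2) + 20 ≤ q := by rw [hq, qOf, Nat.mul_add, Nat.mul_add]; omega
  set b := B * (D + 2) with hb
  have hDq : D ≤ q := by
    have : 1 * (D + 2) ≤ B * (D + 2) := Nat.mul_le_mul_right _ (by omega)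
    omega
  -- all the constants fit below the scale
  have hn0 : (0 : ℝ) ≤ (q : ℝ) := Nat.cast_nonneg _
  have hd0 : 0 ≤ |Ab D 0| / η := by positivity
  obtain ⟨ha, ha1, ha2, ha3, ha4, ha5⟩ := And.intro (abs_nonneg (K₀ D)) (And.intro
    (abs_nonneg (Dm D)) (And.intro (abs_nonneg (cb q * CT D)) (And.intro
      (abs_nonneg (‖Bf‖ * (2 * Cx D + 1) * Dm D)) (And.intro (abs_nonneg (out D 0))
        (abs_nonneg (Ip D))))))
  have hK3 : 3 ≤ K := by linarith
  have hK0 : K₀ D ≤ K := by linarith [le_abs_self (K₀ D)]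
  have hKq : (q : ℝ) ≤ K := by linarith
  have hKA : |Ab D 0| / η ≤ K := by linarith
  have hKD : Dm D ≤ K := by linarith [le_abs_self (Dm D)]
  have hKT : cb q * CT D ≤ K := by linarith [le_abs_self (cb q * CT D)]
  have hKF : ‖Bf‖ * (2 * Cx D + 1) * Dm D ≤ K := by
    linarith [le_abs_self (‖Bf‖ * (2 * Cx D + 1) * Dm D)]
  have hKo : out D 0 ≤ K := by linarith [le_abs_self (out D 0)]
  have hKI : Ip D ≤ K := by linarith [le_abs_self (Ip D)]
  clear hK ha ha1 ha2 ha3 ha4 ha5 hn0 hd0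
  have hK1 : 1 ≤ K := by linarith
  have hKp : 0 < K := by linarith
  have hC10 : 0 ≤ |C1 0| := abs_nonneg _
  have hCd0 : 0 ≤ Cd := by rw [hCd]; linarith
  have hR0 : 0 ≤ R := by rw [hRd]; linarith
  have hCx1 : ∀ m, 1 ≤ Cx m := fun m => by
    have h1 := cap_nonneg C1 (rangeOf B s (m + 1))
    have h2 : 0 ≤ ∑ N ∈ range (m + 1), cap (out N) (rangeOf B s (m + 1)) :=
      Finset.sum_nonneg fun _ _ => cap_nonneg _ _
    simp only [hCxd]; linarith
  have hCx0 : 0 ≤ Cx D := by linarith [hCx1 D]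
  have hAge : ∀ i, cm i q * R ≤ Ab D i ∧ ca q i * (Cd + cap C1 i) ≤ Ab D i ∧ C1 i ≤ Ab D i ∧
      0 ≤ Ab D i := fun i => by
    have h1 := cap_nonneg C1 i
    have h2 : 0 ≤ cm i q * R := mul_nonneg (hcm0 i q) hR0
    have h3 : 0 ≤ ca q i * (Cd + cap C1 i) := mul_nonneg (hca q i) (by linarith)
    have h4 : C1 i ≤ cap C1 i := le_cap C1 le_rfl
    simp only [hAb, ← hq]
    refine ⟨?_, ?_, ?_, ?_⟩ <;> linarith
  -- the mollified map
  set h : ℝ := (K ^ 3)⁻¹ with hh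
  have hh0 : 0 < h := by positivity
  have hh1 : h ≤ 1 := inv_le_one_of_one_le₀ (one_le_pow₀ hK1)
  have hqh : (q : ℝ) * h ≤ 1 := by
    rw [hh, mul_inv_le_iff₀ (by positivity), one_mul]
    exact hKq.trans (le_self_pow₀ hK1 (by norm_num))
  set Xm : M → V := A.mollify h q X with hXmd
  have hXs : ContMDiff I 𝓘(ℝ, V) ∞ Xm := A.mollify_smooth hX.smooth hh0 hqh
  have hXmB : ∀ i, A.NormLe i Xm (Ab D i * K ^ (3 * i)) := fun i => by
    refine A.normLe_mono (hcm i q X hX.smooth h hh0 hh1 hqh R hX0) ?_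
    rw [show h⁻¹ ^ i = K ^ (3 * i) by rw [hh, inv_inv, ← pow_mul], mul_right_comm]
    exact mul_le_mul_of_nonneg_right (hAge i).1 (by positivity)
  have hdif : ∀ l ≤ q, A.NormLe l (fun p => X p - Xm p)
      (Dm D * K ^ (2 * q + 1) * (K ^ (3 * q))⁻¹) := fun l hl => by
    refine A.normLe_mono (hcs l q X hX.smooth h hh0 hqh (Cx D * K ^ (2 * q + 1)) fun m hm => ?_) ?_
    · refine A.normLe_mono (hX.bound m (by simp only [rangeOf]; omega)) ?_
      exact mul_le_mul_of_nonneg_left (pow_le_pow_right₀ hK1 (by omega)) hCx0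
    · rw [show h ^ q = (K ^ (3 * q))⁻¹ by rw [hh, inv_pow, ← pow_mul]]
      have h1 : cs l q ≤ cap (fun l => cs l q) q := le_cap (fun l => cs l q) hl
      calc cs l q * (K ^ (3 * q))⁻¹ * (Cx D * K ^ (2 * q + 1))
          = cs l q * (Cx D * K ^ (2 * q + 1) * (K ^ (3 * q))⁻¹) := by ring
        _ ≤ cap (fun l => cs l q) q * (Cx D * K ^ (2 * q + 1) * (K ^ (3 * q))⁻¹) :=
            mul_le_mul_of_nonneg_right h1 (by positivity)
        _ = _ := by simp only [hDm, ← hq]; ring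
  have hdif' : ∀ l ≤ q, A.NormLe l (fun p => X p - Xm p) (K ^ (q - 2))⁻¹ := fun l hl =>
    A.normLe_mono (hdif l hl) (tiny hK1 hKD (by omega))
  have hd1 : Dm D * K ^ (2 * q + 1) * (K ^ (3 * q))⁻¹ ≤ 1 :=
    (tiny hK1 hKD (b := 0) (by omega)).trans (by simp)
  have hform : ∀ k, ∀ z ∈ ball (0 : E) 2,
      ‖formAt (A := A) Bf X k z - formAt (A := A) Bf Xm k z‖ ≤ (K ^ b)⁻¹ := fun k z hz => by
    refine (A.form_close Bf hX.smooth hXs (hX.bound 1 (by simp only [rangeOf]; omega))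
      (hdif 1 (by omega)) hd1 k hz).trans ?_
    refine le_trans ?_ (tiny hK1 hKF (m := 2 * q + 3) (a := 3 * q) (b := b) (by omega))
    have hK2 : (1 : ℝ) ≤ K ^ (1 + 1) := one_le_pow₀ hK1
    have h5 : 2 * (Cx D * K ^ (1 + 1)) + 1 ≤ (2 * Cx D + 1) * K ^ (1 + 1) := by linarith
    have h6 : 0 ≤ Dm D * K ^ (2 * q + 1) * (K ^ (3 * q))⁻¹ := by
      have := cap_nonneg (fun l => cs l (qOf B s D)) (qOf B s D)
      positivity
    calc _ ≤ ‖Bf‖ * ((2 * Cx D + 1) * K ^ (1 + 1)) *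
          (Dm D * K ^ (2 * q + 1) * (K ^ (3 * q))⁻¹) :=
          mul_le_mul_of_nonneg_right (mul_le_mul_of_nonneg_left h5 (norm_nonneg _)) h6
      _ = _ := by rw [show 2 * q + 3 = 1 + 1 + (2 * q + 1) by ring, pow_add K (1 + 1)]; ring
  -- the prescribed tensor
  obtain ⟨T, hT⟩ := A.exists_deficit_tensor hsymm g hX.smooth (K ^ D)⁻¹
  set c : ℝ := K ^ D * ((K ^ B) ^ D')⁻¹ with hc
  have hc1 : c ≤ K⁻¹ := by
    rw [hc, ← pow_mul, mul_inv_le_iff₀ (by positivity), ← div_eq_inv_mul, le_div_iff₀ hKp,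
      ← pow_succ]
    refine pow_le_pow_right₀ hK1 ?_
    have : 3 * D' ≤ B * D' := Nat.mul_le_mul_right D' hB
    omega
  have hTq : ∀ l ≤ q, ∀ j, ∀ z ∈ ball (0 : E) 2,
      ‖iteratedFDeriv ℝ l (T.comp j) z‖ ≤ CT D * K ^ (2 * q + 4) := fun l hl j z hz => by
    rw [show T.comp j = fun y => g.comp j y - formAt (A := A) Bf X j y - (K ^ D)⁻¹ • g.comp j y from
      funext (hT j)]
    have hN : ∀ m ≤ l + 1, A.NormLe m X (Cx D * K ^ (q + 2)) := fun m hm =>
      A.normLe_mono (hX.bound m (by simp only [rangeOf]; omega))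
        (mul_le_mul_of_nonneg_left (pow_le_pow_right₀ hK1 (by omega)) hCx0)
    refine (A.deficit_deriv g hX.smooth ?_ (fun i' z' hz' => (hg l i' z' hz').trans
      (le_cap C1 hl)) hN j hz).trans ?_
    · rw [abs_of_pos (by positivity)]
      exact inv_le_one_of_one_le₀ (one_le_pow₀ hK1)
    · have h2 : (1 : ℝ) ≤ K ^ (2 * q + 4) := one_le_pow₀ hK1
      have h3 := cap_nonneg C1 q
      have h4 : ‖formL Bf (E := E)‖ * 2 ^ l * (Cx D * K ^ (q + 2)) ^ 2 ≤
          ‖formL Bf (E := E)‖ * 2 ^ q * Cx D ^ 2 * K ^ (2 * q + 4) := by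
        rw [mul_pow, ← pow_mul, show (q + 2) * 2 = 2 * q + 4 by ring, ← mul_assoc]
        gcongr
        norm_num
      have h5 : 2 * cap C1 q ≤ 2 * cap C1 q * K ^ (2 * q + 4) :=
        le_mul_of_one_le_right (by linarith) h2
      simp only [hCT, ← hq]
      rw [add_mul]
      linarith
  have hCT0 : 0 ≤ CT D := by
    have := cap_nonneg C1 (qOf B s D)
    simp only [hCT]; positivity
  obtain ⟨e, hes, hesupp, hesym, heb, hepush⟩ := hpre K hK1 D q hqh c (by positivity) hc1 g T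
    (cap C1) (fun i l hl j z hz => (hg l j z hz).trans (le_cap C1 hl)) Cd hCd0
    (fun j z hz => by rw [hT]; exact hX.deficit j z hz) _ (by positivity) hTq
  have heb' : ∀ i j y, ‖iteratedFDeriv ℝ i (e j) y‖ ≤ Ab D i * K ^ (3 * i) * K⁻¹ := fun i j y =>
    (heb i j y).trans (by gcongr; exact (hAge i).2.1)
  -- the stage
  obtain ⟨X', hX's, hgood, hbd, hc2, herr⟩ := hstage D K hK0 D (by omega) (by omega) g
    (fun i j z hz => (hg i j z hz).trans (hAge i).2.2.1)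
    Xm X hXs hX.smooth hX.good
    (fun l hl => A.normLe_mono (A.normLe_neg_sub (hdif' l (by omega)))
      (inv_pow_le hK1 (by omega)))
    hXmB e hes hesupp hesym
    (fun i j y => (heb' i j y).trans (mul_le_of_le_one_right
      (mul_nonneg (hAge i).2.2.2 (by positivity)) (inv_le_one_of_one_le₀ hK1)))
    (fun j y => by
      rw [← norm_iteratedFDeriv_zero (𝕜 := ℝ) (f := e j)]
      refine (heb' 0 j y).trans ?_
      rw [Nat.mul_zero, pow_zero, mul_one, ← div_eq_mul_inv, div_le_iff₀ hKp]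
      rw [div_le_iff₀ hη] at hKA
      linarith [le_abs_self (Ab D 0)])
  refine ⟨X', ⟨hX's, hgood, fun l hl => ?_, fun k z hz => ?_⟩, fun l hl => ?_,
    fun i hi hi' => ?_⟩
  · refine A.normLe_mono (hbd l) ?_
    have h1 : out D l ≤ Cx D' := by
      refine (le_cap (out D) (hl.trans (rangeOf_mono B s (Nat.le_succ D')))).trans ?_
      have h2 := single_le_sum (f := fun N => cap (out N) (rangeOf B s (D' + 1)))
        (fun _ _ => cap_nonneg _ _) (Finset.mem_range.2 (Nat.lt_succ_of_le hDD'))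
      have h3 := cap_nonneg C1 (rangeOf B s (D' + 1))
      simp only [hCxd]; linarith
    exact mul_le_mul h1 (pow_le_pow_right₀ (one_le_pow₀ hK1) (Nat.le_succ l)) (by positivity)
      (by linarith [hCx1 D'])
  · have hst' := herr k z hz
    have hpe := hepush k z hz
    rw [← hb] at hst'
    have hcd : (K ^ D)⁻¹ * c = ((K ^ B) ^ D')⁻¹ := by
      rw [hc, inv_mul_cancel_left₀ (by positivity)]
    rw [hcd] at hpe
    have key : g.comp k z - formAt (A := A) Bf X' k z - ((K ^ B) ^ D')⁻¹ • g.comp k z =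
        -((K ^ D)⁻¹ • A.push e k z + ((K ^ B) ^ D')⁻¹ • g.comp k z - T.comp k z) +
          (formAt (A := A) Bf X k z - formAt (A := A) Bf Xm k z) -
          (formAt (A := A) Bf X' k z - formAt (A := A) Bf Xm k z -
            (K ^ D)⁻¹ • (g.comp k z + A.push e k z)) := by
      rw [hT, smul_add]; abel
    rw [key]
    refine (norm_sub_le _ _).trans ((add_le_add (norm_add_le _ _) le_rfl).trans ?_)
    rw [norm_neg]
    have hp2 : cb q * (CT D * K ^ (2 * q + 4)) * (K ^ (3 * q))⁻¹ ≤ (K ^ b)⁻¹ :=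
      le_trans (le_of_eq (by ring)) (tiny hK1 hKT (m := 2 * q + 4) (a := 3 * q) (b := b) (by omega))
    have hbb : (K ^ b)⁻¹ ≤ ((K ^ B) ^ (D' + 1))⁻¹ := by
      rw [← pow_mul]; exact inv_pow_le hK1 (Nat.mul_le_mul_left B (by omega))
    have hf := hform k z hz
    have h0 : (0 : ℝ) ≤ ((K ^ B) ^ (D' + 1))⁻¹ := by positivity
    have : 3 * ((K ^ B) ^ (D' + 1))⁻¹ ≤ Cd * ((K ^ B) ^ (D' + 1))⁻¹ :=
      mul_le_mul_of_nonneg_right (by rw [hCd]; linarith) h0
    linarith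
  · refine A.normLe_mono (A.normLe_triangle hX's hXs hX.smooth (hc2 l hl)
      (A.normLe_neg_sub (hdif' l (by omega)))) ?_
    have h1 : out D 0 * K ^ B * (K ^ (D / 4))⁻¹ ≤ (K ^ 2)⁻¹ := tiny hK1 hKo (by omega)
    have h2 : (K ^ (q - 2))⁻¹ ≤ (K ^ 2)⁻¹ := inv_pow_le hK1 (by omega)
    linarith
  · have hiK : ((i + 3 : ℕ) : ℝ) ≤ K :=
      le_trans (by exact_mod_cast (show i + 3 ≤ q by omega)) hKq
    set Cw : ℝ := cap (out D) q + cap (Ab D) q with hCwd
    have hw0 : A.NormLe 0 (fun p => X' p - Xm p) (|out D 0| * K ^ B * (K ^ (D / 4))⁻¹) := by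
      refine A.normLe_mono (hc2 0 (by norm_num)) ?_
      gcongr
      exact le_abs_self _
    have e3 := hint K hK1 B i (by omega) hiK _ (hX's.sub hXs) _ (Cw * K ^ (B * (2 * i + 3))) hw0
      fun m hm => by
        refine A.normLe_mono (A.normLe_sub hX's hXs (hbd m) (hXmB m)) ?_
        have hm' : B * m ≤ B * (2 * i + 3) := Nat.mul_le_mul_left B hm
        have h3m : 3 * m ≤ B * m := Nat.mul_le_mul_right m hB
        rw [← pow_mul, show Cw * K ^ (B * (2 * i + 3)) = cap (out D) q * K ^ (B * (2 * i + 3)) +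
          cap (Ab D) q * K ^ (B * (2 * i + 3)) by rw [← add_mul]]
        exact add_le_add
          (mul_le_mul (le_cap (out D) (show m ≤ q by omega)) (pow_le_pow_right₀ hK1 hm') (by positivity)
            (cap_nonneg _ _))
          (mul_le_mul (le_cap (Ab D) (show m ≤ q by omega)) (pow_le_pow_right₀ hK1 (h3m.trans hm'))
            (by positivity)
            (cap_nonneg _ _))
    refine A.normLe_mono (A.normLe_triangle hX's hXs hX.smooth e3
      (A.normLe_neg_sub (hdif' i (by omega)))) ?_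
    have hCw0 : 0 ≤ Cw := add_nonneg (cap_nonneg _ _) (cap_nonneg _ _)
    have hI : ci i * |out D 0| ≤ K ∧ cj i * Cw ≤ K := by
      have h1 := mul_le_mul_of_nonneg_right (le_cap ci (show i ≤ q by omega))
        (abs_nonneg (out D 0))
      have h2 := mul_le_mul_of_nonneg_right (le_cap cj (show i ≤ q by omega)) hCw0
      have h3 : 0 ≤ cap ci q * |out D 0| := mul_nonneg (cap_nonneg _ _) (abs_nonneg _)
      have h4 : 0 ≤ cap cj q * Cw := mul_nonneg (cap_nonneg _ _) hCw0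
      have h5 : cap ci q * |out D 0| + cap cj q * Cw ≤ K := hKI
      constructor <;> linarith
    have t1 : ci i * K ^ (2 * B * i) * (|out D 0| * K ^ B * (K ^ (D / 4))⁻¹) ≤ (K ^ 1)⁻¹ := by
      refine le_trans (le_of_eq ?_) (tiny hK1 hI.1 (m := 2 * B * i + B) (a := D / 4) ?_)
      · rw [pow_add]; ring
      · have : 8 * B * i = 4 * (2 * B * i) := by ring
        omega
    have t2 : cj i * (K ^ (2 * B * (i + 3)))⁻¹ * (Cw * K ^ (B * (2 * i + 3))) ≤ (K ^ 1)⁻¹ := by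
      refine le_trans (le_of_eq ?_) (tiny hK1 hI.2 (m := B * (2 * i + 3))
        (a := 2 * B * (i + 3)) ?_)
      · ring
      · have : 2 * B * (i + 3) = B * (2 * i + 3) + 3 * B := by ring
        omega
    have t3 : (K ^ (q - 2))⁻¹ ≤ (K ^ 1)⁻¹ := inv_pow_le hK1 (by omega)
    rw [pow_one] at t1 t2 t3
    linarith

end Atlas

end Vale.Agent.P205.Iter
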