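import Vale.Agent.P205.Iter.FlatComp
import Vale.Agent.P205.Iter.Frames
import Vale.Agent.P205.Iter.Push

/-!
The colours of a stage and their flat weights.
-/

noncomputable section

set_option maxSynthPendingDepth 3

open Set Filter Finset Metric Function
open scoped ContDiff Topology Manifold

namespace Vale.Agent.P205.Iter

open Wave (V4 Scale Cost)

theorem glue_sq_le_one (x : ℝ) : expNegInvGlue x ^ 2 ≤ 1 :=
  pow_le_one₀ (expNegInvGlue.nonneg x) (glue_le_one x)

variable {E₀ : Type*} [NormedAddCommGroup E₀] [NormedSpace ℝ E₀]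
  {H : Type*} [TopologicalSpace H] {I : ModelWithCorners ℝ E₀ H}
  {M : Type} [TopologicalSpace M] [ChartedSpace H M]
  {A : Atlas (E := R2) (I := I) (M := M)} {n : ℕ}

namespace Atlas

variable (A)

/-- A colour: a chart, a cell of components, a test direction. -/
abbrev Col (n : ℕ) := A.ι × Fin n × Fin 3

/-- What the weights of a stage depend on. -/
structure Dat (Ael : ℝ) (Ab : ℕ → ℝ) (c1 : ℝ) where
  /-- The scale. -/
  K : ℝ
  /-- The order. -/
  D : ℕ
  /-- The metric. -/
  g : A.Tensor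
  /-- The map. -/
  X : M → V4
  /-- The prescribed pieces. -/
  e : A.ι → R2 → Bil R2
  one_le : 1 ≤ K
  c1_pos : 0 < c1
  ell : ∀ j, ∀ z ∈ ball (0 : R2) 2, compL' (g.comp j z) ∈ ellSet Ael
  bdg : ∀ (i : ℕ) (j : A.ι), ∀ z ∈ ball (0 : R2) 2, ‖iteratedFDeriv ℝ i (g.comp j) z‖ ≤ Ab i
  smoothX : ContMDiff I 𝓘(ℝ, V4) ∞ X
  bdX : ∀ i, A.NormLe i X (Ab i * K ^ (3 * i))
  smoothE : ∀ j, ContDiff ℝ ∞ (e j)
  suppE : ∀ j, support (e j) ⊆ closedBall 0 2
  symmE : ∀ j y u v, e j y u v = e j y v u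
  bdE : ∀ (i : ℕ) (j : A.ι) (y : R2), ‖iteratedFDeriv ℝ i (e j) y‖ ≤ Ab i * K ^ (3 * i)
  low : ∀ j, ∀ z ∈ ball (0 : R2) 2,
    1 ≤ c1 * K * areaP (jet (fun y => X (A.par j y)) z) ∧
      1 ≤ c1 * K * bendS (jet (fun y => X (A.par j y)) z)

variable {A} {Ael : ℝ} {Ab : ℕ → ℝ} {c1 : ℝ}

/-- The scale of the weights. -/
def scale0 : Scale (A.Dat Ael Ab c1) R2 where
  S _ := ball 0 2
  B t := t.K ^ 50
  isOpen _ := isOpen_ball
  one_le t := one_le_pow₀ t.one_le

/-- The scale of the data. -/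
def scale3 : Scale (A.Dat Ael Ab c1) R2 where
  S _ := ball 0 2
  B t := t.K ^ 3
  isOpen _ := isOpen_ball
  one_le t := one_le_pow₀ t.one_le

variable (cell : Fin n → Cell)

/-- The three arguments of the cut-off of a colour. -/
def arg1 (c : A.Col n) (z : R2) : ℝ := (Fintype.card A.ι : ℝ) * A.weight c.1 (A.par c.1 z) - 1 / 2

/-- The argument measuring the components of the metric. -/
def arg2 (c : A.Col n) (t : A.Dat Ael Ab c1) (z : R2) : ℝ :=
  (cell c.2.1).rad ^ 2 - ∑ k, (compL' (t.g.comp c.1 z) k - (cell c.2.1).mid k) ^ 2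

/-- The argument measuring the bending. -/
def arg3 (c : A.Col n) (t : A.Dat Ael Ab c1) (z : R2) : ℝ :=
  c1 * t.K * testP c.2.2 (jet (fun y => t.X (A.par c.1 y)) z)

/-- The cut-off in the ball of the chart. -/
def cutFun (c : A.Col n) (t : A.Dat Ael Ab c1) (z : R2) : ℝ :=
  expNegInvGlue (arg1 c z) * expNegInvGlue (arg2 cell c t z) * expNegInvGlue (arg3 c t z)

open Classical in
/-- The cut-off of a colour in its chart. -/
def chartCut (c : A.Col n) (t : A.Dat Ael Ab c1) (z : R2) : ℝ :=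
  if z ∈ ball (0 : R2) 3 then cutFun cell c t z else 0

theorem cutFun_nonneg (c : A.Col n) (t : A.Dat Ael Ab c1) (z : R2) : 0 ≤ cutFun cell c t z :=
  mul_nonneg (mul_nonneg (expNegInvGlue.nonneg _) (expNegInvGlue.nonneg _))
    (expNegInvGlue.nonneg _)

theorem chartCut_nonneg (c : A.Col n) (t : A.Dat Ael Ab c1) (z : R2) :
    0 ≤ chartCut cell c t z := by
  unfold chartCut; split_ifs
  exacts [cutFun_nonneg cell c t z, le_rfl]

theorem chartCut_le_one (c : A.Col n) (t : A.Dat Ael Ab c1) (z : R2) :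
    chartCut cell c t z ≤ 1 := by
  unfold chartCut; split_ifs
  · exact mul_le_one₀ (mul_le_one₀ (glue_le_one _) (expNegInvGlue.nonneg _) (glue_le_one _))
      (expNegInvGlue.nonneg _) (glue_le_one _)
  · exact zero_le_one

/-- Where a cut-off is not zero. -/
theorem chartCut_pos (c : A.Col n) (t : A.Dat Ael Ab c1) {z : R2}
    (h : chartCut cell c t z ≠ 0) : z ∈ closedBall (0 : R2) 1 ∧
      ‖compL' (t.g.comp c.1 z) - (cell c.2.1).mid‖ ≤ (cell c.2.1).rad ∧
      bendS (jet (fun y => t.X (A.par c.1 y)) z) ≤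
        6 * bendP c.2.2 (jet (fun y => t.X (A.par c.1 y)) z) := by
  unfold chartCut at h
  split_ifs at h with hz
  · have hp : ∀ x : ℝ, expNegInvGlue x ≠ 0 → 0 < x := fun x hx => by
      by_contra hx'
      exact hx (expNegInvGlue.zero_of_nonpos (not_lt.1 hx'))
    have h' := mul_ne_zero_iff.1 h
    have h1 := hp _ (mul_ne_zero_iff.1 h'.1).1
    have h2 := hp _ (mul_ne_zero_iff.1 h'.1).2
    have h3 := hp _ h'.2
    refine ⟨?_, ?_, ?_⟩
    · have hw : A.weight c.1 (A.par c.1 z) ≠ 0 := fun h0 => by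
        simp only [arg1, h0, mul_zero] at h1
        linarith
      have h2' := (A.weight_supp c.1 (subset_tsupport _ hw)).2
      rw [Set.mem_preimage, A.inv_par c.1 z hz] at h2'
      exact ball_subset_closedBall h2'
    · refine (pi_norm_le_iff_of_nonneg (cell c.2.1).rad_pos.le).2 fun k => ?_
      have hk := single_le_sum (f := fun k => (compL' (t.g.comp c.1 z) k - (cell c.2.1).mid k) ^ 2)
        (fun k _ => sq_nonneg _) (Finset.mem_univ k)
      simp only [arg2] at h2
      exact abs_le_of_sq_le_sq (by simp only [Pi.sub_apply]; linarith) (cell c.2.1).rad_pos.le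
    · simp only [arg3, testP] at h3
      have := (pos_iff_pos_of_mul_pos h3).1 (mul_pos t.c1_pos (by linarith [t.one_le]))
      linarith
  · exact absurd rfl h

theorem arg1_smooth (c : A.Col n) : ContDiffOn ℝ ∞ (arg1 c) (ball 0 3) :=
  (contDiffOn_const.mul ((A.weight_smooth c.1).comp_contMDiffOn (A.par_smooth c.1)).contDiffOn).sub
    contDiffOn_const

theorem arg2_smooth (c : A.Col n) (t : A.Dat Ael Ab c1) :
    ContDiffOn ℝ ∞ (arg2 cell c t) (ball 0 3) :=
  contDiffOn_const.sub (ContDiffOn.sum fun k _ =>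
    (((ContinuousLinearMap.proj k : Sym2 →L[ℝ] ℝ).contDiff.comp_contDiffOn
      (compL'.contDiff.comp_contDiffOn (t.g.smooth c.1))).sub contDiffOn_const).pow 2)

theorem jet_smooth {f : R2 → V4} {O : Set R2} (hO : IsOpen O) (hf : ContDiffOn ℝ ∞ f O) :
    ContDiffOn ℝ ∞ (jet f) O := by
  refine contDiffOn_pi.2 fun i => ?_
  have h1 := fun a => Wave.contDiffOn_D hO hf a
  fin_cases i
  · exact h1 _
  · exact h1 _
  · exact Wave.contDiffOn_D hO (h1 _) _
  · exact Wave.contDiffOn_D hO (h1 _) _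
  · exact Wave.contDiffOn_D hO (h1 _) _

theorem arg3_smooth (c : A.Col n) (t : A.Dat Ael Ab c1) :
    ContDiffOn ℝ ∞ (arg3 c t) (ball 0 3) :=
  contDiffOn_const.mul ((testP_smooth c.2.2).comp_contDiffOn
    (jet_smooth isOpen_ball (chart_smooth t.smoothX c.1)))

theorem chartCut_smooth (c : A.Col n) (t : A.Dat Ael Ab c1) :
    ContDiff ℝ ∞ (chartCut cell c t) := by
  refine contDiff_iff_contDiffAt.2 fun z => ?_
  by_cases hz : z ∈ ball (0 : R2) 3
  · have h := ((expNegInvGlue.contDiff.comp_contDiffOn (arg1_smooth c)).mul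
      (expNegInvGlue.contDiff.comp_contDiffOn (arg2_smooth cell c t))).mul
      (expNegInvGlue.contDiff.comp_contDiffOn (arg3_smooth c t))
    refine (h.contDiffAt (isOpen_ball.mem_nhds hz)).congr_of_eventuallyEq ?_
    filter_upwards [isOpen_ball.mem_nhds hz] with y hy
    simp only [chartCut, if_pos hy]
    rfl
  · refine (contDiffAt_const (c := (0 : ℝ))).congr_of_eventuallyEq ?_
    have hz1 : z ∉ closedBall (0 : R2) 1 := fun h => hz (closedBall_subset_ball (by norm_num) h)
    filter_upwards [isClosed_closedBall.isOpen_compl.mem_nhds hz1] with y hy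
    by_contra h
    exact hy (chartCut_pos cell c t h).1

/-- Bounded data are of unit size. -/
theorem cost_g (j : A.ι) :
    Cost (scale0 (A := A) (Ael := Ael) (Ab := Ab) (c1 := c1)) (fun _ _ => 1)
      (fun t z => compL' (t.g.comp j z)) := by
  refine Cost.clm ⟨fun t => (t.g.smooth j).mono (ball_subset_ball (by norm_num)),
    fun _ _ _ => zero_le_one, fun i => ⟨|Ab i|, abs_nonneg _, fun t z hz => ?_⟩⟩ compL'
  rw [mul_one]
  exact (t.bdg i j z hz).trans ((le_abs_self _).trans
    (le_mul_of_one_le_right (abs_nonneg _) (one_le_pow₀ ((scale0 (A := A)).one_le t))))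

theorem cost_X (j : A.ι) :
    Cost (scale3 (A := A) (Ael := Ael) (Ab := Ab) (c1 := c1)) (fun _ _ => 1)
      (fun t z => t.X (A.par j z)) := by
  refine ⟨fun t => (chart_smooth t.smoothX j).mono (ball_subset_ball (by norm_num)),
    fun _ _ _ => zero_le_one, fun i => ⟨|Ab i|, abs_nonneg _, fun t z hz => ?_⟩⟩
  refine (t.bdX i j z hz).trans ?_
  rw [mul_one, show (scale3 (A := A)).B t = t.K ^ 3 from rfl, ← pow_mul]
  exact mul_le_mul_of_nonneg_right (le_abs_self _) (pow_nonneg (by linarith [t.one_le]) _)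

theorem flt_chartCut (c : A.Col n) :
    Flt (scale0 (A := A) (Ael := Ael) (Ab := Ab) (c1 := c1))
      (fun t z => chartCut cell c t z) := by
  have h23 : ball (0 : R2) 2 ⊆ ball 0 3 := ball_subset_ball (by norm_num)
  have hB : ∀ (t : A.Dat Ael Ab c1) (i : ℕ), (1 : ℝ) ≤ (scale0 (A := A)).B t ^ i :=
    fun t i => one_le_pow₀ ((scale0 (A := A)).one_le t)
  have f1 : Flt (scale0 (A := A) (Ael := Ael) (Ab := Ab) (c1 := c1))
      (fun _ z => expNegInvGlue (arg1 c z)) := by
    refine flt_glue (fun _ => (arg1_smooth c).mono h23) fun i _ => ?_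
    obtain ⟨C, hC⟩ := (isCompact_closedBall (0 : R2) 2).exists_bound_of_continuousOn
      (((arg1_smooth c).continuousOn_iteratedFDerivWithin (m := i) (by exact_mod_cast le_top)
        isOpen_ball.uniqueDiffOn).mono (closedBall_subset_ball (by norm_num)))
    refine ⟨|C|, fun t z hz => ?_⟩
    rw [← iteratedFDerivWithin_of_isOpen i isOpen_ball (h23 hz)]
    exact ((hC z (ball_subset_closedBall hz)).trans (le_abs_self C)).trans
      (le_mul_of_one_le_right (abs_nonneg C) (hB t i))
  have f2 : Flt (scale0 (A := A) (Ael := Ael) (Ab := Ab) (c1 := c1))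
      (fun t z => expNegInvGlue (arg2 cell c t z)) := by
    refine flt_glue (fun t => (arg2_smooth cell c t).mono h23) fun i _ => ?_
    set R : ℝ := ‖compL'‖ * |Ab 0|
    have hsm : ContDiff ℝ ∞ fun T : Sym2 =>
        (cell c.2.1).rad ^ 2 - ∑ k, (T k - (cell c.2.1).mid k) ^ 2 := by fun_prop
    have hc := (cost_g (A := A) (Ael := Ael) (Ab := Ab) (c1 := c1) c.1).comp_smooth isOpen_univ
      (isCompact_closedBall (0 : Sym2) R) (subset_univ _) hsm.contDiffOn fun t z hz => by
        rw [mem_closedBall_zero_iff]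
        refine (compL'.le_opNorm _).trans (mul_le_mul_of_nonneg_left ?_ (norm_nonneg _))
        rw [← norm_iteratedFDeriv_zero (𝕜 := ℝ) (f := t.g.comp c.1)]
        exact (t.bdg 0 c.1 z hz).trans (le_abs_self _)
    obtain ⟨C, -, hC⟩ := hc.bound i
    exact ⟨C, fun t z hz => (hC t z hz).trans (le_of_eq (by rw [mul_one]))⟩
  have f3 : Flt (scale0 (A := A) (Ael := Ael) (Ab := Ab) (c1 := c1))
      (fun t z => expNegInvGlue (arg3 c t z)) := by
    refine flt_glue (fun t => (arg3_smooth c t).mono h23) fun i hi => ?_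
    have hj := homog_cost (F := testP c.2.2) (d := 6) (W := fun t : A.Dat Ael Ab c1 => 1 * (t.K ^ 3) ^ 2)
      (fun t => mul_pos one_pos (pow_pos (pow_pos (by linarith [t.one_le]) _) _))
      (cost_jet (cost_X (A := A) (Ael := Ael) (Ab := Ab) (c1 := c1) c.1))
      (testP_smooth c.2.2) (testP_smul c.2.2)
    obtain ⟨C, hC0, hC⟩ := hj.bound i
    refine ⟨|c1| * C, fun t z hz => ?_⟩
    rw [show arg3 c t = (c1 * t.K) • fun z => testP c.2.2 (jet (fun y => t.X (A.par c.1 y)) z)
      from rfl, iteratedFDeriv_const_smul_apply (hj.contDiffAt hz i), norm_smul, Real.norm_eq_abs,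
      abs_mul, abs_of_pos (show (0 : ℝ) < t.K by linarith [t.one_le])]
    refine (mul_le_mul_of_nonneg_left (hC t z hz)
      (mul_nonneg (abs_nonneg _) (by linarith [t.one_le]))).trans ?_
    rw [show (scale3 (A := A)).B t = t.K ^ 3 from rfl,
      show (scale0 (A := A)).B t = t.K ^ 50 from rfl]
    calc |c1| * t.K * (C * (1 * (t.K ^ 3) ^ 2) ^ 6 * (t.K ^ 3) ^ i)
        = |c1| * C * t.K ^ (1 + 36 + 3 * i) := by ring
      _ ≤ |c1| * C * t.K ^ (50 * i) :=
          mul_le_mul_of_nonneg_left (pow_le_pow_right₀ t.one_le (by omega))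
            (mul_nonneg (abs_nonneg _) hC0)
      _ = |c1| * C * (t.K ^ 50) ^ i := by rw [← pow_mul]
  intro d
  refine (((f1.mul f2 (fun _ _ => expNegInvGlue.nonneg _) fun _ _ => expNegInvGlue.nonneg _).mul f3
    (fun _ _ => mul_nonneg (expNegInvGlue.nonneg _) (expNegInvGlue.nonneg _))
    fun _ _ => expNegInvGlue.nonneg _) d).congr (fun t z hz => if_pos (h23 hz)) |>.mono zero_le_one
    (fun t z _ => Real.rpow_nonneg (chartCut_nonneg cell c t z) _) fun t z hz => ?_
  rw [one_mul]
  simp only [chartCut, if_pos (h23 hz)]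
  exact le_rfl

/-- The cut-off of a colour on the manifold. -/
def colCut (c : A.Col n) (t : A.Dat Ael Ab c1) (p : M) : ℝ := A.glue c.1 (chartCut cell c t) p

/-- The sum of the squares of all cut-offs. -/
def total (t : A.Dat Ael Ab c1) (p : M) : ℝ := ∑ c : A.Col n, colCut cell c t p ^ 2

theorem chartCut_supp (c : A.Col n) (t : A.Dat Ael Ab c1) :
    support (chartCut cell c t) ⊆ closedBall 0 2 := fun _ hz =>
  closedBall_subset_closedBall (by norm_num) (chartCut_pos cell c t hz).1

theorem colCut_par (c : A.Col n) (t : A.Dat Ael Ab c1) {z : R2} (hz : z ∈ ball (0 : R2) 3) :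
    colCut cell c t (A.par c.1 z) = chartCut cell c t z := by
  rw [colCut, glue, if_pos (A.par_mem c.1 hz), A.inv_par c.1 z hz]

variable [T2Space M]

theorem colCut_smooth (c : A.Col n) (t : A.Dat Ael Ab c1) :
    ContMDiff I 𝓘(ℝ) ∞ (colCut cell c t) :=
  A.glue_smooth c.1 (chartCut_smooth cell c t) (chartCut_supp cell c t)

variable {cell}

omit [T2Space M] in
/-- The cut-offs are not all small. -/
theorem total_range (hcell : ∀ T ∈ ellSet Ael, ∃ i, ‖T - (cell i).mid‖ ≤ (cell i).rad / 2) :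
    ∃ c₀ C₀ : ℝ, 0 < c₀ ∧ ∀ (t : A.Dat Ael Ab c1) (p : M),
      c₀ ≤ total cell t p ∧ total cell t p ≤ C₀ := by
  set b : Fin n → ℝ := fun i => expNegInvGlue ((cell i).rad ^ 2 / 4)
  have hb : ∀ i, 0 < b i := fun i =>
    expNegInvGlue.pos_of_pos (div_pos (pow_pos (cell i).rad_pos 2) (by norm_num))
  set b₀ : ℝ := (1 + ∑ i, (b i)⁻¹)⁻¹
  have hb₀ : 0 < b₀ := inv_pos.2 (by
    linarith [Finset.sum_nonneg (s := Finset.univ) fun i (_ : i ∈ Finset.univ) => (inv_pos.2 (hb i)).le])
  have hbi : ∀ i, b₀ ≤ b i := fun i => by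
    have h := single_le_sum (f := fun i => (b i)⁻¹) (fun i _ => (inv_pos.2 (hb i)).le)
      (Finset.mem_univ i)
    rw [← inv_inv (b i)]
    exact inv_anti₀ (inv_pos.2 (hb i)) (by linarith)
  set a : ℝ := expNegInvGlue (1 / 2) * expNegInvGlue 1
  have ha : 0 < a := mul_pos (expNegInvGlue.pos_of_pos (by norm_num)) (expNegInvGlue.pos_of_pos one_pos)
  refine ⟨(a * b₀) ^ 2, Fintype.card (A.Col n), pow_pos (mul_pos ha hb₀) 2, fun t p => ⟨?_, ?_⟩⟩
  · have hsum := A.weight_sum p
    have : Nonempty A.ι := by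
      obtain ⟨j, -, -⟩ := exists_ne_zero_of_sum_ne_zero
        (by rw [hsum]; exact one_ne_zero : (∑ j, A.weight j p) ≠ 0)
      exact ⟨j⟩
    obtain ⟨j, hj⟩ : ∃ j, 1 ≤ (Fintype.card A.ι : ℝ) * A.weight j p := by
      by_contra h
      have h' : ∑ j, (Fintype.card A.ι : ℝ) * A.weight j p < ∑ _j : A.ι, (1 : ℝ) :=
        Finset.sum_lt_sum_of_nonempty Finset.univ_nonempty fun j _ => not_le.1 fun h1 => h ⟨j, h1⟩
      rw [← Finset.mul_sum, hsum] at h'
      simp at h'
    have hw : A.weight j p ≠ 0 := fun h0 => by rw [h0, mul_zero] at hj; linarith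
    obtain ⟨hsrc, hb1⟩ := A.weight_supp j (subset_tsupport _ hw)
    set z := A.inv j p
    have hz2 : z ∈ ball (0 : R2) 2 := ball_subset_ball (by norm_num) hb1
    have hz3 : z ∈ ball (0 : R2) 3 := A.inv_mem j hsrc
    have hzp : A.par j z = p := A.par_inv j p hsrc
    obtain ⟨i, hi⟩ := hcell _ (t.ell j z hz2)
    have hlow := (t.low j z hz2).2
    set J := jet (fun y => t.X (A.par j y)) z
    obtain ⟨θ, hθ⟩ : ∃ θ : Fin 3, bendS J ≤ 3 * bendP θ J := by
      by_contra h
      push Not at h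
      have h0 := h 0
      have h1 := h 1
      have h2 := h 2
      simp only [bendS, Fin.sum_univ_three] at h0 h1 h2
      linarith
    refine le_trans ?_ (single_le_sum (f := fun c : A.Col n => colCut cell c t p ^ 2)
      (fun c _ => sq_nonneg _) (Finset.mem_univ (j, i, θ)))
    refine pow_le_pow_left₀ (mul_nonneg ha.le hb₀.le) ?_ 2
    rw [← hzp, colCut_par cell (j, i, θ) t hz3, chartCut, if_pos hz3, cutFun]
    have a1 : (1 : ℝ) / 2 ≤ arg1 ((j, i, θ) : A.Col n) z := by simp only [arg1, hzp]; linarith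
    have a2 : (cell i).rad ^ 2 / 4 ≤ arg2 cell ((j, i, θ) : A.Col n) t z := by
      have hk : ∀ k, (compL' (t.g.comp j z) k - (cell i).mid k) ^ 2 ≤ ((cell i).rad / 2) ^ 2 :=
        fun k => sq_le_sq' (neg_le_of_abs_le ((norm_le_pi_norm _ k).trans hi))
          (le_of_abs_le ((norm_le_pi_norm _ k).trans hi))
      have := Finset.sum_le_sum (s := Finset.univ) fun k _ => hk k
      simp at this
      simp only [arg2]
      linarith
    have a3 : (1 : ℝ) ≤ arg3 ((j, i, θ) : A.Col n) t z := by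
      refine hlow.trans ?_
      refine mul_le_mul_of_nonneg_left ?_ (mul_nonneg t.c1_pos.le (by linarith [t.one_le]))
      show bendS J ≤ 6 * bendP θ J - bendS J
      linarith
    calc a * b₀ ≤ expNegInvGlue (1 / 2) * expNegInvGlue 1 * b i :=
          mul_le_mul_of_nonneg_left (hbi i) ha.le
      _ = expNegInvGlue (1 / 2) * b i * expNegInvGlue 1 := by ring
      _ ≤ _ := mul_le_mul (mul_le_mul (expNegInvGlue.monotone a1) (expNegInvGlue.monotone a2)
            (hb i).le (expNegInvGlue.nonneg _)) (expNegInvGlue.monotone a3)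
            (expNegInvGlue.nonneg _) (mul_nonneg (expNegInvGlue.nonneg _) (expNegInvGlue.nonneg _))
  · refine (Finset.sum_le_sum fun c _ => (?_ : colCut cell c t p ^ 2 ≤ 1)).trans (le_of_eq (by simp))
    unfold colCut glue
    split_ifs
    · exact pow_le_one₀ (chartCut_nonneg cell c t _) (chartCut_le_one cell c t _)
    · simp

variable (cell)

theorem total_smooth (t : A.Dat Ael Ab c1) : ContMDiff I 𝓘(ℝ) ∞ (total cell t) :=
  contMDiff_finsetSum fun c _ =>
    (contDiff_id.pow 2).contMDiff.comp (colCut_smooth cell c t)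

/-- The total in a chart is of unit size. -/
theorem cost_total (k : A.ι) :
    Cost (scale0 (A := A) (Ael := Ael) (Ab := Ab) (c1 := c1)) (fun _ _ => 1)
      (fun t z => total cell t (A.par k z)) := by
  have hsm : ∀ (c : A.Col n) (t : A.Dat Ael Ab c1),
      ContDiffOn ℝ ∞ (fun z => colCut cell c t (A.par k z)) (ball 0 2) := fun c t =>
    (chart_smooth (colCut_smooth cell c t) k).mono (ball_subset_ball (by norm_num))
  have h1 : ∀ c : A.Col n, Cost (scale0 (A := A) (Ael := Ael) (Ab := Ab) (c1 := c1))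
      (fun _ _ => 1) (fun t z => colCut cell c t (A.par k z)) := fun c => by
    refine ⟨fun t => hsm c t, fun _ _ _ => zero_le_one, fun i => ?_⟩
    obtain ⟨cg, hcg0, hcg⟩ := A.glue_bound (V := ℝ) c.1 i
    choose C hC0 hC using (flt_chartCut (A := A) (Ael := Ael) (Ab := Ab) (c1 := c1) cell c 0).bound
    refine ⟨cg * ∑ l ∈ range (i + 1), C l,
      mul_nonneg hcg0 (Finset.sum_nonneg fun l _ => hC0 l), fun t z hz => ?_⟩
    have hBi : ∀ l ≤ i, ∀ y, ‖iteratedFDeriv ℝ l (chartCut cell c t) y‖ ≤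
        (∑ l ∈ range (i + 1), C l) * (scale0 (A := A)).B t ^ i := fun l hl y => by
      have hs : 0 ≤ (∑ l ∈ range (i + 1), C l) * (scale0 (A := A)).B t ^ i :=
        mul_nonneg (Finset.sum_nonneg fun l _ => hC0 l)
          (pow_nonneg (zero_le_one.trans ((scale0 (A := A)).one_le t)) i)
      by_cases hy : y ∈ ball (0 : R2) 2
      · refine (hC l t y hy).trans ?_
        simp only [Legal.expo, Nat.cast_zero, zero_div, Real.rpow_zero, mul_one]
        exact mul_le_mul (single_le_sum (fun m _ => hC0 m) (Finset.mem_range.2 (by omega)))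
          (pow_le_pow_right₀ ((scale0 (A := A)).one_le t) hl)
          (pow_nonneg (zero_le_one.trans ((scale0 (A := A)).one_le t)) l)
          (Finset.sum_nonneg fun m _ => hC0 m)
      · have hy1 : y ∉ closedBall (0 : R2) 1 := fun h => hy (closedBall_subset_ball (by norm_num) h)
        have he : chartCut cell c t =ᶠ[𝓝 y] fun _ => 0 := by
          filter_upwards [isClosed_closedBall.isOpen_compl.mem_nhds hy1] with w hw
          by_contra h
          exact hw (chartCut_pos cell c t h).1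
        rw [(he.iteratedFDeriv ℝ l).eq_of_nhds, iteratedFDeriv_fun_zero, Pi.zero_apply, norm_zero]
        exact hs
    refine (hcg _ (chartCut_smooth cell c t) (chartCut_supp cell c t) _ hBi k z hz).trans
      (le_of_eq (by ring))
  have hsum : ∀ s : Finset (A.Col n), Cost (scale0 (A := A) (Ael := Ael) (Ab := Ab) (c1 := c1))
      (fun _ _ => 1) (fun t z => ∑ c ∈ s, colCut cell c t (A.par k z) ^ 2) := fun s => by
    induction s using Finset.cons_induction with
    | empty =>
      simp only [Finset.sum_empty]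
      exact Cost.const (0 : ℝ)
    | cons c s hc ih =>
      refine (((h1 c).bilin (h1 c) (ContinuousLinearMap.mul ℝ ℝ)).mono zero_le_one
        (fun _ _ _ => zero_le_one) (fun _ _ _ => by norm_num)).add ih |>.congr fun t z _ => ?_
      rw [Finset.sum_cons, pow_two]
      rfl
  exact hsum Finset.univ

/-- The normalised cut-off of a colour in its chart, before scaling. -/
def unitCut (c : A.Col n) (t : A.Dat Ael Ab c1) (z : R2) : ℝ :=
  chartCut cell c t z * (Real.sqrt (total cell t (A.par c.1 z)))⁻¹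

/-- The weight of a colour in its chart. -/
def chi (c : A.Col n) (t : A.Dat Ael Ab c1) (z : R2) : ℝ :=
  Real.sqrt (t.K ^ t.D)⁻¹ * unitCut cell c t z

/-- The square weight of a colour on the manifold. -/
def share (c : A.Col n) (t : A.Dat Ael Ab c1) (p : M) : ℝ :=
  (t.K ^ t.D)⁻¹ * colCut cell c t p ^ 2 / total cell t p

variable {cell}

/-- All properties of the weights. -/
theorem chi_props (hcell : ∀ T ∈ ellSet Ael, ∃ i, ‖T - (cell i).mid‖ ≤ (cell i).rad / 2) :
    ∃ C : ℝ, 0 ≤ C ∧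
      (∀ (c : A.Col n) (t : A.Dat Ael Ab c1), ContDiff ℝ ∞ (chi cell c t) ∧
        (∀ z, 0 ≤ chi cell c t z ∧ chi cell c t z ≤ C * Real.sqrt (t.K ^ t.D)⁻¹) ∧
        (∀ z, chartCut cell c t z = 0 → chi cell c t z = 0) ∧
        ∀ z ∈ ball (0 : R2) 3, chi cell c t z ^ 2 = share cell c t (A.par c.1 z)) ∧
      (∀ (t : A.Dat Ael Ab c1) (p : M), ∑ c, share cell c t p = (t.K ^ t.D)⁻¹) ∧
      ∀ c : A.Col n, Flt (scale0 (A := A) (Ael := Ael) (Ab := Ab) (c1 := c1))
        (fun t z => chi cell c t z) := by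
  obtain ⟨c₀, C₀, hc₀, hrange⟩ := total_range (A := A) (Ab := Ab) (c1 := c1) hcell
  have hpos : ∀ (t : A.Dat Ael Ab c1) p, 0 < total cell t p := fun t p =>
    hc₀.trans_le (hrange t p).1
  have hsqrt : ∀ (t : A.Dat Ael Ab c1) p, (Real.sqrt (total cell t p))⁻¹ ≤ (Real.sqrt c₀)⁻¹ :=
    fun t p => inv_anti₀ (Real.sqrt_pos.2 hc₀) (Real.sqrt_le_sqrt (hrange t p).1)
  have hu0 : ∀ (c : A.Col n) (t : A.Dat Ael Ab c1) z, 0 ≤ unitCut cell c t z := fun c t z =>
    mul_nonneg (chartCut_nonneg cell c t z) (inv_nonneg.2 (Real.sqrt_nonneg _))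
  refine ⟨(Real.sqrt c₀)⁻¹, inv_nonneg.2 (Real.sqrt_nonneg _), fun c t => ⟨?_, fun z => ⟨?_, ?_⟩,
    fun z hz => by simp [chi, unitCut, hz], fun z hz => ?_⟩, fun t p => ?_, fun c => ?_⟩
  · refine contDiff_const.mul (contDiff_iff_contDiffAt.2 fun z => ?_)
    by_cases hz : z ∈ ball (0 : R2) 3
    · exact (chartCut_smooth cell c t).contDiffAt.mul
        ((((chart_smooth (total_smooth cell t) c.1).contDiffAt (isOpen_ball.mem_nhds hz)).sqrt
          (hpos t _).ne').inv (Real.sqrt_pos.2 (hpos t _)).ne')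
    · refine (contDiffAt_const (c := (0 : ℝ))).congr_of_eventuallyEq ?_
      have hz1 : z ∉ closedBall (0 : R2) 1 := fun h => hz (closedBall_subset_ball (by norm_num) h)
      filter_upwards [isClosed_closedBall.isOpen_compl.mem_nhds hz1] with y hy
      have : chartCut cell c t y = 0 := by
        by_contra h
        exact hy (chartCut_pos cell c t h).1
      simp [unitCut, this]
  · exact mul_nonneg (Real.sqrt_nonneg _) (hu0 c t z)
  · rw [chi, mul_comm ((Real.sqrt c₀)⁻¹)]
    refine mul_le_mul_of_nonneg_left ?_ (Real.sqrt_nonneg _)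
    calc unitCut cell c t z ≤ 1 * (Real.sqrt c₀)⁻¹ :=
          mul_le_mul (chartCut_le_one cell c t z) (hsqrt t _)
            (inv_nonneg.2 (Real.sqrt_nonneg _)) zero_le_one
      _ = _ := one_mul _
  · rw [chi, unitCut, share, colCut_par cell c t hz, mul_pow, mul_pow,
      Real.sq_sqrt (inv_nonneg.2 (pow_nonneg (by linarith [t.one_le]) _)), inv_pow,
      Real.sq_sqrt (hpos t _).le]
    ring
  · rw [show ∑ c, share cell c t p = ∑ c, (t.K ^ t.D)⁻¹ / total cell t p * colCut cell c t p ^ 2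
      from Finset.sum_congr rfl fun c _ => by unfold share; ring, ← Finset.mul_sum]
    show (t.K ^ t.D)⁻¹ / total cell t p * total cell t p = _
    rw [div_mul_cancel₀ _ (hpos t p).ne']
  · have hG : Cost (scale0 (A := A) (Ael := Ael) (Ab := Ab) (c1 := c1)) (fun _ _ => 1)
        (fun t z => (Real.sqrt (total cell t (A.par c.1 z)))⁻¹) :=
      (cost_total (A := A) (Ael := Ael) (Ab := Ab) (c1 := c1) cell c.1).comp_smooth isOpen_Ioi
        (isCompact_Icc (a := c₀) (b := C₀)) (fun y hy => hc₀.trans_le hy.1)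
        ((contDiffOn_id.sqrt fun y hy => (ne_of_gt hy)).inv
          fun y hy => (Real.sqrt_pos.2 hy).ne')
        fun t z _ => hrange t _
    have h := Flt.mul_low (flt_chartCut (A := A) (Ael := Ael) (Ab := Ab) (c1 := c1) cell c) hG
      (fun t z => chartCut_nonneg cell c t z) (c := (Real.sqrt (max C₀ c₀))⁻¹)
      (inv_pos.2 (Real.sqrt_pos.2 (hc₀.trans_le (le_max_right _ _))))
      (fun t z _ => inv_anti₀ (Real.sqrt_pos.2 (hpos t _))
        (Real.sqrt_le_sqrt ((hrange t _).2.trans (le_max_left _ _))))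
    exact Flt.smul_le_one h (fun t z => hu0 c t z) (fun t => Real.sqrt_nonneg _)
      (fun t => Real.sqrt_le_one.2 (inv_le_one_of_one_le₀ (one_le_pow₀ t.one_le)))

end Atlas

end Vale.Agent.P205.Iter
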